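import Vale.Agent.P356.SV.Ops

set_option linter.all false

/-!
Transport of functions of the reduced state across a cut, and the local second order estimate
(`CutBound`) for operators that split along the cut.
-/

namespace Vale.Agent.P356.SV

open Matrix Finset Vale.Agent.P356 Vale.Agent.P356.Path
open scoped BigOperators ComplexOrder Kronecker

section scalar

/-- `cosh s - 1 ≤ s ^ 2 / 2 * exp s` -/
theorem b2_cosh_sub_one {s : ℝ} (hs : 0 ≤ s) : Real.cosh s - 1 ≤ s ^ 2 / 2 * Real.exp s := by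
  have e1 : Real.exp s = Real.exp (s / 2) ^ 2 := by
    rw [← Real.exp_nat_mul]
    congr 1
    push_cast
    ring
  have e2 : Real.exp (-s) = Real.exp (-(s / 2)) ^ 2 := by
    rw [← Real.exp_nat_mul]
    congr 1
    push_cast
    ring
  have e3 : Real.exp (s / 2) * Real.exp (-(s / 2)) = 1 := by
    rw [← Real.exp_add, add_neg_cancel, Real.exp_zero]
  have h1 : Real.exp (-(s / 2)) ≥ (1 - s) * Real.exp (s / 2) := by
    have h := Real.add_one_le_exp (-s)
    have h2 : Real.exp (-(s / 2)) = Real.exp (-s) * Real.exp (s / 2) := by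
      rw [← Real.exp_add]
      congr 1
      ring
    rw [h2]
    refine mul_le_mul_of_nonneg_right ?_ (Real.exp_pos _).le
    linarith only [h]
  have h2 : Real.exp (-(s / 2)) ≤ Real.exp (s / 2) := Real.exp_le_exp.mpr (by linarith only [hs])
  have h3 : (Real.exp (s / 2) - Real.exp (-(s / 2))) ^ 2 ≤ (s * Real.exp (s / 2)) ^ 2 := by
    refine pow_le_pow_left₀ (by linarith only [h2]) ?_ 2
    linarith only [h1]
  rw [Real.cosh_eq, e1, e2]
  nlinarith only [h3, e3]

theorem b2_one_le_cosh (s : ℝ) : 1 ≤ Real.cosh s := by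
  have h1 := Real.cosh_sq s
  have h2 := Real.cosh_pos s
  nlinarith only [h1, h2, sq_nonneg (Real.sinh s)]

theorem b2_cosh_mono {a b : ℝ} (h : |a| ≤ |b|) : Real.cosh a ≤ Real.cosh b := by
  rw [← Real.cosh_abs a, ← Real.cosh_abs b]
  have ha := abs_nonneg a
  set s := |a|
  set t := |b|
  have h1 : Real.exp s ≤ Real.exp t := Real.exp_le_exp.mpr h
  have h2 : Real.exp (-(s + t)) ≤ 1 := Real.exp_le_one_iff.mpr (by linarith only [ha, h])
  have h3 : Real.exp (-s) = Real.exp t * Real.exp (-(s + t)) := by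
    rw [← Real.exp_add]
    congr 1
    ring
  have h4 : Real.exp (-t) = Real.exp s * Real.exp (-(s + t)) := by
    rw [← Real.exp_add]
    congr 1
    ring
  rw [Real.cosh_eq, Real.cosh_eq, h3, h4]
  nlinarith only [h1, h2]

/-- the scalar estimate behind the local bound -/
theorem b2_scalar_aux {x y θ : ℝ} (hx : 0 < x) (hy : 0 < y) (hxy : y ≤ x) (h0 : 0 ≤ θ)
    (h4 : θ ≤ 1 / 4) :
    Real.sqrt (x * y) * (Real.cosh (θ * (Real.log x - Real.log y)) - 1) ≤
      9 / 2 * θ ^ 2 * (x + y) := by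
  set t := Real.log x - Real.log y with ht
  have ht0 : 0 ≤ t := by
    have := Real.log_le_log hy hxy
    linarith only [this]
  have hy' : y = x * Real.exp (-t) := by
    have : Real.exp (-t) = y / x := by
      rw [ht, neg_sub, Real.exp_sub, Real.exp_log hx, Real.exp_log hy]
    rw [this]
    field_simp
  have hs : Real.sqrt (x * y) = x * Real.exp (-(t / 2)) := by
    rw [hy']
    have : x * (x * Real.exp (-t)) = (x * Real.exp (-(t / 2))) ^ 2 := by
      rw [mul_pow, ← Real.exp_nat_mul]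
      have : ((2 : ℕ) : ℝ) * (-(t / 2)) = -t := by push_cast; ring
      rw [this]
      ring
    rw [this, Real.sqrt_sq (by positivity)]
  have h1 := b2_cosh_sub_one (mul_nonneg h0 ht0)
  have h2 : Real.exp (-(t / 2)) * Real.exp (θ * t) ≤ Real.exp (-(t / 2 / 2)) := by
    rw [← Real.exp_add]
    refine Real.exp_le_exp.mpr ?_
    nlinarith only [ht0, h4]
  have h3 := sq_mul_exp_le (t / 2) (by linarith only [ht0])
  have h5 : Real.exp (-(t / 2)) * (Real.cosh (θ * t) - 1) ≤ 9 / 2 * θ ^ 2 := by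
    calc Real.exp (-(t / 2)) * (Real.cosh (θ * t) - 1)
        ≤ Real.exp (-(t / 2)) * ((θ * t) ^ 2 / 2 * Real.exp (θ * t)) :=
          mul_le_mul_of_nonneg_left h1 (Real.exp_pos _).le
      _ = (θ * t) ^ 2 / 2 * (Real.exp (-(t / 2)) * Real.exp (θ * t)) := by ring
      _ ≤ (θ * t) ^ 2 / 2 * Real.exp (-(t / 2 / 2)) :=
          mul_le_mul_of_nonneg_left h2 (by positivity)
      _ = 2 * θ ^ 2 * ((t / 2) ^ 2 * Real.exp (-(t / 2 / 2))) := by ring
      _ ≤ 2 * θ ^ 2 * (9 / 4) := mul_le_mul_of_nonneg_left h3 (by positivity)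
      _ = 9 / 2 * θ ^ 2 := by ring
  rw [hs]
  calc x * Real.exp (-(t / 2)) * (Real.cosh (θ * t) - 1)
      = x * (Real.exp (-(t / 2)) * (Real.cosh (θ * t) - 1)) := by ring
    _ ≤ x * (9 / 2 * θ ^ 2) := mul_le_mul_of_nonneg_left h5 hx.le
    _ ≤ 9 / 2 * θ ^ 2 * (x + y) := by nlinarith only [hy, sq_nonneg θ]

theorem b2_scalar {x y θ d : ℝ} (hx : 0 < x) (hy : 0 < y) (h0 : 0 ≤ θ) (h4 : θ ≤ 1 / 4)
    (hd : |d| ≤ |Real.log x - Real.log y|) :
    Real.cosh (θ * d) - 1 ≤ 9 / 2 * θ ^ 2 * ((x + y) / Real.sqrt (x * y)) := by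
  have hs0 : 0 < Real.sqrt (x * y) := Real.sqrt_pos.mpr (mul_pos hx hy)
  have h1 : Real.cosh (θ * d) ≤ Real.cosh (θ * (Real.log x - Real.log y)) := by
    refine b2_cosh_mono ?_
    rw [abs_mul, abs_mul]
    exact mul_le_mul_of_nonneg_left hd (abs_nonneg _)
  have h2 : Real.sqrt (x * y) * (Real.cosh (θ * (Real.log x - Real.log y)) - 1) ≤
      9 / 2 * θ ^ 2 * (x + y) := by
    rcases le_total y x with h | h
    · exact b2_scalar_aux hx hy h h0 h4
    · have := b2_scalar_aux hy hx h h0 h4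
      have e : Real.cosh (θ * (Real.log y - Real.log x)) =
          Real.cosh (θ * (Real.log x - Real.log y)) := by
        rw [← Real.cosh_neg]
        congr 1
        ring
      rw [e, mul_comm y x] at this
      linarith only [this]
  rw [mul_div_assoc', le_div_iff₀ hs0]
  nlinarith only [h1, h2, hs0]

end scalar

section cut
variable {N α β : Type*} [Fintype N] [DecidableEq N] [Fintype α] [Fintype β] [DecidableEq α]
  [DecidableEq β]

/-- weighted block sum -/
theorem b2_prod_bound (p : α → ℝ) (hp0 : ∀ i, 0 ≤ p i)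
    (a q F : α → α → ℝ) (ha : ∀ i j, 0 ≤ a i j) (hq : ∀ i j, 0 ≤ q i j) {u w K : ℝ}
    (hK : 0 ≤ K)
    (ha1 : ∑ i, p i * ∑ j, a i j ^ 2 ≤ u) (ha2 : ∑ j, p j * ∑ i, a i j ^ 2 ≤ u)
    (hq0 : ∀ i j, p i = 0 ∨ p j = 0 → q i j = 0)
    (hq1 : ∑ i, ∑ j, q i j ^ 2 / p j ≤ w) (hq2 : ∑ j, ∑ i, q i j ^ 2 / p i ≤ w)
    (hF : ∀ i j, 0 < p i → 0 < p j → F i j ≤ K * ((p i + p j) / Real.sqrt (p i * p j))) :
    ∑ i, ∑ j, a i j * q i j * F i j ≤ 2 * K * Real.sqrt (u * w) := by
  have hu0 : 0 ≤ u := le_trans (Finset.sum_nonneg fun i _ =>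
    mul_nonneg (hp0 i) (Finset.sum_nonneg fun j _ => sq_nonneg _)) ha1
  have hw0 : 0 ≤ w := le_trans (Finset.sum_nonneg fun i _ =>
    Finset.sum_nonneg fun j _ => div_nonneg (sq_nonneg _) (hp0 j)) hq1
  set X : α × α → ℝ := fun z => a z.1 z.2 * Real.sqrt (p z.1 + p z.2) with hX
  set Y : α × α → ℝ := fun z => q z.1 z.2 * Real.sqrt (1 / p z.1 + 1 / p z.2) with hY
  have hpt : ∀ i j, a i j * q i j * F i j ≤ K * (X (i, j) * Y (i, j)) := by
    intro i j
    by_cases hi : p i = 0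
    · simp [hX, hY, hq0 i j (Or.inl hi)]
    by_cases hj : p j = 0
    · simp [hX, hY, hq0 i j (Or.inr hj)]
    have hi' : 0 < p i := lt_of_le_of_ne (hp0 i) (Ne.symm hi)
    have hj' : 0 < p j := lt_of_le_of_ne (hp0 j) (Ne.symm hj)
    set s := Real.sqrt (p i * p j) with hs
    have hs0 : 0 < s := Real.sqrt_pos.mpr (mul_pos hi' hj')
    have hXY : X (i, j) * Y (i, j) = a i j * q i j * ((p i + p j) / s) := by
      have e1 : Real.sqrt (p i + p j) * Real.sqrt (1 / p i + 1 / p j) = (p i + p j) / s := by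
        rw [← Real.sqrt_mul (by (clear * - hi' hj'; positivity))]
        have e2 : (p i + p j) * (1 / p i + 1 / p j) = (p i + p j) ^ 2 / (p i * p j) := by
          field_simp
          ring
        rw [e2, Real.sqrt_div (by positivity), Real.sqrt_sq (by (clear * - hi' hj'; positivity))]
      simp only [hX, hY]
      rw [← e1]
      ring
    rw [hXY]
    have h0 : 0 ≤ a i j * q i j := mul_nonneg (ha i j) (hq i j)
    have := mul_le_mul_of_nonneg_left (hF i j hi' hj') h0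
    (clear * - this; linarith)
  have hXX : ∑ z, X z ^ 2 ≤ 2 * u := by
    rw [Fintype.sum_prod_type]
    have e : ∀ i j, X (i, j) ^ 2 = p i * a i j ^ 2 + p j * a i j ^ 2 := by
      intro i j
      simp only [hX]
      rw [mul_pow, Real.sq_sqrt (add_nonneg (hp0 i) (hp0 j))]
      ring
    simp only [e, Finset.sum_add_distrib]
    have e1 : ∑ i, ∑ j, p j * a i j ^ 2 = ∑ j, p j * ∑ i, a i j ^ 2 := by
      rw [Finset.sum_comm]
      exact Finset.sum_congr rfl fun j _ => (Finset.mul_sum _ _ _).symm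
    have e3 : ∑ i, ∑ j, p i * a i j ^ 2 = ∑ i, p i * ∑ j, a i j ^ 2 :=
      Finset.sum_congr rfl fun j _ => (Finset.mul_sum _ _ _).symm
    rw [e1, e3]
    linarith only [ha1, ha2]
  have hYY : ∑ z, Y z ^ 2 ≤ 2 * w := by
    rw [Fintype.sum_prod_type]
    have e : ∀ i j, Y (i, j) ^ 2 = q i j ^ 2 / p i + q i j ^ 2 / p j := by
      intro i j
      simp only [hY]
      rw [mul_pow, Real.sq_sqrt (add_nonneg (one_div_nonneg.mpr (hp0 i))
        (one_div_nonneg.mpr (hp0 j)))]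
      ring
    simp only [e, Finset.sum_add_distrib]
    have e2 : ∑ i, ∑ j, q i j ^ 2 / p i = ∑ j, ∑ i, q i j ^ 2 / p i := Finset.sum_comm
    rw [e2]
    (clear * - hq1 hq2; linarith)
  calc ∑ i, ∑ j, a i j * q i j * F i j
      ≤ ∑ i, ∑ j, K * (X (i, j) * Y (i, j)) :=
        Finset.sum_le_sum fun i _ => Finset.sum_le_sum fun j _ => hpt i j
    _ = K * ∑ z, X z * Y z := by
        rw [Fintype.sum_prod_type, Finset.mul_sum]
        exact Finset.sum_congr rfl fun i _ => (Finset.mul_sum _ _ _).symm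
    _ ≤ K * (Real.sqrt (2 * u) * Real.sqrt (2 * w)) := by
        refine mul_le_mul_of_nonneg_left ?_ hK
        refine (Real.sum_mul_le_sqrt_mul_sqrt _ _ _).trans ?_
        exact mul_le_mul (Real.sqrt_le_sqrt hXX) (Real.sqrt_le_sqrt hYY) (Real.sqrt_nonneg _)
          (Real.sqrt_nonneg _)
    _ = 2 * K * Real.sqrt (u * w) := by
        rw [← Real.sqrt_mul (by (clear * - hu0; positivity))]
        have e : 2 * u * (2 * w) = 2 ^ 2 * (u * w) := by ring
        rw [e, Real.sqrt_mul (by norm_num), Real.sqrt_sq (by norm_num)]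
        ring

/-- the rotated state -/
theorem b2_unrot (x : α × β → ℂ) (a : α) (b : β) :
    x (a, b) = ∑ i, eigU x a i * ((rotW x)ᴴ *ᵥ x) (i, b) := by
  have hW : rotW x * (rotW x)ᴴ = 1 := rotW_mul x
  have h : x = rotW x *ᵥ ((rotW x)ᴴ *ᵥ x) := by rw [mulVec_mulVec, hW, one_mulVec]
  have h2 : (rotW x *ᵥ ((rotW x)ᴴ *ᵥ x)) (a, b) =
      ∑ i, eigU x a i * ((rotW x)ᴴ *ᵥ x) (i, b) := by
    generalize (rotW x)ᴴ *ᵥ x = z
    simp only [rotW, mulVec, dotProduct, Fintype.sum_prod_type, kroneckerMap_apply,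
      Matrix.one_apply]
    refine Finset.sum_congr rfl fun i _ => ?_
    rw [Finset.sum_eq_single b]
    · simp only [if_true, mul_one]
    · intro b' _ hb
      rw [if_neg (Ne.symm hb), mul_zero, zero_mul]
    · intro h
      exact absurd (Finset.mem_univ b) h
  rw [← h2, ← h]

/-- action of a function of the reduced state in the rotated frame -/
theorem b2_fOp_rot (x : α × β → ℂ) (f : α → ℝ) :
    (fOp x f ⊗ₖ (1 : Matrix β β ℂ)) *ᵥ x =
      rotW x *ᵥ (fun z : α × β => (f z.1 : ℂ) * ((rotW x)ᴴ *ᵥ x) z) := by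
  have hd : (fun z : α × β => (f z.1 : ℂ) * ((rotW x)ᴴ *ᵥ x) z) =
      (diagonal (fun i => (f i : ℂ)) ⊗ₖ (1 : Matrix β β ℂ)) *ᵥ ((rotW x)ᴴ *ᵥ x) := by
    generalize (rotW x)ᴴ *ᵥ x = y
    funext z
    obtain ⟨a, b⟩ := z
    simp only [mulVec, dotProduct, Fintype.sum_prod_type, kroneckerMap_apply,
      Matrix.one_apply, Matrix.diagonal_apply]
    rw [Finset.sum_eq_single a, Finset.sum_eq_single b]
    · simp only [if_true, mul_one]
    · intro b' _ hb
      rw [if_neg (Ne.symm hb), mul_zero, zero_mul]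
    · intro h
      exact absurd (Finset.mem_univ b) h
    · intro a' _ ha
      refine Finset.sum_eq_zero fun b' _ => ?_
      rw [if_neg (Ne.symm ha), zero_mul, zero_mul]
    · intro h
      exact absurd (Finset.mem_univ a) h
  rw [hd, mulVec_mulVec, mulVec_mulVec]
  congr 1
  rw [rotW, conjTranspose_kronecker, conjTranspose_one, ← mul_kronecker_mul,
    ← mul_kronecker_mul, Matrix.mul_one, Matrix.mul_one, fOp, Matrix.mul_assoc]

/-- sesquilinear forms through a reindexing -/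
theorem b2_form_reindex (e : N ≃ α × β) (X : Matrix N N ℂ) (u v : N → ℂ) :
    star u ⬝ᵥ (X *ᵥ v) =
      star (u ∘ e.symm) ⬝ᵥ ((Matrix.reindex e e X) *ᵥ (v ∘ e.symm)) := by
  rw [Matrix.reindex_apply, Matrix.submatrix_mulVec_equiv]
  simp only [dotProduct, Pi.star_apply, Function.comp_apply, Equiv.symm_symm]
  rw [← Equiv.sum_comp e.symm]
  refine Finset.sum_congr rfl fun z _ => ?_
  congr 2
  funext n
  simp only [Function.comp_apply, Equiv.symm_apply_apply]

/-- The form of `X` between two vectors obtained from `ψ` by functions of the reduced state. -/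
theorem b2_form (e : N ≃ α × β) (X : Matrix N N ℂ) (ψ : N → ℂ) (f g : α → ℝ) :
    star (opL e (fOp (ψ ∘ e.symm) f) *ᵥ ψ) ⬝ᵥ
        (X *ᵥ (opL e (fOp (ψ ∘ e.symm) g) *ᵥ ψ)) =
      ∑ i, ∑ j, ((f i * g j : ℝ) : ℂ) *
        blk ((rotW (ψ ∘ e.symm))ᴴ * Matrix.reindex e e X * rotW (ψ ∘ e.symm))
          ((rotW (ψ ∘ e.symm))ᴴ *ᵥ (ψ ∘ e.symm)) i j := by
  rw [b2_form_reindex e, opL_mulVec, opL_mulVec, b2_fOp_rot, b2_fOp_rot, ← form_eq,
    star_mulVec, ← dotProduct_mulVec, mulVec_mulVec, mulVec_mulVec, Matrix.mul_assoc]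

theorem b2_form_one (e : N ≃ α × β) (X : Matrix N N ℂ) (ψ : N → ℂ) :
    star ψ ⬝ᵥ (X *ᵥ ψ) =
      ∑ i, ∑ j, blk ((rotW (ψ ∘ e.symm))ᴴ * Matrix.reindex e e X * rotW (ψ ∘ e.symm))
          ((rotW (ψ ∘ e.symm))ᴴ *ᵥ (ψ ∘ e.symm)) i j := by
  have h := b2_form e X ψ (fun _ => 1) (fun _ => 1)
  rw [fOp_one, opL_one, one_mulVec] at h
  rw [h]
  simp only [mul_one, Complex.ofReal_one, one_mul]

/-- the difference in `CutBound` in terms of block matrix elements -/
theorem b2_diff (e : N ≃ α × β) (X : Matrix N N ℂ) (ψ : N → ℂ) (θ : ℝ) (g : α → ℝ) :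
    (star ψ ⬝ᵥ (X *ᵥ ψ)).re -
      (star (opL e (fOp (ψ ∘ e.symm) (fun i => Real.exp (θ * g i))) *ᵥ ψ) ⬝ᵥ
        (X *ᵥ (opL e (fOp (ψ ∘ e.symm) (fun i => Real.exp (-(θ * g i)))) *ᵥ ψ))).re =
      ∑ i, ∑ j, (1 - Real.exp (θ * (g i - g j))) *
        (blk ((rotW (ψ ∘ e.symm))ᴴ * Matrix.reindex e e X * rotW (ψ ∘ e.symm))
          ((rotW (ψ ∘ e.symm))ᴴ *ᵥ (ψ ∘ e.symm)) i j).re := by
  rw [b2_form, b2_form_one e X ψ]
  simp only [Complex.re_sum, Complex.re_ofReal_mul]
  rw [← Finset.sum_sub_distrib]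
  refine Finset.sum_congr rfl fun i _ => ?_
  rw [← Finset.sum_sub_distrib]
  refine Finset.sum_congr rfl fun j _ => ?_
  rw [← Real.exp_add]
  have e1 : θ * g i + -(θ * g j) = θ * (g i - g j) := by ring
  rw [e1]
  ring

/-- symmetrised difference for hermitian blocks -/
theorem b2_symm (B : α → α → ℂ) (hB : ∀ i j, star (B i j) = B j i) (θ : ℝ) (g : α → ℝ) :
    ∑ i, ∑ j, (1 - Real.exp (θ * (g i - g j))) * (B i j).re ≤
      ∑ i, ∑ j, ‖B i j‖ * (Real.cosh (θ * (g i - g j)) - 1) := by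
  have hre : ∀ i j, (B j i).re = (B i j).re := by
    intro i j
    rw [← hB i j, RCLike.star_def, Complex.conj_re]
  have hswap : ∑ i, ∑ j, (1 - Real.exp (θ * (g i - g j))) * (B i j).re =
      ∑ i, ∑ j, (1 - Real.exp (-(θ * (g i - g j)))) * (B i j).re := by
    rw [Finset.sum_comm]
    refine Finset.sum_congr rfl fun i _ => Finset.sum_congr rfl fun j _ => ?_
    rw [hre i j]
    congr 3
    ring
  have havg : ∑ i, ∑ j, (1 - Real.exp (θ * (g i - g j))) * (B i j).re =
      ∑ i, ∑ j, (1 - Real.cosh (θ * (g i - g j))) * (B i j).re := by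
    have h2 : ∑ i, ∑ j, (1 - Real.cosh (θ * (g i - g j))) * (B i j).re =
        (∑ i, ∑ j, (1 - Real.exp (θ * (g i - g j))) * (B i j).re +
        ∑ i, ∑ j, (1 - Real.exp (-(θ * (g i - g j)))) * (B i j).re) / 2 := by
      rw [← Finset.sum_add_distrib, Finset.sum_div]
      refine Finset.sum_congr rfl fun i _ => ?_
      rw [← Finset.sum_add_distrib, Finset.sum_div]
      refine Finset.sum_congr rfl fun j _ => ?_
      rw [Real.cosh_eq]
      ring
    rw [h2, ← hswap]
    ring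
  rw [havg]
  refine Finset.sum_le_sum fun i _ => Finset.sum_le_sum fun j _ => ?_
  have h1 : 0 ≤ Real.cosh (θ * (g i - g j)) - 1 := by
    have := b2_one_le_cosh (θ * (g i - g j))
    linarith only [this]
  have h2 : -(B i j).re ≤ ‖B i j‖ := (neg_le_abs _).trans (Complex.abs_re_le_norm _)
  nlinarith only [h1, h2]

/-- the reindexed operator of a product -/
theorem b2_reindex_prod (e : N ≃ α × β) (P : Matrix α α ℂ) (Q : Matrix β β ℂ) :
    Matrix.reindex e e (opL e P * opR e Q) = P ⊗ₖ Q := by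
  rw [opL_mul_opR]
  ext z w
  simp only [Matrix.reindex_apply, Matrix.submatrix_apply, Equiv.symm_symm,
    Equiv.apply_symm_apply]

theorem b2_reindex_sum {ι : Type*} [Fintype ι] (e : N ≃ α × β) (c : ι → ℂ)
    (A : ι → Matrix N N ℂ) :
    Matrix.reindex e e (∑ k, c k • A k) = ∑ k, c k • Matrix.reindex e e (A k) := by
  ext z w
  simp only [Matrix.reindex_apply, Matrix.submatrix_apply, Matrix.sum_apply, Matrix.smul_apply]

theorem b2_rot_herm (e : N ≃ α × β) {X : Matrix N N ℂ} (hX : X.IsHermitian)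
    (W : Matrix (α × β) (α × β) ℂ) : (Wᴴ * Matrix.reindex e e X * W).IsHermitian := by
  have h : (Matrix.reindex e e X).IsHermitian := by
    unfold Matrix.IsHermitian at *
    rw [Matrix.conjTranspose_reindex, hX]
  unfold Matrix.IsHermitian at *
  rw [conjTranspose_mul, conjTranspose_mul, conjTranspose_conjTranspose, h, Matrix.mul_assoc]

/-- Local second order bound for an operator with a product decomposition along the cut. -/
theorem cutBound_of_split (e : N ≃ α × β) {ι : Type*} [Fintype ι] (c : ι → ℂ)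
    (P : ι → Matrix α α ℂ) (Q : ι → Matrix β β ℂ)
    (hP : ∀ k, Contr (P k)) (hP' : ∀ k, Contr (P k)ᴴ)
    (hQ : ∀ k, Contr (Q k)) (hQ' : ∀ k, Contr (Q k)ᴴ)
    (X : Matrix N N ℂ) (hX : X.IsHermitian) (hs : X = ∑ k, c k • (opL e (P k) * opR e (Q k))) :
    CutBound e X (∑ k, ‖c k‖) := by
  intro ψ hψ θ h0 h4 g hg
  rw [b2_diff]
  set x := ψ ∘ e.symm with hx
  set W := rotW x with hW
  set Ω := Wᴴ *ᵥ x with hΩ
  have hp : ∀ i j, ∑ b, Ω (i, b) * star (Ω (j, b)) = if i = j then (eigp x i : ℂ) else 0 :=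
    rot_self x
  have hp0 : ∀ i, 0 ≤ eigp x i := eigp_nonneg x
  have hpn : ∀ i, ∑ b, ‖Ω (i, b)‖ ^ 2 = eigp x i := row_norm_of_diag hp
  have hp1 : ∑ i, eigp x i = 1 := by
    refine eigp_sum x ?_
    have := nsq_comp e ψ
    rw [hψ] at this
    exact this
  have hblk : Wᴴ * Matrix.reindex e e X * W =
      ∑ k, c k • (((eigU x)ᴴ * P k * eigU x) ⊗ₖ Q k) := by
    rw [hs, b2_reindex_sum, Matrix.mul_sum, Matrix.sum_mul]
    refine Finset.sum_congr rfl fun k _ => ?_
    rw [b2_reindex_prod, Matrix.mul_smul, Matrix.smul_mul, hW, rotW_conj]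
  have hherm := b2_rot_herm e hX W
  refine (b2_symm _ (fun i j => blk_herm hherm Ω i j) θ g).trans ?_
  have hcosh : ∀ i j, 0 ≤ Real.cosh (θ * (g i - g j)) - 1 := by
    intro i j
    have := b2_one_le_cosh (θ * (g i - g j))
    linarith only [this]
  let a : ι → α → α → ℝ := fun k i j => ‖((eigU x)ᴴ * P k * eigU x) i j‖
  let q : ι → α → α → ℝ := fun k i j =>
    ‖∑ b, star (Ω (i, b)) * (Q k *ᵥ (fun b => Ω (j, b))) b‖
  have hbn : ∀ i j, ‖blk (Wᴴ * Matrix.reindex e e X * W) Ω i j‖ ≤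
      ∑ k, ‖c k‖ * (a k i j * q k i j) := by
    intro i j
    rw [hblk, blk_sum]
    refine (norm_sum_le _ _).trans (Finset.sum_le_sum fun k _ => ?_)
    rw [blk_smul, norm_mul, blk_prod_norm]
  have hrow : ∀ k, ∑ z, ‖(((1 : Matrix α α ℂ) ⊗ₖ Q k) *ᵥ Ω) z‖ ^ 2 ≤ 1 := by
    intro k
    rw [nsq_right, ← hp1]
    refine Finset.sum_le_sum fun i _ => ?_
    rw [← hpn i]
    exact hQ k _
  have hrow' : ∀ k, ∑ z, ‖(((1 : Matrix α α ℂ) ⊗ₖ (Q k)ᴴ) *ᵥ Ω) z‖ ^ 2 ≤ 1 := by
    intro k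
    rw [nsq_right, ← hp1]
    refine Finset.sum_le_sum fun i _ => ?_
    rw [← hpn i]
    exact hQ' k _
  have hzero : ∀ i, eigp x i = 0 → ∀ b, Ω (i, b) = 0 := by
    intro i hi b
    have h1 := hpn i
    rw [hi] at h1
    have h2 := (Finset.sum_eq_zero_iff_of_nonneg (fun b _ => by (clear * -; positivity))).mp h1 b
      (Finset.mem_univ b)
    simpa using h2
  have hk : ∀ k, ∑ i, ∑ j, a k i j * q k i j * (Real.cosh (θ * (g i - g j)) - 1) ≤
      9 * θ ^ 2 := by
    intro k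
    have hcU : Contr ((eigU x)ᴴ * P k * eigU x) := contr_conj (hP k) _ (eigU_mul x)
    have hcU' : Contr ((eigU x)ᴴ * P k * eigU x)ᴴ := by
      have := contr_conj (hP' k) _ (eigU_mul x)
      rw [conjTranspose_mul, conjTranspose_mul, conjTranspose_conjTranspose, ← Matrix.mul_assoc]
      exact this
    have h3 := hrow k
    have h4' := hrow' k
    rw [nsq_right] at h3 h4'
    have hmain := b2_prod_bound (eigp x) hp0 (a k) (q k)
      (fun i j => Real.cosh (θ * (g i - g j)) - 1) (fun _ _ => norm_nonneg _)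
      (fun _ _ => norm_nonneg _) (u := 1) (w := 1) (K := 9 / 2 * θ ^ 2) (by positivity)
      ?_ ?_ ?_ ?_ ?_ ?_
    · refine hmain.trans (le_of_eq ?_)
      rw [mul_one, Real.sqrt_one]
      ring
    · rw [← hp1]
      refine Finset.sum_le_sum fun i _ => ?_
      have := contr_row hcU' i
      calc eigp x i * ∑ j, a k i j ^ 2 ≤ eigp x i * 1 := mul_le_mul_of_nonneg_left this (hp0 i)
        _ = eigp x i := mul_one _
    · rw [← hp1]
      refine Finset.sum_le_sum fun j _ => ?_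
      have := contr_col hcU j
      calc eigp x j * ∑ i, a k i j ^ 2 ≤ eigp x j * 1 := mul_le_mul_of_nonneg_left this (hp0 j)
        _ = eigp x j := mul_one _
    · rintro i j (hi | hj)
      · simp only [q]
        rw [Finset.sum_eq_zero (fun b _ => by rw [hzero i hi b]; simp), norm_zero]
      · simp only [q]
        have : (fun b => Ω (j, b)) = 0 := funext fun b => hzero j hj b
        rw [this, mulVec_zero]
        simp only [RCLike.star_def, Pi.zero_apply, mul_zero, sum_const_zero, norm_zero]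
    · refine le_trans (Finset.sum_le_sum fun i _ => ?_) h4'
      have hadj : ∀ j, q k i j = ‖∑ b, star (Ω (j, b)) * ((Q k)ᴴ *ᵥ (fun b => Ω (i, b))) b‖ := by
        intro j
        simp only [q]
        rw [← norm_star]
        congr 1
        have e1 : ∑ b, star (Ω (i, b)) * (Q k *ᵥ (fun b => Ω (j, b))) b =
            star (fun b => Ω (i, b)) ⬝ᵥ (Q k *ᵥ (fun b => Ω (j, b))) := rfl
        have e2 : ∑ b, star (Ω (j, b)) * ((Q k)ᴴ *ᵥ (fun b => Ω (i, b))) b =
            star (fun b => Ω (j, b)) ⬝ᵥ ((Q k)ᴴ *ᵥ (fun b => Ω (i, b))) := rfl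
        rw [e1, e2, ← star_dotProduct, star_mulVec, ← dotProduct_mulVec]
      simp only [hadj]
      exact bessel (eigp x) Ω hp hp0 ((Q k)ᴴ *ᵥ (fun b => Ω (i, b)))
    · refine le_trans (Finset.sum_le_sum fun j _ => ?_) h3
      exact bessel (eigp x) Ω hp hp0 (Q k *ᵥ (fun b => Ω (j, b)))
    · intro i j hi hj
      exact b2_scalar hi hj h0 h4 (hg i j hi hj)
  calc ∑ i, ∑ j, ‖blk (Wᴴ * Matrix.reindex e e X * W) Ω i j‖ *
        (Real.cosh (θ * (g i - g j)) - 1)
      ≤ ∑ i, ∑ j, (∑ k, ‖c k‖ * (a k i j * q k i j)) *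
        (Real.cosh (θ * (g i - g j)) - 1) :=
        Finset.sum_le_sum fun i _ => Finset.sum_le_sum fun j _ =>
          mul_le_mul_of_nonneg_right (hbn i j) (hcosh i j)
    _ = ∑ k, ‖c k‖ * ∑ i, ∑ j, a k i j * q k i j * (Real.cosh (θ * (g i - g j)) - 1) := by
        simp only [Finset.sum_mul, Finset.mul_sum]
        have e : ∀ i, ∑ j, ∑ k, ‖c k‖ * (a k i j * q k i j) *
            (Real.cosh (θ * (g i - g j)) - 1) =
            ∑ k, ∑ j, ‖c k‖ * (a k i j * q k i j * (Real.cosh (θ * (g i - g j)) - 1)) := by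
          intro i
          rw [Finset.sum_comm]
          exact Finset.sum_congr rfl fun k _ => Finset.sum_congr rfl fun j _ => by ring
        simp only [e]
        rw [Finset.sum_comm]
    _ ≤ ∑ k, ‖c k‖ * (9 * θ ^ 2) :=
        Finset.sum_le_sum fun k _ => mul_le_mul_of_nonneg_left (hk k) (norm_nonneg _)
    _ = 9 * θ ^ 2 * ∑ k, ‖c k‖ := by rw [← Finset.sum_mul]; ring

/-- Operators on the second factor do not see the conjugation. -/
theorem cutBound_right (e : N ≃ α × β) (S : Matrix β β ℂ) (X : Matrix N N ℂ)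
    (hX : X = opR e S) : CutBound e X 0 := by
  intro ψ hψ θ h0 h4 g hg
  rw [b2_diff, mul_zero]
  refine le_of_eq ?_
  refine Finset.sum_eq_zero fun i _ => Finset.sum_eq_zero fun j _ => ?_
  by_cases hij : i = j
  · subst hij
    rw [sub_self, mul_zero, Real.exp_zero, sub_self, zero_mul]
  · have h1 : Matrix.reindex e e X = (1 : Matrix α α ℂ) ⊗ₖ S := by
      have h2 := b2_reindex_prod e (1 : Matrix α α ℂ) S
      rw [opL_one, Matrix.one_mul] at h2
      rw [hX, h2]
    rw [h1, rotW_conj, Matrix.mul_one, eigU_mul', blk_right S _ hij, Complex.zero_re, mul_zero]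

/-- the inverse pair on the second factor that implements a function of the reduced state -/
theorem b2_pair (x : α × β → ℂ) (y : α → ℝ) (hy : ∀ i, 0 < y i) (s s' : α → ℝ)
    (hs : ∀ i, s i = (y i - 1) / eigp x i) (hs' : ∀ i, s' i = ((y i)⁻¹ - 1) / eigp x i)
    (Φ : Matrix β α ℂ) (hΦ : ∀ b i, Φ b i = ((rotW x)ᴴ *ᵥ x) (i, b)) :
    ((1 : Matrix β β ℂ) + Φ * diagonal (fun i => (s i : ℂ)) * Φᴴ) *
      ((1 : Matrix β β ℂ) + Φ * diagonal (fun i => (s' i : ℂ)) * Φᴴ) = 1 := by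
  have hG : Φᴴ * Φ = diagonal (fun i => (eigp x i : ℂ)) := by
    ext i j
    rw [Matrix.mul_apply, Matrix.diagonal_apply]
    simp only [conjTranspose_apply, hΦ]
    have h := rot_self x j i
    have e1 : ∑ b, star (((rotW x)ᴴ *ᵥ x) (i, b)) * ((rotW x)ᴴ *ᵥ x) (j, b) =
        ∑ b, ((rotW x)ᴴ *ᵥ x) (j, b) * star (((rotW x)ᴴ *ᵥ x) (i, b)) :=
      Finset.sum_congr rfl fun b _ => mul_comm _ _
    rw [e1, h]
    by_cases hij : i = j
    · subst hij
      simp only [if_true]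
    · rw [if_neg hij, if_neg (Ne.symm hij)]
  have e1 : Φ * diagonal (fun i => (s i : ℂ)) * Φᴴ * (Φ * diagonal (fun i => (s' i : ℂ)) * Φᴴ) =
      Φ * diagonal (fun i => ((s i * eigp x i * s' i : ℝ) : ℂ)) * Φᴴ := by
    calc Φ * diagonal (fun i => (s i : ℂ)) * Φᴴ * (Φ * diagonal (fun i => (s' i : ℂ)) * Φᴴ)
        = Φ * diagonal (fun i => (s i : ℂ)) * (Φᴴ * Φ) * diagonal (fun i => (s' i : ℂ)) * Φᴴ := by
          simp only [Matrix.mul_assoc]
      _ = Φ * (diagonal (fun i => (s i : ℂ)) * diagonal (fun i => (eigp x i : ℂ)) *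
          diagonal (fun i => (s' i : ℂ))) * Φᴴ := by rw [hG]; simp only [Matrix.mul_assoc]
      _ = _ := by
          rw [diagonal_mul_diagonal, diagonal_mul_diagonal]
          simp only [Complex.ofReal_mul]
  have e2 : ∀ i, s i + s' i + s i * eigp x i * s' i = 0 := by
    intro i
    rw [hs, hs']
    have hyi := (hy i).ne'
    by_cases hp : eigp x i = 0
    · rw [hp]
      simp only [div_zero, mul_zero, add_zero]
    · field_simp
      ring
  rw [Matrix.add_mul, Matrix.mul_add, Matrix.mul_add, Matrix.one_mul, Matrix.mul_one,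
    Matrix.one_mul, e1]
  have e3 : Φ * diagonal (fun i => (s' i : ℂ)) * Φᴴ + (Φ * diagonal (fun i => (s i : ℂ)) * Φᴴ +
      Φ * diagonal (fun i => ((s i * eigp x i * s' i : ℝ) : ℂ)) * Φᴴ) = 0 := by
    have e4 : Φ * diagonal (fun i => (s' i : ℂ)) * Φᴴ + (Φ * diagonal (fun i => (s i : ℂ)) * Φᴴ +
      Φ * diagonal (fun i => ((s i * eigp x i * s' i : ℝ) : ℂ)) * Φᴴ) =
      Φ * (diagonal (fun i => (s' i : ℂ)) + (diagonal (fun i => (s i : ℂ)) +
        diagonal (fun i => ((s i * eigp x i * s' i : ℝ) : ℂ)))) * Φᴴ := by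
      rw [Matrix.mul_add, Matrix.mul_add, Matrix.add_mul, Matrix.add_mul]
    rw [e4, diagonal_add, diagonal_add]
    have e5 : (fun i => (s' i : ℂ) + ((s i : ℂ) + ((s i * eigp x i * s' i : ℝ) : ℂ))) =
        fun _ : α => (0 : ℂ) := by
      funext i
      rw [← Complex.ofReal_add, ← Complex.ofReal_add]
      have := e2 i
      have e6 : s' i + (s i + s i * eigp x i * s' i) = 0 := by linarith only [this]
      rw [e6, Complex.ofReal_zero]
    rw [e5, diagonal_zero, Matrix.mul_zero, Matrix.zero_mul]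
  rw [add_assoc, e3, add_zero]

theorem b2_act (e : N ≃ α × β) (ψ : N → ℂ) (y s : α → ℝ)
    (hs : ∀ i, s i = (y i - 1) / eigp (ψ ∘ e.symm) i)
    (Φ : Matrix β α ℂ) (hΦ : ∀ b i, Φ b i = ((rotW (ψ ∘ e.symm))ᴴ *ᵥ (ψ ∘ e.symm)) (i, b)) :
    opR e ((1 : Matrix β β ℂ) + Φ * diagonal (fun i => (s i : ℂ)) * Φᴴ) *ᵥ ψ =
      opL e (fOp (ψ ∘ e.symm) y) *ᵥ ψ := by
  set x := ψ ∘ e.symm with hx
  set Ω := (rotW x)ᴴ *ᵥ x with hΩ
  have hunrot : ∀ a b, ψ (e.symm (a, b)) = ∑ i, eigU x a i * Ω (i, b) := fun a b => b2_unrot x a b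
  have hp := rot_self x
  have hpn : ∀ i, ∑ b, ‖Ω (i, b)‖ ^ 2 = eigp x i := row_norm_of_diag hp
  have hzero : ∀ i, eigp x i = 0 → ∀ b, Ω (i, b) = 0 := by
    intro i hi b
    have h1 := hpn i
    rw [hi] at h1
    have h2 := (Finset.sum_eq_zero_iff_of_nonneg (fun b _ => by (clear * -; positivity))).mp h1 b
      (Finset.mem_univ b)
    simpa using h2
  funext n
  obtain ⟨⟨a, b⟩, rfl⟩ := e.symm.surjective n
  have hR : (opL e (fOp x y) *ᵥ ψ) (e.symm (a, b)) = ∑ i, eigU x a i * ((y i : ℂ) * Ω (i, b)) := by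
    have h1 := congrFun (opL_mulVec e (fOp x y) ψ) (a, b)
    simp only [Function.comp_apply] at h1
    rw [h1]
    have h2 := congrFun (b2_fOp_rot x y) (a, b)
    rw [← hx, h2, ← hΩ]
    generalize Ω = z
    simp only [rotW, mulVec, dotProduct, Fintype.sum_prod_type, kroneckerMap_apply,
      Matrix.one_apply]
    refine Finset.sum_congr rfl fun i _ => ?_
    rw [Finset.sum_eq_single b]
    · rw [if_pos rfl, mul_one]
    · intro b' _ hb
      rw [if_neg (Ne.symm hb), mul_zero, zero_mul]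
    · intro h
      exact absurd (Finset.mem_univ b) h
  have hrow : ∀ i, ∑ b', ((1 : Matrix β β ℂ) + Φ * diagonal (fun i => (s i : ℂ)) * Φᴴ) b b' *
      Ω (i, b') = (y i : ℂ) * Ω (i, b) := by
    intro i
    have e1 : ∀ b', ((1 : Matrix β β ℂ) + Φ * diagonal (fun i => (s i : ℂ)) * Φᴴ) b b' =
        (1 : Matrix β β ℂ) b b' + ∑ j, (Ω (j, b) * (s j : ℂ)) * star (Ω (j, b')) := by
      intro b'
      rw [Matrix.add_apply, Matrix.mul_apply]
      congr 1
      refine Finset.sum_congr rfl fun j _ => ?_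
      rw [Matrix.mul_diagonal, conjTranspose_apply, hΦ, hΦ]
    simp only [e1, add_mul, Finset.sum_add_distrib, Finset.sum_mul]
    have e2 : ∑ b', (1 : Matrix β β ℂ) b b' * Ω (i, b') = Ω (i, b) := by
      rw [Finset.sum_eq_single b]
      · rw [Matrix.one_apply_eq, one_mul]
      · intro b' _ hb
        rw [Matrix.one_apply_ne (Ne.symm hb), zero_mul]
      · intro h
        exact absurd (Finset.mem_univ b) h
    have e3 : ∑ b', ∑ j, (Ω (j, b) * (s j : ℂ)) * star (Ω (j, b')) * Ω (i, b') =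
        Ω (i, b) * (s i : ℂ) * (eigp x i : ℂ) := by
      rw [Finset.sum_comm, Finset.sum_eq_single i]
      · have h3 : ∑ b', Ω (i, b) * (s i : ℂ) * star (Ω (i, b')) * Ω (i, b') =
            Ω (i, b) * (s i : ℂ) * ∑ b', Ω (i, b') * star (Ω (i, b')) := by
          rw [Finset.mul_sum]
          refine Finset.sum_congr rfl fun b' _ => ?_
          ring
        rw [h3, hp i i, if_pos rfl]
      · intro j _ hj
        have h3 : ∑ b', Ω (j, b) * (s j : ℂ) * star (Ω (j, b')) * Ω (i, b') =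
            Ω (j, b) * (s j : ℂ) * ∑ b', Ω (i, b') * star (Ω (j, b')) := by
          rw [Finset.mul_sum]
          refine Finset.sum_congr rfl fun b' _ => ?_
          ring
        rw [h3, hp i j, if_neg (Ne.symm hj), mul_zero]
      · intro h
        exact absurd (Finset.mem_univ i) h
    rw [e2, e3]
    by_cases hpi : eigp x i = 0
    · rw [hzero i hpi b]
      simp only [zero_mul, mul_zero, add_zero]
    · have h5 : s i * eigp x i = y i - 1 := by
        rw [hs i]
        field_simp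
      have h6 : (s i : ℂ) * (eigp x i : ℂ) = (y i : ℂ) - 1 := by
        rw [← Complex.ofReal_mul, h5]
        push_cast
        ring
      rw [mul_assoc, h6]
      ring
  rw [hR, opR_mulVec_apply]
  simp only [hunrot, Finset.mul_sum]
  rw [Finset.sum_comm]
  refine Finset.sum_congr rfl fun i _ => ?_
  rw [← hrow i, Finset.mul_sum]
  refine Finset.sum_congr rfl fun b' _ => ?_
  ring

theorem b2_herm (Φ : Matrix β α ℂ) (s : α → ℝ) :
    ((1 : Matrix β β ℂ) + Φ * diagonal (fun i => (s i : ℂ)) * Φᴴ)ᴴ =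
      (1 : Matrix β β ℂ) + Φ * diagonal (fun i => (s i : ℂ)) * Φᴴ := by
  rw [conjTranspose_add, conjTranspose_one, conjTranspose_mul, conjTranspose_mul,
    conjTranspose_conjTranspose, diagonal_conjTranspose, Matrix.mul_assoc]
  congr 4
  funext i
  simp only [Pi.star_apply, RCLike.star_def, Complex.conj_ofReal]

/-- Functions of the reduced state act on the state like operators on the other side. -/
theorem transport (e : N ≃ α × β) (ψ : N → ℂ) (y : α → ℝ) (hy : ∀ i, 0 < y i) :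
    ∃ S S' : Matrix β β ℂ, Sᴴ = S ∧ S'ᴴ = S' ∧ S * S' = 1 ∧
      opR e S *ᵥ ψ = opL e (fOp (ψ ∘ e.symm) y) *ᵥ ψ ∧
      opR e S' *ᵥ ψ = opL e (fOp (ψ ∘ e.symm) (fun i => (y i)⁻¹)) *ᵥ ψ := by
  let Φ : Matrix β α ℂ := fun b i => ((rotW (ψ ∘ e.symm))ᴴ *ᵥ (ψ ∘ e.symm)) (i, b)
  let s : α → ℝ := fun i => (y i - 1) / eigp (ψ ∘ e.symm) i
  let s' : α → ℝ := fun i => ((y i)⁻¹ - 1) / eigp (ψ ∘ e.symm) i
  refine ⟨(1 : Matrix β β ℂ) + Φ * diagonal (fun i => (s i : ℂ)) * Φᴴ,
    (1 : Matrix β β ℂ) + Φ * diagonal (fun i => (s' i : ℂ)) * Φᴴ, b2_herm Φ s, b2_herm Φ s',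
    ?_, ?_, ?_⟩
  · exact b2_pair (ψ ∘ e.symm) y hy s s' (fun _ => rfl) (fun _ => rfl) Φ (fun _ _ => rfl)
  · exact b2_act e ψ y s (fun _ => rfl) Φ (fun _ _ => rfl)
  · exact b2_act e ψ (fun i => (y i)⁻¹) s' (fun _ => rfl) Φ (fun _ _ => rfl)

end cut

end Vale.Agent.P356.SV
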