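import Vale.Agent.P356.SV.Tilt
import Vale.Agent.P356.SV.Cut

set_option linter.all false

/-!
BLOCK 5: the tilt inequality on the lattice.
-/

namespace Vale.Agent.P356.SV

open Matrix Finset Vale.Agent.P356 Vale.Agent.P356.Path
open scoped BigOperators ComplexOrder Kronecker

section regions
variable {V : Type*} [Fintype V] [DecidableEq V] {q : ℕ}

/-- operators on the second factor of a cut are operators on the complement -/
theorem b5_opR (A : Finset V) (S : Op {x // ¬ x ∈ A} q) :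
    ∃ S' : Op {x // x ∈ Aᶜ} q, opR (cut A q) S = opOn Aᶜ S' := by
  classical
  let S' : Op {x // x ∈ Aᶜ} q := Matrix.of (fun a b =>
    S (fun x => a ⟨x.1, Finset.mem_compl.mpr x.2⟩) (fun x => b ⟨x.1, Finset.mem_compl.mpr x.2⟩))
  refine ⟨S', ?_⟩
  ext s t
  refine (opR_apply (cut A q) S s t).trans (Eq.trans ?_ (opOn_apply Aᶜ S' s t).symm)
  rw [mul_comm]
  congr 1
  have h1 : ((cut A q) s).1 = fun x : {x // x ∈ A} => s x := rfl
  have h2 : ((cut A q) t).1 = fun x : {x // x ∈ A} => t x := rfl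
  rw [h1, h2]
  by_cases h : ∀ x, x ∉ Aᶜ → s x = t x
  · rw [if_pos h, if_pos]
    funext x
    exact h x.1 (fun hx => (Finset.mem_compl.mp hx) x.2)
  · rw [if_neg h, if_neg]
    intro hc
    apply h
    intro x hx
    have hx' : x ∈ A := by
      by_contra h'
      exact hx (Finset.mem_compl.mpr h')
    exact congrFun hc ⟨x, hx'⟩

/-- a local operator is an operator on its region -/
theorem b5_actsOn {X : Finset V} {h : Op V q} (hX : ActsOn X h) :
    ∃ k : Op {x // x ∈ X} q, h = opOn X k := by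
  obtain ⟨k, hk⟩ := hX
  refine ⟨k, ?_⟩
  ext s t
  rw [opOn_apply]
  by_cases hc : ∀ x, x ∉ X → s x = t x
  · rw [if_pos hc, mul_one]
    exact (hk s t).1 hc
  · rw [if_neg hc, mul_zero]
    refine (hk s t).2 ?_
    push Not at hc
    exact hc

/-- the product form of a local operator -/
theorem b5_split (A X : Finset V) (h : Op V q)
    (k : Matrix (X → Fin q) (X → Fin q) ℂ)
    (hk : ∀ s t : Conf V q,
      ((∀ x, x ∉ X → s x = t x) → h s t = k (fun x => s x) (fun x => t x)) ∧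
      ((∃ x, x ∉ X ∧ s x ≠ t x) → h s t = 0)) :
    h = ∑ uv : (X → Fin q) × (X → Fin q), k uv.1 uv.2 •
        (opL (cut A q) (uOn (jIn A) X uv.1 uv.2) * opR (cut A q) (uOn (jOut A) X uv.1 uv.2)) := by
  have h1 := actsOn_split A X h k hk
  have h2 : h = Matrix.reindex (cut A q).symm (cut A q).symm
      (Matrix.reindex (cut A q) (cut A q) h) := by
    ext s t
    simp only [Matrix.reindex_apply, Matrix.submatrix_apply, Equiv.symm_symm,
      Equiv.symm_apply_apply]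
  rw [h2, h1]
  simp only [opL_mul_opR]
  ext s t
  simp only [Matrix.reindex_apply, Matrix.submatrix_apply, Matrix.sum_apply, Matrix.smul_apply]

theorem b5_cut_mono {N α β : Type*} [Fintype N] [Fintype α] [Fintype β] [DecidableEq α]
    [DecidableEq β] {e : N ≃ α × β} {X : Matrix N N ℂ} {w w' : ℝ} (h : CutBound e X w)
    (hw : w ≤ w') : CutBound e X w' := by
  intro ψ hψ θ h0 h1 g hg
  refine (h ψ hψ θ h0 h1 g hg).trans ?_
  exact mul_le_mul_of_nonneg_left hw (by positivity)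

/-- the cut estimate for a local operator -/
theorem b5_cut (A X : Finset V) {h : Op V q} {J : ℝ} (hh : h.IsHermitian) (hX : ActsOn X h)
    (hJ : OpNormLe h J) (hne : h ≠ 0 → X.Nonempty) :
    CutBound (cut A q) h (|J| * (q : ℝ) ^ (2 * X.card)) := by
  obtain ⟨k, hk, hkJ, -⟩ := exists_kernel hX hJ hne
  have h1 := b5_split A X h k hk
  refine b5_cut_mono (cutBound_of_split (cut A q) (fun uv : (X → Fin q) × (X → Fin q) =>
    k uv.1 uv.2) (fun uv => uOn (jIn A) X uv.1 uv.2) (fun uv => uOn (jOut A) X uv.1 uv.2)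
    (fun uv => uOn_contr _ _ _ _) (fun uv => ?_) (fun uv => uOn_contr _ _ _ _) (fun uv => ?_)
    h hh h1) ?_
  · rw [uOn_herm]; exact uOn_contr _ _ _ _
  · rw [uOn_herm]; exact uOn_contr _ _ _ _
  · refine (Finset.sum_le_card_nsmul _ _ |J| (fun uv _ => hkJ _ _)).trans (le_of_eq ?_)
    rw [Finset.card_univ, Fintype.card_prod, Fintype.card_fun, Fintype.card_fin,
      Fintype.card_coe, nsmul_eq_mul]
    push_cast
    ring

/-- no cost for a local operator away from the region -/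
theorem b5_cut_zero (A X : Finset V) {h : Op V q} (hX : ActsOn X h) (hd : ∀ x ∈ X, x ∉ A) :
    CutBound (cut A q) h 0 := by
  obtain ⟨k, hk⟩ := hX
  have h1 := b5_split A X h k hk
  have h2 : ∀ uv : (X → Fin q) × (X → Fin q),
      (uOn (jIn A) X uv.1 uv.2 : Op {x // x ∈ A} q) = 1 := fun uv =>
    uOn_one (jIn A) X (fun x hx => hd x.1 hx x.2) uv.1 uv.2
  refine cutBound_right (cut A q) (∑ uv : (X → Fin q) × (X → Fin q), k uv.1 uv.2 •
    uOn (jOut A) X uv.1 uv.2) h ?_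
  rw [opR_sum]
  simp only [opR_smul]
  rw [h1]
  refine Finset.sum_congr rfl fun uv _ => ?_
  rw [h2, opL_one, Matrix.one_mul]

theorem b5_contr (A : Finset V) {P : Op {x // x ∈ A} q} (hP : Contr P) : Contr (opOn A P) := by
  intro v
  have h1 := contr_kron hP (contr_one (n := {x // ¬ x ∈ A} → Fin q)) (v ∘ (cut A q).symm)
  have h2 := opL_mulVec (cut A q) P v
  rw [← h2] at h1
  have h3 : ∀ w : Conf V q → ℂ, ∑ i, ‖(w ∘ (cut A q).symm) i‖ ^ 2 = ∑ i, ‖w i‖ ^ 2 := fun w =>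
    nsq_comp (cut A q) w
  rw [h3, h3] at h1
  exact h1

end regions

/-- constant of the lattice tilt inequality -/
noncomputable def tiltC (q R : ℕ) : ℝ :=
  288 * ((q : ℝ) ^ (2 * (2 * R + 1) ^ 2) * ((2 * R + 1) ^ 4 * NR R))

/-- BLOCK 5. The tilt inequality on the lattice: nested regions `I k`, cuts between `I k` and its
complement, event `Bm` on `I 0`. -/
theorem tilt_lattice {L q R : ℕ} {J Δ E : ℝ} (hJ : 0 < J) (hΔ : 0 < Δ) (hq : 1 ≤ q)
    {H : Op (Site L) q} {Ω : Conf (Site L) q → ℂ} (hA : Admissible L q R J H)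
    (hg : GappedGround H Δ E Ω) (n : ℕ) (I : ℕ → Finset (Site L))
    (hI : ∀ k x y, x ∈ I k → dist1 x y ≤ R → y ∈ I (k + 1))
    (θ K : ℕ → ℝ) (m : ℝ) (hm : 0 ≤ m) (hθ0 : ∀ k, 0 < θ k) (hθ1 : ∀ k, θ k ≤ 1 / 4)
    (hN : tiltC q R * (J / Δ) * ∑ k ∈ range n, θ k ^ 2 * bdry (I k) ≤ 1)
    (hK : ∀ k, 0 < K k)
    (hTop : ∀ k < n, ∀ Q : Op {x // x ∈ (I k)ᶜ} q, IsPr Q → Q.trace.re ≤ K k →
      nsq (opOn (I k)ᶜ Q *ᵥ Ω) ≤ 1 / 16)
    (Bm : Op {x // x ∈ I 0} q) (hB : Contr Bm)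
    (hp0 : 0 < nsq (opOn (I 0) Bm *ᵥ Ω))
    (Pr : ∀ k, Op {x // x ∈ (I k)ᶜ} q) (hPr : ∀ k < n, IsPr (Pr k))
    (hPrt : ∀ k < n, (Pr k).trace.re ≤ K k * Real.exp (-m))
    (hd : ∑ k ∈ range n, Real.sqrt (nsq ((1 - opOn (I k)ᶜ (Pr k)) *ᵥ (opOn (I 0) Bm *ᵥ Ω))) ≤
      1 / 2 * Real.sqrt (nsq (opOn (I 0) Bm *ᵥ Ω))) :
    3 / 2 * m * ∑ k ∈ range n, θ k ≤
      -Real.log (nsq (opOn (I 0) Bm *ᵥ Ω)) + 2 * Real.log 2 + 2 * ∑ k ∈ range n, θ k := by
  classical
  have hherm := admissible_herm hA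
  obtain ⟨h, hh, hH⟩ := hA
  -- monotonicity of the regions
  have hI1 : ∀ k x, x ∈ I k → x ∈ I (k + 1) := fun k x hx =>
    hI k x x hx (by rw [dist1_self]; exact Nat.zero_le _)
  have hIm : ∀ j k, j ≤ k → ∀ x, x ∈ I j → x ∈ I k := by
    intro j k hjk
    induction k, hjk using Nat.le_induction with
    | base => exact fun x hx => hx
    | succ k _ ih => exact fun x hx => hI1 k x (ih x hx)
  -- the index of a term
  have hex : ∀ X : Finset (Site L), ∃ k, k = n ∨ ∃ x ∈ X, x ∈ I k := fun X => ⟨n, Or.inl rfl⟩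
  let κ : Finset (Site L) → ℕ := fun X => Nat.find (hex X)
  have hκ1 : ∀ X, κ X < n → ∃ x ∈ X, x ∈ I (κ X) := by
    intro X hX
    rcases Nat.find_spec (hex X) with h1 | h1
    · exact absurd h1 (ne_of_lt hX)
    · exact h1
  have hκ2 : ∀ X j, j < κ X → ∀ x ∈ X, x ∉ I j := by
    intro X j hj x hx hxI
    exact Nat.find_min (hex X) hj (Or.inr ⟨x, hx, hxI⟩)
  let w : Finset (Site L) → ℝ := fun X =>
    if Crosses (I (κ X)) X ∧ h X ≠ 0 then |J| * (q : ℝ) ^ (2 * X.card) else 0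
  have hqp : ∀ m : ℕ, (0 : ℝ) ≤ |J| * (q : ℝ) ^ m := fun m => by positivity
  refine tilt_abstract (N := Conf (Site L) q) (fun k => Conf {x // x ∈ (I k)ᶜ} q)
    (fun k => Conf {x // ¬ x ∈ (I k)ᶜ} q) (fun k => cut (I k)ᶜ q) ?_ hΔ
    (gapped_of hherm hg) n h hH κ ?_ ?_ w ?_ θ K m hm hθ0 hθ1 ?_ ?_ hK hTop
    (opOn (I 0) Bm) (b5_contr _ hB) ?_ hp0 Pr hPr hPrt hd
  · -- nested cuts
    intro j k hjk Y S
    obtain ⟨S', hS'⟩ := b5_opR (I j)ᶜ S
    rw [hS']
    refine opOn_comm (I k)ᶜ (I j)ᶜᶜ ?_ Y S'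
    rw [Finset.disjoint_left]
    intro x hx hx'
    rw [compl_compl] at hx'
    exact (Finset.mem_compl.mp hx) (hIm j k hjk x hx')
  · intro X j hj S
    obtain ⟨S', hS'⟩ := b5_opR (I j)ᶜ S
    obtain ⟨k, hk⟩ := b5_actsOn (hh X).2.1
    rw [hS', hk]
    refine opOn_comm X (I j)ᶜᶜ ?_ k S'
    rw [Finset.disjoint_left]
    intro x hx hx'
    rw [compl_compl] at hx'
    exact hκ2 X j hj x hx hx'
  · intro X j hj hjn Y
    by_cases h0 : h X = 0
    · rw [h0, Matrix.zero_mul, Matrix.mul_zero]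
    · obtain ⟨k, hk⟩ := b5_actsOn (hh X).2.1
      obtain ⟨x, hx, hxI⟩ := hκ1 X (hj.trans hjn)
      have hsub : ∀ y ∈ X, y ∈ I j := fun y hy =>
        hIm (κ X + 1) j hj y (hI (κ X) x y hxI (((hh X).2.2.2 h0).2 x hx y hy))
      rw [hk]
      refine opOn_comm X (I j)ᶜ ?_ k Y
      rw [Finset.disjoint_left]
      intro y hy hy'
      exact (Finset.mem_compl.mp hy') (hsub y hy)
  · intro X hX
    by_cases hc : Crosses (I (κ X)) X ∧ h X ≠ 0
    · have e1 : w X = |J| * (q : ℝ) ^ (2 * X.card) := if_pos hc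
      rw [e1]
      exact b5_cut _ X (hh X).1 (hh X).2.1 (hh X).2.2.1 (fun h0 => ((hh X).2.2.2 h0).1)
    · have e1 : w X = 0 := if_neg hc
      rw [e1]
      by_cases h0 : h X = 0
      · refine cutBound_right _ 0 _ ?_
        rw [h0, opR_zero]
      · refine b5_cut_zero _ X (hh X).2.1 ?_
        intro x hx hxc
        apply hc
        exact ⟨⟨hκ1 X hX, ⟨x, hx, Finset.mem_compl.mp hxc⟩⟩, h0⟩
  · -- the weights
    set C : ℝ := (q : ℝ) ^ (2 * (2 * R + 1) ^ 2) * ((2 * R + 1) ^ 4 * NR R) with hC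
    have h1 : ∀ k, (∑ X, if κ X = k then w X else 0) ≤ J * C * bdry (I k) := by
      intro k
      have h2 := cross_count (q := q) (R := R) (I k) h
        (fun X h0 x hx y hy => ((hh X).2.2.2 h0).2 x hx y hy) J hq
      rw [abs_of_pos hJ] at h2
      refine le_trans (Finset.sum_le_sum fun X _ => ?_) h2
      by_cases hk : κ X = k
      · rw [if_pos hk]
        simp only [w, hk, abs_of_pos hJ]
        exact le_refl _
      · rw [if_neg hk]
        split_ifs
        · have := hqp (2 * X.card)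
          rwa [abs_of_pos hJ] at this
        · exact le_refl _
    have h2 : ∑ k ∈ range n, θ k ^ 2 * (∑ X, if κ X = k then w X else 0) ≤
        J * C * ∑ k ∈ range n, θ k ^ 2 * bdry (I k) := by
      rw [Finset.mul_sum]
      refine Finset.sum_le_sum fun k _ => ?_
      refine (mul_le_mul_of_nonneg_left (h1 k) (sq_nonneg _)).trans (le_of_eq ?_)
      ring
    have h3 : 288 * (J * C * ∑ k ∈ range n, θ k ^ 2 * bdry (I k)) ≤ Δ := by
      have h4 : tiltC q R * (J / Δ) * ∑ k ∈ range n, θ k ^ 2 * bdry (I k) =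
          (288 * (J * C * ∑ k ∈ range n, θ k ^ 2 * bdry (I k))) / Δ := by
        rw [tiltC, ← hC]
        field_simp
      rw [h4, div_le_one hΔ] at hN
      exact hN
    linarith
  · intro X
    simp only [w]
    split_ifs
    · exact hqp _
    · exact le_refl _
  · intro k _ Y
    refine opOn_comm (I 0) (I k)ᶜ ?_ Bm Y
    rw [Finset.disjoint_left]
    intro x hx hx'
    exact (Finset.mem_compl.mp hx') (hIm 0 k (Nat.zero_le _) x hx)

end Vale.Agent.P356.SV
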