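import Vale.Agent.P356.SV.Ops

set_option linter.all false

/-!
Ordered products along nested cuts and the transport identity.
-/

namespace Vale.Agent.P356.SV

open Matrix Finset Vale.Agent.P356 Vale.Agent.P356.Path
open scoped BigOperators ComplexOrder Kronecker

section vec
variable {N : Type*} [Fintype N]

theorem nsq_def (v : N → ℂ) : nsq v = ∑ i, ‖v i‖ ^ 2 := rfl

theorem nsq_nonneg' (v : N → ℂ) : 0 ≤ nsq v := Finset.sum_nonneg fun i _ => sq_nonneg _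

theorem ip_self (v : N → ℂ) : star v ⬝ᵥ v = ((nsq v : ℝ) : ℂ) := nsq_eq v

theorem ip_self_re (v : N → ℂ) : (star v ⬝ᵥ v).re = nsq v := by
  rw [ip_self, Complex.ofReal_re]

theorem ip_comm_re (u v : N → ℂ) : (star u ⬝ᵥ v).re = (star v ⬝ᵥ u).re := by
  have h : star u ⬝ᵥ v = star (star v ⬝ᵥ u) := by
    rw [star_dotProduct]
  rw [h]
  simp only [RCLike.star_def, Complex.conj_re]

theorem nsq_add (u v : N → ℂ) : nsq (u + v) = nsq u + 2 * (star u ⬝ᵥ v).re + nsq v := by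
  have h : star (u + v) ⬝ᵥ (u + v) =
      star u ⬝ᵥ u + star u ⬝ᵥ v + star v ⬝ᵥ u + star v ⬝ᵥ v := by
    rw [star_add, add_dotProduct, dotProduct_add, dotProduct_add]
    ring
  have h2 := congrArg Complex.re h
  rw [ip_self_re] at h2
  simp only [Complex.add_re, ip_self_re] at h2
  rw [ip_comm_re v u] at h2
  linarith

theorem nsq_smul (c : ℂ) (v : N → ℂ) : nsq (c • v) = ‖c‖ ^ 2 * nsq v := by
  simp only [nsq, Pi.smul_apply, smul_eq_mul, norm_mul, mul_pow, Finset.mul_sum]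

/-- norm of a vector -/
noncomputable def nrm (v : N → ℂ) : ℝ := Real.sqrt (nsq v)

theorem nrm_nonneg (v : N → ℂ) : 0 ≤ nrm v := Real.sqrt_nonneg _

theorem nrm_sq (v : N → ℂ) : nrm v ^ 2 = nsq v := Real.sq_sqrt (nsq_nonneg' v)

theorem nrm_ip_le (u v : N → ℂ) : ‖star u ⬝ᵥ v‖ ≤ nrm u * nrm v := norm_ip_le u v

theorem nrm_add_le (u v : N → ℂ) : nrm (u + v) ≤ nrm u + nrm v := by
  have h1 : nrm (u + v) ^ 2 ≤ (nrm u + nrm v) ^ 2 := by
    rw [nrm_sq, nsq_add]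
    have h2 : (star u ⬝ᵥ v).re ≤ nrm u * nrm v :=
      (Complex.re_le_norm _).trans (nrm_ip_le u v)
    have h3 := nrm_sq u
    have h4 := nrm_sq v
    nlinarith
  exact (sq_le_sq₀ (nrm_nonneg _) (add_nonneg (nrm_nonneg u) (nrm_nonneg v))).mp h1

theorem nrm_smul (c : ℂ) (v : N → ℂ) : nrm (c • v) = ‖c‖ * nrm v := by
  rw [nrm, nrm, nsq_smul, Real.sqrt_mul (sq_nonneg _), Real.sqrt_sq (norm_nonneg _)]

theorem nrm_neg (v : N → ℂ) : nrm (-v) = nrm v := by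
  simp only [nrm, nsq, Pi.neg_apply, norm_neg]

theorem nrm_sub_le (u v : N → ℂ) : nrm (u - v) ≤ nrm u + nrm v := by
  rw [sub_eq_add_neg]
  refine (nrm_add_le _ _).trans ?_
  rw [nrm_neg]

theorem contr_nrm {P : Matrix N N ℂ} (hP : Contr P) (v : N → ℂ) : nrm (P *ᵥ v) ≤ nrm v :=
  Real.sqrt_le_sqrt (hP v)

/-- moving an operator to the other side -/
theorem ip_mulVec (A : Matrix N N ℂ) (u v : N → ℂ) :
    star (A *ᵥ u) ⬝ᵥ v = star u ⬝ᵥ (Aᴴ *ᵥ v) := by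
  rw [star_mulVec, dotProduct_mulVec]

end vec

section prods
variable {N : Type*} [Fintype N] [DecidableEq N]

/-- ordered product, new factors on the right -/
def prR (Y : ℕ → Matrix N N ℂ) : ℕ → Matrix N N ℂ
  | 0 => 1
  | k + 1 => prR Y k * Y k

/-- ordered product, new factors on the left -/
def prL (Y : ℕ → Matrix N N ℂ) : ℕ → Matrix N N ℂ
  | 0 => 1
  | k + 1 => Y k * prL Y k

/-- the factors from `k` on (`j` of them), new factors on the right -/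
def prS (Y : ℕ → Matrix N N ℂ) (k : ℕ) : ℕ → Matrix N N ℂ
  | 0 => 1
  | j + 1 => prS Y k j * Y (k + j)

theorem prR_split (Y : ℕ → Matrix N N ℂ) (k j : ℕ) : prR Y (k + j) = prR Y k * prS Y k j := by
  induction j with
  | zero => rw [Nat.add_zero, prS, Matrix.mul_one]
  | succ j ih => rw [Nat.add_succ, prR, ih, prS, Matrix.mul_assoc]

theorem prR_congr {Y Y' : ℕ → Matrix N N ℂ} {k : ℕ} (h : ∀ j < k, Y j = Y' j) :
    prR Y k = prR Y' k := by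
  induction k with
  | zero => rfl
  | succ k ih =>
    rw [prR, prR, ih (fun j hj => h j (Nat.lt_succ_of_lt hj)), h k (Nat.lt_succ_self k)]

theorem prS_congr {Y Y' : ℕ → Matrix N N ℂ} {k j : ℕ} (h : ∀ i, k ≤ i → Y i = Y' i) :
    prS Y k j = prS Y' k j := by
  induction j with
  | zero => rfl
  | succ j ih => rw [prS, prS, ih, h (k + j) (Nat.le_add_right k j)]

theorem prR_conjTranspose (Y : ℕ → Matrix N N ℂ) (k : ℕ) :
    (prR Y k)ᴴ = prL (fun j => (Y j)ᴴ) k := by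
  induction k with
  | zero => exact conjTranspose_one
  | succ k ih => rw [prR, prL, conjTranspose_mul, ih]

theorem prL_mul_prR {Y Z : ℕ → Matrix N N ℂ} {k : ℕ} (h : ∀ j < k, Z j * Y j = 1) :
    prL Z k * prR Y k = 1 := by
  induction k with
  | zero => exact Matrix.mul_one 1
  | succ k ih =>
    have h1 : prR Y k * prL Z k = 1 :=
      mul_eq_one_comm.mp (ih (fun j hj => h j (Nat.lt_succ_of_lt hj)))
    have h2 : Y k * Z k = 1 := mul_eq_one_comm.mp (h k (Nat.lt_succ_self k))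
    have h3 : prR Y (k + 1) * prL Z (k + 1) = 1 := by
      rw [prR, prL]
      calc prR Y k * Y k * (Z k * prL Z k) = prR Y k * (Y k * Z k) * prL Z k := by
            simp only [Matrix.mul_assoc]
        _ = 1 := by rw [h2, Matrix.mul_one, h1]
    exact mul_eq_one_comm.mp h3

/-- The transport identity. `𝓡 j` is the set of operators inside of cut `j`. -/
theorem chain_phi (ψ : N → ℂ) (Yp Ym : ℕ → Matrix N N ℂ) (𝓡 : ℕ → Set (Matrix N N ℂ)) (k : ℕ)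
    (hT : ∀ j < k, ∃ A ∈ 𝓡 j, ∃ A' ∈ 𝓡 j, Aᴴ * A' = 1 ∧ A *ᵥ ψ = Yp j *ᵥ ψ ∧
      A' *ᵥ ψ = Ym j *ᵥ ψ)
    (hc : ∀ j < k, ∀ i ≤ j, ∀ A ∈ 𝓡 i, Yp j * A = A * Yp j ∧ Ym j * A = A * Ym j) :
    ∃ A A' : Matrix N N ℂ, Aᴴ * A' = 1 ∧ prL Yp k *ᵥ ψ = A *ᵥ ψ ∧ prL Ym k *ᵥ ψ = A' *ᵥ ψ ∧
      ∀ X : Matrix N N ℂ, (∀ j < k, ∀ B ∈ 𝓡 j, X * B = B * X) →
        X * A = A * X ∧ X * A' = A' * X := by
  induction k with
  | zero =>
    refine ⟨1, 1, ?_, rfl, rfl, fun X _ => ⟨?_, ?_⟩⟩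
    · rw [conjTranspose_one, Matrix.mul_one]
    · rw [Matrix.mul_one, Matrix.one_mul]
    · rw [Matrix.mul_one, Matrix.one_mul]
  | succ k ih =>
    obtain ⟨A, A', h1, h2, h3, h4⟩ := ih (fun j hj => hT j (Nat.lt_succ_of_lt hj))
      (fun j hj => hc j (Nat.lt_succ_of_lt hj))
    obtain ⟨S, hS, S', hS', h5, h6, h7⟩ := hT k (Nat.lt_succ_self k)
    have hYA := h4 (Yp k) (fun j hj B hB =>
      (hc k (Nat.lt_succ_self k) j hj.le B hB).1)
    have hYA' := h4 (Ym k) (fun j hj B hB =>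
      (hc k (Nat.lt_succ_self k) j hj.le B hB).2)
    refine ⟨A * S, A' * S', ?_, ?_, ?_, ?_⟩
    · rw [conjTranspose_mul]
      calc Sᴴ * Aᴴ * (A' * S') = Sᴴ * (Aᴴ * A') * S' := by simp only [Matrix.mul_assoc]
        _ = 1 := by rw [h1, Matrix.mul_one, h5]
    · rw [prL, ← mulVec_mulVec, h2, mulVec_mulVec, hYA.1, ← mulVec_mulVec, ← h6, mulVec_mulVec]
    · rw [prL, ← mulVec_mulVec, h3, mulVec_mulVec, hYA'.2, ← mulVec_mulVec, ← h7, mulVec_mulVec]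
    · intro X hX
      obtain ⟨h8, h9⟩ := h4 X (fun j hj => hX j (Nat.lt_succ_of_lt hj))
      have h10 := hX k (Nat.lt_succ_self k) S hS
      have h11 := hX k (Nat.lt_succ_self k) S' hS'
      constructor
      · rw [← Matrix.mul_assoc, h8, Matrix.mul_assoc, h10, Matrix.mul_assoc]
      · rw [← Matrix.mul_assoc, h9, Matrix.mul_assoc, h11, Matrix.mul_assoc]

theorem phi (ψ : N → ℂ) (Yp Ym : ℕ → Matrix N N ℂ) (𝓡 : ℕ → Set (Matrix N N ℂ)) (k : ℕ)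
    (hT : ∀ j < k, ∃ A ∈ 𝓡 j, ∃ A' ∈ 𝓡 j, Aᴴ * A' = 1 ∧ A *ᵥ ψ = Yp j *ᵥ ψ ∧
      A' *ᵥ ψ = Ym j *ᵥ ψ)
    (hc : ∀ j < k, ∀ i ≤ j, ∀ A ∈ 𝓡 i, Yp j * A = A * Yp j ∧ Ym j * A = A * Ym j)
    (X : Matrix N N ℂ) (hX : ∀ j < k, ∀ B ∈ 𝓡 j, X * B = B * X) :
    star (prL Yp k *ᵥ ψ) ⬝ᵥ (X *ᵥ (prL Ym k *ᵥ ψ)) = star ψ ⬝ᵥ (X *ᵥ ψ) := by
  obtain ⟨A, A', h1, h2, h3, h4⟩ := chain_phi ψ Yp Ym 𝓡 k hT hc
  obtain ⟨_, h5⟩ := h4 X hX
  rw [h2, h3, ip_mulVec, mulVec_mulVec, mulVec_mulVec, Matrix.mul_assoc, h5, ← Matrix.mul_assoc, h1, Matrix.one_mul]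

end prods

end Vale.Agent.P356.SV
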