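import Vale.Agent.P356.SV.Base
import Mathlib.Analysis.Matrix.PosDef

/-!
Entropy facts: positivity, the bound by the logarithm of the dimension, equality for complements,
subadditivity.
-/

set_option linter.all false

namespace Vale.Agent.P356.SV

open Matrix Finset Vale.Agent.P356 Vale.Agent.P356.Path
open scoped BigOperators ComplexOrder Kronecker

section general
variable {ι κ : Type*} [Fintype ι] [Fintype κ] [DecidableEq ι] [DecidableEq κ]

/-- The entropy through the roots of the characteristic polynomial. -/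
theorem b7_vn_roots {ρ : Matrix ι ι ℂ} (h : ρ.IsHermitian) :
    vnEntropy ρ = (ρ.charpoly.roots.map (fun z : ℂ => Real.negMulLog z.re)).sum := by
  rw [vnEntropy, dif_pos h, h.roots_charpoly_eq_eigenvalues, Multiset.map_map]
  rfl

theorem b7_vn_congr {ρ : Matrix ι ι ℂ} {σ : Matrix κ κ ℂ} (hρ : ρ.IsHermitian)
    (hσ : σ.IsHermitian) (a b : ℕ)
    (h : Polynomial.X ^ a * ρ.charpoly = Polynomial.X ^ b * σ.charpoly) :
    vnEntropy ρ = vnEntropy σ := by
  have key : ∀ (n : ℕ) (P : Polynomial ℂ), P ≠ 0 →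
      ((Polynomial.X ^ n * P).roots.map (fun z : ℂ => Real.negMulLog z.re)).sum =
        (P.roots.map (fun z : ℂ => Real.negMulLog z.re)).sum := by
    intro n P hP
    rw [Polynomial.roots_mul (mul_ne_zero (pow_ne_zero _ Polynomial.X_ne_zero) hP),
      Polynomial.roots_X_pow, Multiset.map_add, Multiset.sum_add, Multiset.map_nsmul,
      Multiset.sum_nsmul]
    simp
  rw [b7_vn_roots hρ, b7_vn_roots hσ, ← key a _ (Matrix.charpoly_monic ρ).ne_zero, h,
    key b _ (Matrix.charpoly_monic σ).ne_zero]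

theorem b7_vn_congr' {ρ : Matrix ι ι ℂ} {σ : Matrix κ κ ℂ} (hρ : ρ.IsHermitian)
    (hσ : σ.IsHermitian) (h : ρ.charpoly = σ.charpoly) :
    vnEntropy ρ = vnEntropy σ :=
  b7_vn_congr hρ hσ 0 0 (by rw [h])

theorem b7_vn_reindex (e : ι ≃ κ) {ρ : Matrix ι ι ℂ} (hρ : ρ.IsHermitian) :
    vnEntropy (Matrix.reindex e e ρ) = vnEntropy ρ := by
  refine b7_vn_congr' ?_ hρ (Matrix.charpoly_reindex e ρ)
  exact hρ.submatrix _

/-- unitary overlap: rows -/
theorem b7_row {T : Matrix ι ι ℂ} (hT : T * Tᴴ = 1) (j : ι) : ∑ i, ‖T j i‖ ^ 2 = 1 := by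
  have := congrFun (congrFun hT j) j
  simp only [mul_apply, conjTranspose_apply, one_apply_eq] at this
  have e : ∑ i, T j i * star (T j i) = ((∑ i, ‖T j i‖ ^ 2 : ℝ) : ℂ) := by
    push_cast
    refine Finset.sum_congr rfl fun b _ => ?_
    rw [RCLike.star_def, Complex.mul_conj']
  rw [e] at this
  exact_mod_cast this

/-- unitary overlap: columns -/
theorem b7_col {T : Matrix ι ι ℂ} (hT : T * Tᴴ = 1) (j : ι) : ∑ i, ‖T i j‖ ^ 2 = 1 := by
  have hT' : Tᴴ * T = 1 := mul_eq_one_comm.mp hT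
  have := congrFun (congrFun hT' j) j
  simp only [mul_apply, conjTranspose_apply, one_apply_eq] at this
  have e : ∑ i, star (T i j) * T i j = ((∑ i, ‖T i j‖ ^ 2 : ℝ) : ℂ) := by
    push_cast
    refine Finset.sum_congr rfl fun b _ => ?_
    rw [RCLike.star_def, Complex.conj_mul']
  rw [e] at this
  exact_mod_cast this

/-- Gibbs-Klein inequality, with zero reference weights allowed. -/
theorem b7_klein (T : Matrix ι ι ℂ) (hT : T * Tᴴ = 1) (p q : ι → ℝ) (hp0 : ∀ i, 0 ≤ p i)
    (hp1 : ∑ i, p i = 1) (hq0 : ∀ i, 0 ≤ q i) (hq1 : ∑ i, q i ≤ 1)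
    (hz : ∀ j, q j = 0 → ∀ i, p i * ‖T j i‖ ^ 2 = 0) :
    ∑ i, Real.negMulLog (p i) ≤ ∑ j, (-Real.log (q j)) * ∑ i, p i * ‖T j i‖ ^ 2 := by
  have hrow := b7_row hT
  have hcol := b7_col hT
  have hpt : ∀ i j, ‖T j i‖ ^ 2 * (p i * Real.log (q j) - p i * Real.log (p i)) ≤
      ‖T j i‖ ^ 2 * (q j - p i) := by
    intro i j
    rcases (hq0 j).eq_or_lt with hq | hq
    · have hz' := hz j hq.symm i
      have e1 : ‖T j i‖ ^ 2 * (p i * Real.log (q j) - p i * Real.log (p i)) =
          (p i * ‖T j i‖ ^ 2) * (Real.log (q j) - Real.log (p i)) := by ring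
      have e2 : ‖T j i‖ ^ 2 * (q j - p i) = q j * ‖T j i‖ ^ 2 - p i * ‖T j i‖ ^ 2 := by ring
      rw [e1, e2, hz', ← hq]
      simp
    · refine mul_le_mul_of_nonneg_left ?_ (sq_nonneg _)
      rcases (hp0 i).eq_or_lt with h | h
      · rw [← h]
        simp only [zero_mul, Real.log_zero, mul_zero, sub_self, sub_zero, ge_iff_le]
        exact hq.le
      · have h1 := Real.log_le_sub_one_of_pos (div_pos hq h)
        rw [Real.log_div hq.ne' h.ne'] at h1
        have h2 := mul_le_mul_of_nonneg_left h1 h.le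
        have h3 : p i * (q j / p i - 1) = q j - p i := by field_simp
        rw [h3] at h2
        linarith only [h2]
  have hsum : ∑ i, ∑ j, ‖T j i‖ ^ 2 * (p i * Real.log (q j) - p i * Real.log (p i)) ≤
      ∑ i, ∑ j, ‖T j i‖ ^ 2 * (q j - p i) :=
    Finset.sum_le_sum fun i _ => Finset.sum_le_sum fun j _ => hpt i j
  have hr : ∑ i, ∑ j, ‖T j i‖ ^ 2 * (q j - p i) = ∑ j, q j - ∑ i, p i := by
    simp only [mul_sub, Finset.sum_sub_distrib]
    congr 1
    · rw [Finset.sum_comm]
      refine Finset.sum_congr rfl fun j _ => ?_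
      rw [← Finset.sum_mul, hrow, one_mul]
    · refine Finset.sum_congr rfl fun j _ => ?_
      rw [← Finset.sum_mul, hcol, one_mul]
  have hl : ∑ i, ∑ j, ‖T j i‖ ^ 2 * (p i * Real.log (q j) - p i * Real.log (p i)) =
      ∑ i, Real.negMulLog (p i) - ∑ j, (-Real.log (q j)) * ∑ i, p i * ‖T j i‖ ^ 2 := by
    simp only [mul_sub, Finset.sum_sub_distrib]
    have e1 : ∑ i, ∑ j, ‖T j i‖ ^ 2 * (p i * Real.log (p i)) = - ∑ i, Real.negMulLog (p i) := by
      rw [← Finset.sum_neg_distrib]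
      refine Finset.sum_congr rfl fun i _ => ?_
      rw [← Finset.sum_mul, hcol, one_mul, Real.negMulLog]
      ring
    have e2 : ∑ i, ∑ j, ‖T j i‖ ^ 2 * (p i * Real.log (q j)) =
        - ∑ j, (-Real.log (q j)) * ∑ i, p i * ‖T j i‖ ^ 2 := by
      rw [Finset.sum_comm, ← Finset.sum_neg_distrib]
      refine Finset.sum_congr rfl fun j _ => ?_
      rw [Finset.mul_sum, ← Finset.sum_neg_distrib]
      refine Finset.sum_congr rfl fun i _ => ?_
      ring
    rw [e1, e2]
    ring
  rw [hl, hr, hp1] at hsum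
  linarith only [hq1, hsum]

/-- the unitary of a Hermitian matrix -/
theorem b7_unitary {ρ : Matrix ι ι ℂ} (h : ρ.IsHermitian) :
    (h.eigenvectorUnitary : Matrix ι ι ℂ) * (h.eigenvectorUnitary : Matrix ι ι ℂ)ᴴ = 1 := by
  have := h.eigenvectorUnitary.2
  rw [Matrix.mem_unitaryGroup_iff] at this
  exact this

theorem b7_diag {ρ : Matrix ι ι ℂ} (h : ρ.IsHermitian) :
    (h.eigenvectorUnitary : Matrix ι ι ℂ)ᴴ * ρ * (h.eigenvectorUnitary : Matrix ι ι ℂ) =
      diagonal (fun i => (h.eigenvalues i : ℂ)) := by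
  have := h.conjStarAlgAut_star_eigenvectorUnitary
  rw [Unitary.conjStarAlgAut_star_apply] at this
  exact this

theorem b7_spec {ρ : Matrix ι ι ℂ} (h : ρ.IsHermitian) :
    ρ = (h.eigenvectorUnitary : Matrix ι ι ℂ) * diagonal (fun i => (h.eigenvalues i : ℂ)) *
      (h.eigenvectorUnitary : Matrix ι ι ℂ)ᴴ := by
  rw [← b7_diag h]
  have h := b7_unitary h
  calc ρ = (_ * _) * ρ * (_ * _) := by rw [h, Matrix.one_mul, Matrix.mul_one]
    _ = _ := by simp only [Matrix.mul_assoc]

/-- Diagonal entries of `Rᴴ ρ R`, through the spectrum of `ρ`. -/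
theorem b7_diag_entry {ρ : Matrix ι ι ℂ} (h : ρ.IsHermitian) (R : Matrix ι ι ℂ) (j : ι) :
    (Rᴴ * ρ * R) j j =
      ((∑ i, h.eigenvalues i *
        ‖(Rᴴ * (h.eigenvectorUnitary : Matrix ι ι ℂ)) j i‖ ^ 2 : ℝ) : ℂ) := by
  set W := (h.eigenvectorUnitary : Matrix ι ι ℂ) with hW
  have e : Rᴴ * ρ * R = (Rᴴ * W) * diagonal (fun i => (h.eigenvalues i : ℂ)) * (Rᴴ * W)ᴴ := by
    conv_lhs => rw [b7_spec h]
    rw [conjTranspose_mul, conjTranspose_conjTranspose]
    simp only [Matrix.mul_assoc, ← hW]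
  rw [e, mul_apply]
  push_cast
  refine Finset.sum_congr rfl fun i _ => ?_
  rw [mul_diagonal, conjTranspose_apply, ← Complex.mul_conj', RCLike.star_def]
  ring

theorem b7_sum_eig {ρ : Matrix ι ι ℂ} (h : ρ.IsHermitian) (htr : ρ.trace = 1) :
    ∑ i, h.eigenvalues i = 1 := by
  have := congrArg Complex.re h.trace_eq_sum_eigenvalues
  rw [htr] at this
  simpa using this.symm

theorem b7_vn_nonneg {ρ : Matrix ι ι ℂ} (hρ : ρ.PosSemidef) (htr : ρ.trace = 1) :
    0 ≤ vnEntropy ρ := by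
  have h := hρ.isHermitian
  rw [vnEntropy, dif_pos h]
  have h0 : ∀ i, 0 ≤ h.eigenvalues i := fun i => hρ.eigenvalues_nonneg i
  have h1 : ∑ i, h.eigenvalues i = 1 := b7_sum_eig h htr
  refine Finset.sum_nonneg fun i _ => Real.negMulLog_nonneg (h0 i) ?_
  rw [← h1]
  exact Finset.single_le_sum (fun j _ => h0 j) (Finset.mem_univ i)

theorem b7_vn_le_log {ρ : Matrix ι ι ℂ} (hρ : ρ.PosSemidef) (htr : ρ.trace = 1) :
    vnEntropy ρ ≤ Real.log (Fintype.card ι) := by
  have h := hρ.isHermitian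
  have hne : Nonempty ι := by
    by_contra hc
    rw [not_nonempty_iff] at hc
    simp [Matrix.trace] at htr
  have hcard : (0 : ℝ) < Fintype.card ι := by exact_mod_cast Fintype.card_pos
  rw [vnEntropy, dif_pos h]
  have h0 : ∀ i, 0 ≤ h.eigenvalues i := fun i => hρ.eigenvalues_nonneg i
  have h1 : ∑ i, h.eigenvalues i = 1 := b7_sum_eig h htr
  have hk := b7_klein (1 : Matrix ι ι ℂ) (by simp) h.eigenvalues
    (fun _ => 1 / (Fintype.card ι : ℝ)) h0 h1 (fun _ => by positivity)
    (by simp [hcard.ne']) (fun j hj => absurd hj (by positivity))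
  refine hk.trans (le_of_eq ?_)
  rw [← Finset.mul_sum]
  have e : ∑ j, ∑ i, h.eigenvalues i * ‖(1 : Matrix ι ι ℂ) j i‖ ^ 2 = 1 := by
    rw [← h1]
    refine Finset.sum_congr rfl fun j _ => ?_
    rw [Finset.sum_eq_single j]
    · simp
    · intro i _ hij
      simp [one_apply_ne hij.symm]
    · simp
  rw [e, one_div, Real.log_inv]
  ring

end general

section bip
variable {α β : Type*} [Fintype α] [Fintype β] [DecidableEq α] [DecidableEq β]

/-- Subadditivity of the entropy. -/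
theorem b7_subadd {ρ : Matrix (α × β) (α × β) ℂ} (hρ : ρ.PosSemidef) (htr : ρ.trace = 1)
    {ρA : Matrix α α ℂ} {ρB : Matrix β β ℂ} (hA : ∀ i i', ρA i i' = ∑ j, ρ (i, j) (i', j))
    (hB : ∀ j j', ρB j j' = ∑ i, ρ (i, j) (i, j')) :
    vnEntropy ρ ≤ vnEntropy ρA + vnEntropy ρB := by
  have h := hρ.isHermitian
  have hent : ∀ x y, star (ρ x y) = ρ y x := fun x y => by
    have := congrFun (congrFun h y) x
    simpa [conjTranspose_apply] using this
  have hhA : ρA.IsHermitian := by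
    ext i i'
    rw [conjTranspose_apply, hA, hA, star_sum]
    exact Finset.sum_congr rfl fun j _ => hent _ _
  have hhB : ρB.IsHermitian := by
    ext i i'
    rw [conjTranspose_apply, hB, hB, star_sum]
    exact Finset.sum_congr rfl fun j _ => hent _ _
  set U := (hhA.eigenvectorUnitary : Matrix α α ℂ) with hU
  set V := (hhB.eigenvectorUnitary : Matrix β β ℂ) with hV
  set W := (h.eigenvectorUnitary : Matrix (α × β) (α × β) ℂ) with hW
  have hUU : U * Uᴴ = 1 := b7_unitary hhA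
  have hVV : V * Vᴴ = 1 := b7_unitary hhB
  have hWW : W * Wᴴ = 1 := b7_unitary h
  set R : Matrix (α × β) (α × β) ℂ := U ⊗ₖ V with hR
  have hRR : R * Rᴴ = 1 := by
    rw [hR, conjTranspose_kronecker, ← mul_kronecker_mul, hUU, hVV, one_kronecker_one]
  have hRR' : Rᴴ * R = 1 := mul_eq_one_comm.mp hRR
  have hT : (Rᴴ * W) * (Rᴴ * W)ᴴ = 1 := by
    rw [conjTranspose_mul, conjTranspose_conjTranspose]
    calc Rᴴ * W * (Wᴴ * R) = Rᴴ * (W * Wᴴ) * R := by simp only [Matrix.mul_assoc]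
      _ = 1 := by rw [hWW, Matrix.mul_one, hRR']
  have h0 : ∀ i, 0 ≤ h.eigenvalues i := fun i => hρ.eigenvalues_nonneg i
  have h1 : ∑ i, h.eigenvalues i = 1 := b7_sum_eig h htr
  set w : α × β → ℝ := fun z => ∑ i, h.eigenvalues i * ‖(Rᴴ * W) z i‖ ^ 2 with hw
  have hw0 : ∀ z, 0 ≤ w z := fun z =>
    Finset.sum_nonneg fun i _ => mul_nonneg (h0 i) (sq_nonneg _)
  have hwe : ∀ z, (Rᴴ * ρ * R) z z = ((w z : ℝ) : ℂ) := fun z => b7_diag_entry h R z
  -- marginals
  have hentry : ∀ z, (Rᴴ * ρ * R) z z =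
      ∑ i', ∑ j', ∑ i, ∑ j, star (U i z.1) * star (V j z.2) * ρ (i, j) (i', j') *
        (U i' z.1 * V j' z.2) := by
    intro z
    rw [mul_apply, Fintype.sum_prod_type]
    refine Finset.sum_congr rfl fun i' _ => Finset.sum_congr rfl fun j' _ => ?_
    rw [mul_apply, Fintype.sum_prod_type, Finset.sum_mul]
    refine Finset.sum_congr rfl fun i _ => ?_
    rw [Finset.sum_mul]
    refine Finset.sum_congr rfl fun j _ => ?_
    simp only [hR, conjTranspose_apply, kroneckerMap_apply, star_mul']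
  have horthV : ∀ j j', ∑ b, star (V j b) * V j' b = if j = j' then 1 else 0 := by
    intro j j'
    have := congrFun (congrFun hVV j') j
    rw [mul_apply, one_apply] at this
    simp only [conjTranspose_apply] at this
    rw [← (show (∑ b, V j' b * star (V j b)) = ∑ b, star (V j b) * V j' b from
      Finset.sum_congr rfl fun b _ => mul_comm _ _), this]
    by_cases hjj : j = j' <;> simp [hjj, eq_comm]
  have horthU : ∀ j j', ∑ b, star (U j b) * U j' b = if j = j' then 1 else 0 := by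
    intro j j'
    have := congrFun (congrFun hUU j') j
    rw [mul_apply, one_apply] at this
    simp only [conjTranspose_apply] at this
    rw [← (show (∑ b, U j' b * star (U j b)) = ∑ b, star (U j b) * U j' b from
      Finset.sum_congr rfl fun b _ => mul_comm _ _), this]
    by_cases hjj : j = j' <;> simp [hjj, eq_comm]
  have hmA : ∀ a, ∑ b, w (a, b) = hhA.eigenvalues a := by
    intro a
    have e1 : ((∑ b, w (a, b) : ℝ) : ℂ) = (Uᴴ * ρA * U) a a := by
      push_cast
      simp only [← hwe, hentry]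
      have : (Uᴴ * ρA * U) a a = ∑ i', ∑ i, star (U i a) * ρA i i' * U i' a := by
        rw [mul_apply]
        refine Finset.sum_congr rfl fun i' _ => ?_
        rw [mul_apply, Finset.sum_mul]
        exact Finset.sum_congr rfl fun i _ => by rw [conjTranspose_apply]
      rw [this, Finset.sum_comm]
      refine Finset.sum_congr rfl fun i' _ => ?_
      have e2 : ∀ b, ∑ j', ∑ i, ∑ j, star (U i a) * star (V j b) * ρ (i, j) (i', j') *
          (U i' a * V j' b) = ∑ i, ∑ j, ∑ j', star (U i a) * ρ (i, j) (i', j') * U i' a *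
            (star (V j b) * V j' b) := by
        intro b
        rw [Finset.sum_comm]
        refine Finset.sum_congr rfl fun i _ => ?_
        rw [Finset.sum_comm]
        exact Finset.sum_congr rfl fun j _ => Finset.sum_congr rfl fun j' _ => by ring
      simp only [e2]
      rw [Finset.sum_comm]
      refine Finset.sum_congr rfl fun i _ => ?_
      rw [Finset.sum_comm, hA, Finset.mul_sum, Finset.sum_mul]
      refine Finset.sum_congr rfl fun j _ => ?_
      rw [Finset.sum_comm]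
      simp only [← Finset.mul_sum, horthV]
      simp
    have e3 := b7_diag hhA
    rw [← hU] at e3
    rw [e3, diagonal_apply_eq] at e1
    exact_mod_cast e1
  have hmB : ∀ b, ∑ a, w (a, b) = hhB.eigenvalues b := by
    intro b
    have e1 : ((∑ a, w (a, b) : ℝ) : ℂ) = (Vᴴ * ρB * V) b b := by
      push_cast
      simp only [← hwe, hentry]
      have : (Vᴴ * ρB * V) b b = ∑ j', ∑ j, star (V j b) * ρB j j' * V j' b := by
        rw [mul_apply]
        refine Finset.sum_congr rfl fun i' _ => ?_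
        rw [mul_apply, Finset.sum_mul]
        exact Finset.sum_congr rfl fun i _ => by rw [conjTranspose_apply]
      rw [this]
      have e2 : ∀ a, ∑ i', ∑ j', ∑ i, ∑ j, star (U i a) * star (V j b) * ρ (i, j) (i', j') *
          (U i' a * V j' b) = ∑ j', ∑ j, ∑ i, ∑ i', star (V j b) * ρ (i, j) (i', j') * V j' b *
            (star (U i a) * U i' a) := by
        intro a
        rw [Finset.sum_comm]
        refine Finset.sum_congr rfl fun j' _ => ?_
        calc ∑ i', ∑ i, ∑ j, star (U i a) * star (V j b) * ρ (i, j) (i', j') *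
              (U i' a * V j' b) = ∑ i', ∑ j, ∑ i, star (U i a) * star (V j b) *
                ρ (i, j) (i', j') * (U i' a * V j' b) :=
              Finset.sum_congr rfl fun i' _ => Finset.sum_comm
          _ = ∑ j, ∑ i', ∑ i, star (U i a) * star (V j b) *
                ρ (i, j) (i', j') * (U i' a * V j' b) := Finset.sum_comm
          _ = ∑ j, ∑ i, ∑ i', star (U i a) * star (V j b) *
                ρ (i, j) (i', j') * (U i' a * V j' b) :=
              Finset.sum_congr rfl fun j _ => Finset.sum_comm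
          _ = _ := Finset.sum_congr rfl fun j _ => Finset.sum_congr rfl fun i _ =>
              Finset.sum_congr rfl fun i' _ => by ring
      simp only [e2]
      rw [Finset.sum_comm]
      refine Finset.sum_congr rfl fun j' _ => ?_
      rw [Finset.sum_comm]
      refine Finset.sum_congr rfl fun j _ => ?_
      rw [Finset.sum_comm, hB, Finset.mul_sum, Finset.sum_mul]
      refine Finset.sum_congr rfl fun i _ => ?_
      rw [Finset.sum_comm]
      simp only [← Finset.mul_sum, horthU]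
      simp
    have e3 := b7_diag hhB
    rw [← hV] at e3
    rw [e3, diagonal_apply_eq] at e1
    exact_mod_cast e1
  have hA0 : ∀ a, 0 ≤ hhA.eigenvalues a := fun a => by
    rw [← hmA a]; exact Finset.sum_nonneg fun b _ => hw0 _
  have hB0 : ∀ b, 0 ≤ hhB.eigenvalues b := fun b => by
    rw [← hmB b]; exact Finset.sum_nonneg fun b _ => hw0 _
  have hwsum : ∑ z, w z = 1 := by
    rw [← h1, hw, Finset.sum_comm]
    refine Finset.sum_congr rfl fun i _ => ?_
    rw [← Finset.mul_sum, b7_col hT, mul_one]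
  have hA1 : ∑ a, hhA.eigenvalues a = 1 := by
    rw [← hwsum, Fintype.sum_prod_type]
    exact Finset.sum_congr rfl fun a _ => (hmA a).symm
  have hB1 : ∑ b, hhB.eigenvalues b = 1 := by
    rw [← hwsum, Fintype.sum_prod_type_right]
    exact Finset.sum_congr rfl fun a _ => (hmB a).symm
  have hzA : ∀ a b, hhA.eigenvalues a = 0 → w (a, b) = 0 := by
    intro a b hab
    rw [← hmA a] at hab
    exact (Finset.sum_eq_zero_iff_of_nonneg fun b _ => hw0 (a, b)).mp hab b (Finset.mem_univ b)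
  have hzB : ∀ a b, hhB.eigenvalues b = 0 → w (a, b) = 0 := by
    intro a b hab
    rw [← hmB b] at hab
    exact (Finset.sum_eq_zero_iff_of_nonneg fun a _ => hw0 (a, b)).mp hab a (Finset.mem_univ a)
  have hk := b7_klein (Rᴴ * W) hT h.eigenvalues
    (fun z => hhA.eigenvalues z.1 * hhB.eigenvalues z.2) h0 h1
    (fun z => mul_nonneg (hA0 _) (hB0 _))
    (by
      rw [Fintype.sum_prod_type]
      simp only [← Finset.mul_sum, hB1, mul_one, hA1, le_refl])
    (by
      intro z hz i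
      have hwz : w z = 0 := by
        rcases mul_eq_zero.mp hz with h' | h'
        · exact hzA z.1 z.2 h'
        · exact hzB z.1 z.2 h'
      exact (Finset.sum_eq_zero_iff_of_nonneg
        (fun i _ => mul_nonneg (h0 i) (sq_nonneg _))).mp hwz i (Finset.mem_univ i))
  rw [vnEntropy, dif_pos h, vnEntropy, dif_pos hhA, vnEntropy, dif_pos hhB]
  refine hk.trans (le_of_eq ?_)
  have e4 : ∀ z : α × β, -Real.log (hhA.eigenvalues z.1 * hhB.eigenvalues z.2) * w z =
      -Real.log (hhA.eigenvalues z.1) * w z + -Real.log (hhB.eigenvalues z.2) * w z := by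
    intro z
    by_cases ha : hhA.eigenvalues z.1 = 0
    · rw [hzA z.1 z.2 ha]; simp
    by_cases hb : hhB.eigenvalues z.2 = 0
    · rw [hzB z.1 z.2 hb]; simp
    rw [Real.log_mul ha hb]
    ring
  have e5 : ∑ z : α × β, -Real.log (hhA.eigenvalues z.1 * hhB.eigenvalues z.2) * w z =
      ∑ z : α × β, -Real.log (hhA.eigenvalues z.1) * w z +
      ∑ z : α × β, -Real.log (hhB.eigenvalues z.2) * w z := by
    rw [← Finset.sum_add_distrib]
    exact Finset.sum_congr rfl fun z _ => e4 z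
  refine e5.trans ?_
  congr 1
  · rw [Fintype.sum_prod_type]
    refine Finset.sum_congr rfl fun a _ => ?_
    simp only [← Finset.mul_sum, hmA, Real.negMulLog]
    ring
  · rw [Fintype.sum_prod_type_right]
    refine Finset.sum_congr rfl fun a _ => ?_
    simp only [← Finset.mul_sum, hmB, Real.negMulLog]
    ring

end bip

section regions
variable {V : Type*} [Fintype V] [DecidableEq V] {q : ℕ}

/-- amplitude matrix across a cut -/
def b7_amp (A : Finset V) (Ω : Conf V q → ℂ) :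
    Matrix ({x // x ∈ A} → Fin q) ({x // ¬ x ∈ A} → Fin q) ℂ :=
  fun a b => Ω ((cut A q).symm (a, b))

theorem b7_rdm_eq (A : Finset V) (Ω : Conf V q → ℂ) :
    rdm A Ω = b7_amp A Ω * (b7_amp A Ω)ᴴ := by
  ext a a'
  rw [mul_apply]
  rfl

theorem b7_rdm_psd (A : Finset V) (Ω : Conf V q → ℂ) : (rdm A Ω).PosSemidef := by
  rw [b7_rdm_eq]
  exact Matrix.posSemidef_self_mul_conjTranspose _

theorem b7_rdm_trace (A : Finset V) (Ω : Conf V q → ℂ) (hΩ : nsq Ω = 1) :
    (rdm A Ω).trace = 1 := by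
  have h : (rdm A Ω).trace = ((nsq Ω : ℝ) : ℂ) := by
    rw [Matrix.trace, nsq, ← (cut A q).symm.sum_comp, Fintype.sum_prod_type]
    push_cast
    refine Finset.sum_congr rfl fun a _ => ?_
    show rdm A Ω a a = _
    rw [rdm]
    refine Finset.sum_congr rfl fun b _ => ?_
    rw [RCLike.star_def, Complex.mul_conj']
  rw [h, hΩ]
  simp

/-- BLOCK 7. Entropy facts. -/
theorem entropy_nonneg (A : Finset V) (Ω : Conf V q → ℂ) (hΩ : nsq Ω = 1) :
    0 ≤ entropyOf A Ω :=
  b7_vn_nonneg (b7_rdm_psd A Ω) (b7_rdm_trace A Ω hΩ)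

theorem entropy_le_card (hq : 1 ≤ q) (A : Finset V) (Ω : Conf V q → ℂ) (hΩ : nsq Ω = 1) :
    entropyOf A Ω ≤ Real.log q * A.card := by
  refine (b7_vn_le_log (b7_rdm_psd A Ω) (b7_rdm_trace A Ω hΩ)).trans (le_of_eq ?_)
  rw [Fintype.card_fun, Fintype.card_fin, Fintype.card_coe]
  push_cast
  rw [Real.log_pow]
  ring

theorem entropy_compl (A : Finset V) (Ω : Conf V q → ℂ) (hΩ : nsq Ω = 1) :
    entropyOf Aᶜ Ω = entropyOf A Ω := by
  let e1 : {x // x ∈ Aᶜ} ≃ {x // ¬ x ∈ A} := Equiv.subtypeEquivRight (fun x => by simp)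
  let e2 : {x // ¬ x ∈ Aᶜ} ≃ {x // x ∈ A} := Equiv.subtypeEquivRight (fun x => by simp)
  let E1 : ({x // x ∈ Aᶜ} → Fin q) ≃ ({x // ¬ x ∈ A} → Fin q) := Equiv.arrowCongr e1 (Equiv.refl _)
  let E2 : ({x // ¬ x ∈ Aᶜ} → Fin q) ≃ ({x // x ∈ A} → Fin q) :=
    Equiv.arrowCongr e2 (Equiv.refl _)
  have hglue : ∀ a b, Ω ((cut Aᶜ q).symm (a, b)) = b7_amp A Ω (E2 b) (E1 a) := by
    intro a b
    show _ = Ω _
    congr 1
    funext x
    by_cases hx : x ∈ A
    · have h1 := cut_in (q := q) A (E2 b, E1 a) ⟨x, hx⟩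
      have h2 := cut_out (q := q) Aᶜ (a, b) ⟨x, by simpa using hx⟩
      simp only at h1 h2
      rw [h1, h2]
      rfl
    · have h1 := cut_out (q := q) A (E2 b, E1 a) ⟨x, hx⟩
      have h2 := cut_in (q := q) Aᶜ (a, b) ⟨x, by simpa using hx⟩
      simp only at h1 h2
      rw [h1, h2]
      rfl
  have key : rdm Aᶜ Ω = Matrix.reindex E1.symm E1.symm (((b7_amp A Ω)ᴴ * b7_amp A Ω)ᵀ) := by
    ext a a'
    rw [Matrix.reindex_apply, Matrix.submatrix_apply, Matrix.transpose_apply, mul_apply]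
    show ∑ b, Ω ((cut Aᶜ q).symm (a, b)) * star (Ω ((cut Aᶜ q).symm (a', b))) = _
    simp only [hglue, Equiv.symm_symm, conjTranspose_apply]
    rw [← E2.sum_comp]
    exact Finset.sum_congr rfl fun b _ => mul_comm _ _
  have hherm : ((b7_amp A Ω)ᴴ * b7_amp A Ω).IsHermitian :=
    (Matrix.posSemidef_conjTranspose_mul_self _).isHermitian
  unfold entropyOf
  refine b7_vn_congr (b7_rdm_psd _ _).isHermitian (b7_rdm_psd _ _).isHermitian
    (Fintype.card ({x // x ∈ A} → Fin q)) (Fintype.card ({x // ¬ x ∈ A} → Fin q)) ?_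
  rw [key, Matrix.charpoly_reindex, Matrix.charpoly_transpose, b7_rdm_eq,
    Matrix.charpoly_mul_comm']

/-- splitting off the sites of `B` from the outside of `A` -/
def b7_out (A B D : Finset V) (hAB : Disjoint A B) (hD : ∀ x, x ∈ D ↔ x ∈ A ∨ x ∈ B) (q : ℕ) :
    ({x // ¬ x ∈ A} → Fin q) ≃ ({x // x ∈ B} → Fin q) × ({x // ¬ x ∈ D} → Fin q) where
  toFun c := (fun x => c ⟨x.1, fun h => Finset.disjoint_left.mp hAB h x.2⟩,
    fun x => c ⟨x.1, fun h => x.2 ((hD x.1).mpr (Or.inl h))⟩)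
  invFun z := fun x => if h : x.1 ∈ B then z.1 ⟨x.1, h⟩ else
    z.2 ⟨x.1, fun h' => ((hD x.1).mp h').elim x.2 h⟩
  left_inv c := by
    funext x
    by_cases h : x.1 ∈ B <;> simp [h]
  right_inv z := by
    refine Prod.ext ?_ ?_
    · funext x
      simp [x.2]
    · funext x
      have : ¬ x.1 ∈ B := fun h => x.2 ((hD x.1).mpr (Or.inr h))
      simp [this]

/-- splitting a union -/
def b7_in (A B D : Finset V) (hAB : Disjoint A B) (hD : ∀ x, x ∈ D ↔ x ∈ A ∨ x ∈ B) (q : ℕ) :
    ({x // x ∈ D} → Fin q) ≃ ({x // x ∈ A} → Fin q) × ({x // x ∈ B} → Fin q) where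
  toFun c := (fun x => c ⟨x.1, (hD x.1).mpr (Or.inl x.2)⟩,
    fun x => c ⟨x.1, (hD x.1).mpr (Or.inr x.2)⟩)
  invFun z := fun x => if h : x.1 ∈ A then z.1 ⟨x.1, h⟩ else
    z.2 ⟨x.1, ((hD x.1).mp x.2).resolve_left h⟩
  left_inv c := by
    funext x
    by_cases h : x.1 ∈ A <;> simp [h]
  right_inv z := by
    refine Prod.ext ?_ ?_
    · funext x
      simp [x.2]
    · funext x
      have : ¬ x.1 ∈ A := fun h => Finset.disjoint_left.mp hAB h x.2
      simp [this]

theorem b7_glueA (A B D : Finset V) (hAB : Disjoint A B) (hD : ∀ x, x ∈ D ↔ x ∈ A ∨ x ∈ B)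
    (a : {x // x ∈ A} → Fin q) (b : {x // x ∈ B} → Fin q) (c : {x // ¬ x ∈ D} → Fin q) :
    (cut A q).symm (a, (b7_out A B D hAB hD q).symm (b, c)) =
      (cut D q).symm ((b7_in A B D hAB hD q).symm (a, b), c) := by
  funext x
  by_cases hxD : x ∈ D
  · have h2 := cut_in (q := q) D ((b7_in A B D hAB hD q).symm (a, b), c) ⟨x, hxD⟩
    simp only at h2
    rw [h2]
    by_cases hxA : x ∈ A
    · have h1 := cut_in (q := q) A (a, (b7_out A B D hAB hD q).symm (b, c)) ⟨x, hxA⟩
      simp only at h1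
      rw [h1]
      simp [b7_in, hxA]
    · have h1 := cut_out (q := q) A (a, (b7_out A B D hAB hD q).symm (b, c)) ⟨x, hxA⟩
      simp only at h1
      rw [h1]
      have hxB : x ∈ B := ((hD x).mp hxD).resolve_left hxA
      simp [b7_in, b7_out, hxA, hxB]
  · have hxA : ¬ x ∈ A := fun h => hxD ((hD x).mpr (Or.inl h))
    have hxB : ¬ x ∈ B := fun h => hxD ((hD x).mpr (Or.inr h))
    have h2 := cut_out (q := q) D ((b7_in A B D hAB hD q).symm (a, b), c) ⟨x, hxD⟩
    have h1 := cut_out (q := q) A (a, (b7_out A B D hAB hD q).symm (b, c)) ⟨x, hxA⟩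
    simp only at h1 h2
    rw [h1, h2]
    simp [b7_out, hxB]

theorem b7_glueB (A B D : Finset V) (hAB : Disjoint A B) (hD : ∀ x, x ∈ D ↔ x ∈ A ∨ x ∈ B)
    (hD' : ∀ x, x ∈ D ↔ x ∈ B ∨ x ∈ A)
    (a : {x // x ∈ A} → Fin q) (b : {x // x ∈ B} → Fin q) (c : {x // ¬ x ∈ D} → Fin q) :
    (cut B q).symm (b, (b7_out B A D hAB.symm hD' q).symm (a, c)) =
      (cut D q).symm ((b7_in A B D hAB hD q).symm (a, b), c) := by
  rw [b7_glueA B A D hAB.symm hD' b a c]
  congr 2
  funext x
  by_cases hxA : x.1 ∈ A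
  · have hxB : ¬ x.1 ∈ B := fun h => Finset.disjoint_left.mp hAB hxA h
    simp [b7_in, hxA, hxB]
  · have hxB : x.1 ∈ B := ((hD x.1).mp x.2).resolve_left hxA
    simp [b7_in, hxA, hxB]

theorem entropy_union (A B : Finset V) (hAB : Disjoint A B) (Ω : Conf V q → ℂ)
    (hΩ : nsq Ω = 1) : entropyOf (A ∪ B) Ω ≤ entropyOf A Ω + entropyOf B Ω := by
  set D := A ∪ B with hDdef
  have hD : ∀ x, x ∈ D ↔ x ∈ A ∨ x ∈ B := fun x => Finset.mem_union
  have hD' : ∀ x, x ∈ D ↔ x ∈ B ∨ x ∈ A := fun x => (hD x).trans or_comm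
  set e := b7_in A B D hAB hD q with he
  have hre : vnEntropy (Matrix.reindex e e (rdm D Ω)) = entropyOf D Ω :=
    b7_vn_reindex e (b7_rdm_psd D Ω).isHermitian
  rw [← hre]
  refine b7_subadd ?_ ?_ ?_ ?_
  · exact (b7_rdm_psd D Ω).submatrix _
  · rw [← b7_rdm_trace D Ω hΩ]
    simp only [Matrix.trace, Matrix.diag_apply, Matrix.reindex_apply, Matrix.submatrix_apply]
    exact e.symm.sum_comp (fun z => rdm D Ω z z)
  · intro i i'
    show ∑ c, Ω ((cut A q).symm (i, c)) * star (Ω ((cut A q).symm (i', c))) = _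
    rw [← (b7_out A B D hAB hD q).symm.sum_comp, Fintype.sum_prod_type]
    refine Finset.sum_congr rfl fun b _ => ?_
    rw [Matrix.reindex_apply, Matrix.submatrix_apply]
    show _ = ∑ c, Ω ((cut D q).symm (e.symm (i, b), c)) * star (Ω ((cut D q).symm (e.symm (i', b), c)))
    exact Finset.sum_congr rfl fun c _ => by
      rw [b7_glueA A B D hAB hD, b7_glueA A B D hAB hD]
  · intro j j'
    show ∑ c, Ω ((cut B q).symm (j, c)) * star (Ω ((cut B q).symm (j', c))) = _
    rw [← (b7_out B A D hAB.symm hD' q).symm.sum_comp, Fintype.sum_prod_type]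
    refine Finset.sum_congr rfl fun a _ => ?_
    rw [Matrix.reindex_apply, Matrix.submatrix_apply]
    show _ = ∑ c, Ω ((cut D q).symm (e.symm (a, j), c)) * star (Ω ((cut D q).symm (e.symm (a, j'), c)))
    exact Finset.sum_congr rfl fun c _ => by
      rw [b7_glueB A B D hAB hD hD', b7_glueB A B D hAB hD hD']

end regions

end Vale.Agent.P356.SV
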