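import Vale.Agent.P356.SV.Base

/-!
Typical projections and rank transfer.
-/

set_option linter.all false

namespace Vale.Agent.P356.SV

open Matrix Finset Vale.Agent.P356 Vale.Agent.P356.Path
open scoped BigOperators ComplexOrder Kronecker

section abs
variable {N α β : Type*} [Fintype N] [Fintype α] [Fintype β] [DecidableEq N] [DecidableEq α]
  [DecidableEq β]

theorem b6a_opL_mulVec (e : N ≃ α × β) (Y : Matrix α α ℂ) (ψ : N → ℂ) :
    opL e Y *ᵥ ψ = ((Y ⊗ₖ (1 : Matrix β β ℂ)) *ᵥ (ψ ∘ e.symm)) ∘ e := by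
  rw [opL, Matrix.reindex_apply, Matrix.submatrix_mulVec_equiv]
  rfl

theorem b6a_opL_mul (e : N ≃ α × β) (Y Z : Matrix α α ℂ) :
    opL e (Y * Z) = opL e Y * opL e Z := by
  rw [opL, opL, opL, Matrix.reindex_apply, Matrix.reindex_apply, Matrix.reindex_apply,
    Matrix.submatrix_mul_equiv, ← mul_kronecker_mul, Matrix.one_mul]

theorem b6a_opL_one (e : N ≃ α × β) : opL e (1 : Matrix α α ℂ) = 1 := by
  rw [opL, one_kronecker_one, Matrix.reindex_apply, Matrix.submatrix_one_equiv]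

theorem b6a_opL_sub (e : N ≃ α × β) (Y Z : Matrix α α ℂ) :
    opL e (Y - Z) = opL e Y - opL e Z := by
  ext s t
  simp only [opL, Matrix.reindex_apply, Matrix.submatrix_apply, kroneckerMap_apply,
    Matrix.sub_apply, sub_mul]

theorem b6a_nsq_comp (e : N ≃ α × β) (x : α × β → ℂ) : nsq (x ∘ e) = ∑ z, ‖x z‖ ^ 2 := by
  rw [nsq]
  exact Equiv.sum_comp e (fun z => ‖x z‖ ^ 2)

/-- the norm of a vector after an operator on the first factor, through the spectrum of the
reduced state -/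
theorem b6a_nsq_opL (e : N ≃ α × β) (ψ : N → ℂ) (Y : Matrix α α ℂ) :
    nsq (opL e Y *ᵥ ψ) = ∑ k, eigp (ψ ∘ e.symm) k *
      ∑ i, ‖(Y * eigU (ψ ∘ e.symm)) i k‖ ^ 2 := by
  rw [b6a_opL_mulVec, b6a_nsq_comp, ← nsq_left_diag _ _ _ (rot_self (ψ ∘ e.symm)),
    mulVec_mulVec]
  have h : (Y ⊗ₖ (1 : Matrix β β ℂ)) = ((Y * eigU (ψ ∘ e.symm)) ⊗ₖ (1 : Matrix β β ℂ)) *
      (rotW (ψ ∘ e.symm))ᴴ := by
    rw [rotW, conjTranspose_kronecker, conjTranspose_one, ← mul_kronecker_mul, Matrix.mul_assoc,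
      eigU_mul, Matrix.mul_one, Matrix.mul_one]
  rw [← h]

/-- Hilbert-Schmidt norm in the rotated basis -/
theorem b6a_hs_rot (x : α × β → ℂ) (Z : Matrix α α ℂ) :
    ∑ i, ∑ j, ‖(Z * eigU x) i j‖ ^ 2 = ∑ i, ∑ j, ‖Z i j‖ ^ 2 := by
  refine Finset.sum_congr rfl fun i _ => ?_
  have hU : (eigU x)ᵀ * ((eigU x)ᵀ)ᴴ = 1 := by
    have h := eigU_mul' x
    have h2 := congrArg Matrix.transpose h
    rw [Matrix.transpose_mul, Matrix.transpose_one] at h2
    exact h2
  have h3 := nsq_conj ((eigU x)ᵀ)ᴴ (by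
    rw [conjTranspose_conjTranspose]
    exact mul_eq_one_comm.mp hU) (fun j => Z i j)
  rw [conjTranspose_conjTranspose] at h3
  rw [← h3]
  refine Finset.sum_congr rfl fun j _ => ?_
  congr 2
  simp only [mul_apply, mulVec, dotProduct, transpose_apply]
  exact Finset.sum_congr rfl fun k _ => mul_comm _ _

theorem b6a_fOp_rot (x : α × β → ℂ) (f : α → ℝ) (Z : Matrix α α ℂ) (i k : α) :
    ((Z * fOp x f) * eigU x) i k = (Z * eigU x) i k * (f k : ℂ) := by
  have h : (Z * fOp x f) * eigU x = (Z * eigU x) * diagonal (fun i => (f i : ℂ)) := by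
    rw [fOp]
    calc Z * (eigU x * diagonal (fun i => (f i : ℂ)) * (eigU x)ᴴ) * eigU x =
        (Z * eigU x) * diagonal (fun i => (f i : ℂ)) * ((eigU x)ᴴ * eigU x) := by
          simp only [Matrix.mul_assoc]
      _ = _ := by rw [eigU_mul', Matrix.mul_one]
  rw [h, mul_diagonal]

theorem b6a_fOp_mul (x : α × β → ℂ) (f g : α → ℝ) :
    fOp x f * fOp x g = fOp x (fun i => f i * g i) := by
  rw [fOp, fOp, fOp]
  calc eigU x * diagonal (fun i => (f i : ℂ)) * (eigU x)ᴴ *
        (eigU x * diagonal (fun i => (g i : ℂ)) * (eigU x)ᴴ) =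
      eigU x * (diagonal (fun i => (f i : ℂ)) * (((eigU x)ᴴ * eigU x) *
        diagonal (fun i => (g i : ℂ)))) * (eigU x)ᴴ := by simp only [Matrix.mul_assoc]
    _ = _ := by
      rw [eigU_mul', Matrix.one_mul, diagonal_mul_diagonal]
      push_cast
      rfl

theorem b6a_fOp_one (x : α × β → ℂ) : fOp x (fun _ => 1) = 1 := by
  rw [fOp]
  simp only [Complex.ofReal_one, diagonal_one, Matrix.mul_one, eigU_mul]

theorem b6a_fOp_sub (x : α × β → ℂ) (f g : α → ℝ) :
    fOp x f - fOp x g = fOp x (fun i => f i - g i) := by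
  rw [fOp, fOp, fOp, ← Matrix.sub_mul, ← Matrix.mul_sub, diagonal_sub]
  push_cast
  rfl

theorem b6a_fOp_herm (x : α × β → ℂ) (f : α → ℝ) : (fOp x f)ᴴ = fOp x f := by
  rw [fOp, conjTranspose_mul, conjTranspose_mul, conjTranspose_conjTranspose,
    diagonal_conjTranspose, Matrix.mul_assoc]
  congr 2
  congr 1
  funext i
  simp

theorem b6a_fOp_trace (x : α × β → ℂ) (f : α → ℝ) : (fOp x f).trace.re = ∑ i, f i := by
  rw [fOp, Matrix.trace_mul_comm, ← Matrix.mul_assoc, eigU_mul', Matrix.one_mul, trace_diagonal]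
  simp

theorem b6a_fOp_redA (x : α × β → ℂ) : redA x = fOp x (eigp x) := by
  rw [redA_spec, fOp]

theorem b6a_fOp_isPr (x : α × β → ℂ) (f : α → ℝ) (hf : ∀ i, f i * f i = f i) :
    IsPr (fOp x f) := by
  refine ⟨?_, b6a_fOp_herm x f⟩
  rw [b6a_fOp_mul]
  simp only [hf]

/-- the norm after a function of the reduced state -/
theorem b6a_nsq_fOp (e : N ≃ α × β) (ψ : N → ℂ) (f : α → ℝ) :
    nsq (opL e (fOp (ψ ∘ e.symm) f) *ᵥ ψ) = ∑ k, eigp (ψ ∘ e.symm) k * f k ^ 2 := by
  rw [b6a_nsq_opL]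
  refine Finset.sum_congr rfl fun k _ => ?_
  congr 1
  have h : ∀ i, ‖(fOp (ψ ∘ e.symm) f * eigU (ψ ∘ e.symm)) i k‖ ^ 2 =
      ‖(eigU (ψ ∘ e.symm)) i k‖ ^ 2 * f k ^ 2 := by
    intro i
    have h1 := b6a_fOp_rot (ψ ∘ e.symm) f 1 i k
    rw [Matrix.one_mul, Matrix.one_mul] at h1
    rw [h1, norm_mul, mul_pow]
    congr 1
    simp
  simp only [h]
  rw [← Finset.sum_mul]
  have h2 : ∑ i, ‖(eigU (ψ ∘ e.symm)) i k‖ ^ 2 = 1 := by
    have h3 := congrFun (congrFun (eigU_mul' (ψ ∘ e.symm)) k) k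
    rw [mul_apply, one_apply_eq] at h3
    have h4 : ((∑ i, ‖(eigU (ψ ∘ e.symm)) i k‖ ^ 2 : ℝ) : ℂ) = 1 := by
      rw [← h3]
      push_cast
      refine Finset.sum_congr rfl fun i _ => ?_
      rw [conjTranspose_apply, ← Complex.conj_mul']
      rfl
    exact_mod_cast h4
  rw [h2, one_mul]

end abs

section regions
variable {V : Type*} [Fintype V] [DecidableEq V] {q : ℕ}

theorem b6a_unit (A : Finset V) (Ω : Conf V q → ℂ) (hΩ : nsq Ω = 1) :
    ∑ z, ‖(Ω ∘ (cut A q).symm) z‖ ^ 2 = 1 := by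
  rw [← hΩ, nsq]
  exact Equiv.sum_comp (cut A q).symm (fun s => ‖Ω s‖ ^ 2)

/-- Typical projections. -/
theorem typical (A : Finset V) (Ω : Conf V q → ℂ) (hΩ : nsq Ω = 1) (K : ℝ)
    (hT : TailLe (rdm A Ω) K) (u : ℝ) (hu : 0 < u) :
    ∃ T : Op {x // x ∈ A} q, IsPr T ∧
      T.trace.re ≤ Real.exp (entropyOf A Ω + u) ∧
      nsq ((1 - opOn A T) *ᵥ Ω) ≤ 6 * Real.exp (-(u / (4 + 2 * Real.sqrt K))) ∧
      T * rdm A Ω = rdm A Ω * T ∧
      (∀ Z : Op {x // x ∈ A} q, nsq (opOn A Z *ᵥ (opOn A T *ᵥ Ω)) ≤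
        Real.exp (-entropyOf A Ω + u) * ∑ i, ∑ j, ‖Z i j‖ ^ 2) ∧
      (∀ Z : Op {x // x ∈ A} q, ∑ i, ∑ j, ‖(Z * T) i j‖ ^ 2 ≤
        Real.exp (entropyOf A Ω + u) * nsq (opOn A Z *ᵥ Ω)) := by
  classical
  set x := Ω ∘ (cut A q).symm with hx
  set S := entropyOf A Ω with hS
  have hunit := b6a_unit A Ω hΩ
  have hp0 := eigp_nonneg x
  have hp1 := eigp_sum x hunit
  set t : ({x // x ∈ A} → Fin q) → ℝ := fun i =>
    if Real.exp (-S - u) < eigp x i ∧ eigp x i < Real.exp (-S + u) then 1 else 0 with ht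
  have htt : ∀ i, t i * t i = t i := by
    intro i
    simp only [ht]
    split_ifs <;> simp
  have ht0 : ∀ i, 0 ≤ t i := by
    intro i
    simp only [ht]
    split_ifs <;> simp
  have hlow : ∀ i, t i ≤ Real.exp (S + u) * eigp x i := by
    intro i
    simp only [ht]
    split_ifs with h
    · have h1 := mul_le_mul_of_nonneg_left h.1.le (Real.exp_pos (S + u)).le
      rw [← Real.exp_add] at h1
      have h2 : S + u + (-S - u) = 0 := by ring
      rw [h2, Real.exp_zero] at h1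
      exact h1
    · exact mul_nonneg (Real.exp_pos _).le (hp0 i)
  have hup : ∀ i, eigp x i * t i ≤ Real.exp (-S + u) := by
    intro i
    simp only [ht]
    split_ifs with h
    · rw [mul_one]
      exact h.2.le
    · rw [mul_zero]
      exact (Real.exp_pos _).le
  have heig : ∀ i, eig (rdm A Ω) i = eigp x i := fun i => by
    rw [eig_of_herm (rdm_herm A Ω)]
    rfl
  refine ⟨fOp x t, b6a_fOp_isPr x t htt, ?_, ?_, ?_, ?_, ?_⟩
  · rw [b6a_fOp_trace]
    refine (Finset.sum_le_sum fun i _ => hlow i).trans ?_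
    rw [← Finset.mul_sum, hp1, mul_one]
  · have h1 : (1 - opOn A (fOp x t)) = opL (cut A q) (fOp x (fun i => 1 - t i)) := by
      rw [opOn, ← b6a_opL_one (cut A q), ← b6a_opL_sub, ← b6a_fOp_one x, b6a_fOp_sub]
    rw [h1, b6a_nsq_fOp]
    refine le_trans ?_ (hT u)
    refine Finset.sum_le_sum fun i _ => ?_
    rw [heig]
    by_cases h : Real.exp (-S - u) < eigp x i ∧ eigp x i < Real.exp (-S + u)
    · have h2 : t i = 1 := by
        simp only [ht]
        rw [if_pos h]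
      rw [← hx, h2]
      have h3 : (0 : ℝ) ≤ (if u ≤ |dev (rdm A Ω) i| then eigp x i else 0) := by
        split_ifs
        · exact hp0 i
        · exact le_refl _
      simpa using h3
    · have h2 : t i = 0 := by
        simp only [ht]
        rw [if_neg h]
      rw [← hx, h2]
      rcases (hp0 i).lt_or_eq with h4 | h4
      · have h5 : u ≤ |dev (rdm A Ω) i| := by
          have hdev : dev (rdm A Ω) i = -Real.log (eigp x i) - S := by
            rw [dev, heig]
            rfl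
          rw [hdev]
          rw [not_and_or, not_lt, not_lt] at h
          rcases h with h | h
          · have h6 := Real.log_le_log h4 h
            rw [Real.log_exp] at h6
            exact le_trans (by linarith only [h6]) (le_abs_self _)
          · have h6 := Real.log_le_log (Real.exp_pos _) h
            rw [Real.log_exp] at h6
            exact le_trans (by linarith only [h6]) (neg_le_abs _)
        rw [if_pos h5]
        simp
      · rw [← h4]
        simp
  · rw [rdm_eq, b6a_fOp_redA, ← hx, b6a_fOp_mul, b6a_fOp_mul]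
    congr 1
    funext i
    ring
  · intro Z
    have h1 : opOn A Z *ᵥ (opOn A (fOp x t) *ᵥ Ω) = opL (cut A q) (Z * fOp x t) *ᵥ Ω := by
      rw [b6a_opL_mul, mulVec_mulVec]
      rfl
    rw [h1, b6a_nsq_opL, ← hx, ← b6a_hs_rot x Z, Finset.sum_comm (γ := {x // x ∈ A} → Fin q),
      Finset.mul_sum]
    refine Finset.sum_le_sum fun k _ => ?_
    have h2 : ∀ i, ‖(Z * fOp x t * eigU x) i k‖ ^ 2 = t k * ‖(Z * eigU x) i k‖ ^ 2 := by
      intro i
      rw [b6a_fOp_rot, norm_mul, mul_pow, Complex.norm_real, Real.norm_eq_abs, sq_abs,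
        sq (t k), htt]
      ring
    simp only [h2]
    rw [← Finset.mul_sum, ← mul_assoc]
    refine mul_le_mul_of_nonneg_right (hup k) ?_
    positivity
  · intro Z
    rw [opOn, b6a_nsq_opL, ← hx, ← b6a_hs_rot x (Z * fOp x t),
      Finset.sum_comm (γ := {x // x ∈ A} → Fin q), Finset.mul_sum]
    refine Finset.sum_le_sum fun k _ => ?_
    have h2 : ∀ i, ‖(Z * fOp x t * eigU x) i k‖ ^ 2 = t k * ‖(Z * eigU x) i k‖ ^ 2 := by
      intro i
      rw [b6a_fOp_rot, norm_mul, mul_pow, Complex.norm_real, Real.norm_eq_abs, sq_abs,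
        sq (t k), htt]
      ring
    simp only [h2]
    rw [← Finset.mul_sum, ← mul_assoc]
    refine mul_le_mul_of_nonneg_right (hlow k) ?_
    positivity

/-- trace of a projection is its rank -/
theorem b6b_trace {α : Type*} [Fintype α] [DecidableEq α] {Q : Matrix α α ℂ} (hQ : IsPr Q) :
    Q.trace.re = Q.rank := by
  have hidem : IsIdempotentElem (Matrix.toLin' Q) := by
    show Matrix.toLin' Q * Matrix.toLin' Q = Matrix.toLin' Q
    rw [Module.End.mul_eq_comp, ← Matrix.toLin'_mul, hQ.1]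
  have h := (LinearMap.IsIdempotentElem.isProj_range _ hidem).trace
  rw [Matrix.trace_toLin'_eq] at h
  rw [h, Matrix.rank, ← Matrix.toLin'_apply']
  simp

theorem b6b_cut_compl (A : Finset V) (b : {x // x ∈ Aᶜ} → Fin q)
    (c : {x // ¬ x ∈ Aᶜ} → Fin q) :
    (cut Aᶜ q).symm (b, c) = (cut A q).symm
      (fun x => c ⟨x.1, fun h => (Finset.mem_compl.mp h) x.2⟩,
        fun x => b ⟨x.1, Finset.mem_compl.mpr x.2⟩) := by
  funext z
  by_cases hz : z ∈ A
  · have hz' : ¬ z ∈ Aᶜ := fun h => (Finset.mem_compl.mp h) hz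
    simp only [cut, Equiv.piEquivPiSubtypeProd_symm_apply, hz, hz', dite_true, dite_false]
  · have hz' : z ∈ Aᶜ := Finset.mem_compl.mpr hz
    simp only [cut, Equiv.piEquivPiSubtypeProd_symm_apply, hz, hz', dite_true, dite_false]

/-- configurations inside seen from the complement -/
def b6b_equiv (A : Finset V) (q : ℕ) :
    ({x // ¬ x ∈ Aᶜ} → Fin q) ≃ ({x // x ∈ A} → Fin q) where
  toFun c := fun x => c ⟨x.1, fun h => (Finset.mem_compl.mp h) x.2⟩
  invFun a := fun x => a ⟨x.1, by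
    have := x.2
    rw [Finset.mem_compl, not_not] at this
    exact this⟩
  left_inv c := rfl
  right_inv a := rfl

theorem b6b_opOn_apply (A : Finset V) (Y : Op {x // x ∈ A} q) (φ : Conf V q → ℂ)
    (a : {x // x ∈ A} → Fin q) (b : {x // ¬ x ∈ A} → Fin q) :
    (opOn A Y *ᵥ φ) ((cut A q).symm (a, b)) = ∑ a', Y a a' * φ ((cut A q).symm (a', b)) := by
  rw [opOn, b6a_opL_mulVec, Function.comp_apply, Equiv.apply_symm_apply, kron_one_mulVec]
  rfl

/-- Rank transfer across a cut. -/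
theorem rank_transfer (A : Finset V) (Q : Op {x // x ∈ A} q) (hQ : IsPr Q)
    (φ : Conf V q → ℂ) (hφ : opOn A Q *ᵥ φ = φ) :
    ∃ Pr : Op {x // x ∈ Aᶜ} q, IsPr Pr ∧ Pr.trace.re ≤ Q.trace.re ∧ opOn Aᶜ Pr *ᵥ φ = φ := by
  classical
  set x := φ ∘ (cut Aᶜ q).symm with hx
  set M : Matrix ({x // x ∈ Aᶜ} → Fin q) ({x // x ∈ A} → Fin q) ℂ := fun b a =>
    φ ((cut A q).symm (a, fun x => b ⟨x.1, Finset.mem_compl.mpr x.2⟩)) with hM
  have hMQ : M * Qᵀ = M := by
    ext b a
    rw [mul_apply]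
    have h := b6b_opOn_apply A Q φ a (fun x => b ⟨x.1, Finset.mem_compl.mpr x.2⟩)
    rw [hφ] at h
    simp only [hM, transpose_apply]
    rw [h]
    exact Finset.sum_congr rfl fun a' _ => mul_comm _ _
  have hred : redA x = M * Mᴴ := by
    ext b b'
    rw [mul_apply, redA, ← Equiv.sum_comp (b6b_equiv A q)]
    refine Finset.sum_congr rfl fun c _ => ?_
    rw [hx, Function.comp_apply, Function.comp_apply, b6b_cut_compl, b6b_cut_compl,
      conjTranspose_apply]
    rfl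
  have hrank : (redA x).rank ≤ Q.rank := by
    rw [hred]
    refine (Matrix.rank_mul_le_left _ _).trans ?_
    rw [← hMQ]
    refine (Matrix.rank_mul_le_right _ _).trans ?_
    rw [Matrix.rank_transpose]
  set t : ({x // x ∈ Aᶜ} → Fin q) → ℝ := fun i => if eigp x i ≠ 0 then 1 else 0 with ht
  have htt : ∀ i, t i * t i = t i := by
    intro i
    simp only [ht]
    split_ifs <;> simp
  refine ⟨fOp x t, b6a_fOp_isPr x t htt, ?_, ?_⟩
  · rw [b6a_fOp_trace, b6b_trace hQ]
    have h1 : ∑ i, t i = ((redA x).rank : ℝ) := by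
      rw [(redA_isHermitian x).rank_eq_card_non_zero_eigs, Fintype.card_subtype,
        Finset.card_filter]
      push_cast
      rfl
    rw [h1]
    exact_mod_cast hrank
  · have h1 : (1 - opOn Aᶜ (fOp x t)) = opL (cut Aᶜ q) (fOp x (fun i => 1 - t i)) := by
      rw [opOn, ← b6a_opL_one (cut Aᶜ q), ← b6a_opL_sub, ← b6a_fOp_one x, b6a_fOp_sub]
    have h2 : nsq ((1 - opOn Aᶜ (fOp x t)) *ᵥ φ) = 0 := by
      rw [h1, b6a_nsq_fOp]
      refine Finset.sum_eq_zero fun k _ => ?_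
      rw [← hx]
      by_cases h : eigp x k = 0
      · rw [h, zero_mul]
      · simp [ht, h]
    have h3 : (1 - opOn Aᶜ (fOp x t)) *ᵥ φ = 0 := by
      funext s
      rw [nsq, Finset.sum_eq_zero_iff_of_nonneg (fun i _ => by positivity)] at h2
      have := h2 s (Finset.mem_univ s)
      simpa using this
    rw [Matrix.sub_mulVec, Matrix.one_mulVec, sub_eq_zero] at h3
    exact h3.symm

theorem rank_transfer' (A : Finset V) (Q : Op {x // x ∈ Aᶜ} q) (hQ : IsPr Q)
    (φ : Conf V q → ℂ) (hφ : opOn Aᶜ Q *ᵥ φ = φ) :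
    ∃ Pr : Op {x // x ∈ A} q, IsPr Pr ∧ Pr.trace.re ≤ Q.trace.re ∧ opOn A Pr *ᵥ φ = φ := by
  have h := rank_transfer Aᶜ Q hQ φ hφ
  rw [compl_compl] at h
  exact h

end regions

end Vale.Agent.P356.SV
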