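import Vale.Agent.P356.SV.Ops
import Vale.Agent.P356.SV.Typ

set_option linter.all false

/-!
The measured state.
-/

namespace Vale.Agent.P356.SV

open Matrix Finset Vale.Agent.P356 Vale.Agent.P356.Path
open scoped BigOperators ComplexOrder Kronecker

section
variable {n : Type*} [Fintype n] [DecidableEq n]

omit [DecidableEq n] in
theorem b6d_nsq_re (ψ : n → ℂ) : nsq ψ = (star ψ ⬝ᵥ ψ).re := nsq_re ψ

omit [DecidableEq n] in
/-- norm of a projected vector as an expectation -/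
theorem b6d_nsq_proj {P : Matrix n n ℂ} (hP : IsPr P) (ψ : n → ℂ) :
    nsq (P *ᵥ ψ) = (star ψ ⬝ᵥ (P *ᵥ ψ)).re := by
  rw [b6d_nsq_re, star_mulVec, hP.2, ← dotProduct_mulVec, mulVec_mulVec, hP.1]

omit [DecidableEq n] in
theorem b6d_nsq_nonneg (ψ : n → ℂ) : 0 ≤ nsq ψ := by
  unfold nsq
  positivity

theorem b6d_isPr_compl {P : Matrix n n ℂ} (hP : IsPr P) : IsPr (1 - P) := by
  refine ⟨?_, ?_⟩
  · rw [Matrix.mul_sub, Matrix.sub_mul, Matrix.sub_mul, Matrix.mul_one, Matrix.one_mul, hP.1,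
      sub_self, sub_zero, Matrix.mul_one]
  · rw [conjTranspose_sub, conjTranspose_one, hP.2]

theorem b6d_pythag {P : Matrix n n ℂ} (hP : IsPr P) (ψ : n → ℂ) :
    nsq ψ = nsq (P *ᵥ ψ) + nsq ((1 - P) *ᵥ ψ) := by
  rw [b6d_nsq_proj hP, b6d_nsq_proj (b6d_isPr_compl hP), b6d_nsq_re, ← Complex.add_re,
    ← dotProduct_add, ← Matrix.add_mulVec, add_sub_cancel, Matrix.one_mulVec]

theorem b6d_nsq_proj_le {P : Matrix n n ℂ} (hP : IsPr P) (ψ : n → ℂ) :
    nsq (P *ᵥ ψ) ≤ nsq ψ := by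
  rw [b6d_pythag hP ψ]
  have := b6d_nsq_nonneg ((1 - P) *ᵥ ψ)
  linarith

theorem b6d_contr {P : Matrix n n ℂ} (hP : IsPr P) : Contr P := fun v => b6d_nsq_proj_le hP v

end

section regions
variable {V : Type*} [Fintype V] [DecidableEq V] {q : ℕ}

theorem b6d_isPr_opOn (A : Finset V) {P : Op {x // x ∈ A} q} (hP : IsPr P) :
    IsPr (opOn A P) := by
  refine ⟨?_, ?_⟩
  · rw [← opOn_mul, hP.1]
  · rw [opOn_conjTranspose, hP.2]

/-- splitting of the configurations of `A` along `X ⊆ A` -/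
def b6d_split (X A : Finset V) (hXA : X ⊆ A) (q : ℕ) :
    Conf {x // x ∈ A} q ≃ Conf {x // x ∈ X} q × Conf {x // x ∈ A \ X} q where
  toFun s := (fun x => s ⟨x.1, hXA x.2⟩, fun x => s ⟨x.1, (Finset.mem_sdiff.mp x.2).1⟩)
  invFun p := fun x => if h : x.1 ∈ X then p.1 ⟨x.1, h⟩ else
    p.2 ⟨x.1, Finset.mem_sdiff.mpr ⟨x.2, h⟩⟩
  left_inv s := by
    funext x
    by_cases h : x.1 ∈ X
    · simp [h]
    · simp [h]
  right_inv p := by
    refine Prod.ext ?_ ?_
    · funext x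
      simp
    · funext x
      have h : x.1 ∉ X := (Finset.mem_sdiff.mp x.2).2
      simp [h]

/-- product of an operator on `X` and an operator on `A \ X`, as an operator on `A` -/
def b6d_prod (X A : Finset V) (hXA : X ⊆ A) (B : Op {x // x ∈ X} q)
    (T : Op {x // x ∈ A \ X} q) : Op {x // x ∈ A} q :=
  Matrix.reindex (b6d_split X A hXA q).symm (b6d_split X A hXA q).symm (B ⊗ₖ T)

theorem b6d_prod_apply (X A : Finset V) (hXA : X ⊆ A) (B : Op {x // x ∈ X} q)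
    (T : Op {x // x ∈ A \ X} q) (s t : Conf {x // x ∈ A} q) :
    b6d_prod X A hXA B T s t = B (fun x => s ⟨x.1, hXA x.2⟩) (fun x => t ⟨x.1, hXA x.2⟩) *
      T (fun x => s ⟨x.1, (Finset.mem_sdiff.mp x.2).1⟩)
        (fun x => t ⟨x.1, (Finset.mem_sdiff.mp x.2).1⟩) := by
  rw [b6d_prod, Matrix.reindex_apply, Matrix.submatrix_apply, kroneckerMap_apply]
  rfl

theorem b6d_prod_mul (X A : Finset V) (hXA : X ⊆ A) (B B' : Op {x // x ∈ X} q)
    (T T' : Op {x // x ∈ A \ X} q) :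
    b6d_prod X A hXA B T * b6d_prod X A hXA B' T' = b6d_prod X A hXA (B * B') (T * T') := by
  rw [b6d_prod, b6d_prod, b6d_prod, ← reindex_mul', ← mul_kronecker_mul]

theorem b6d_prod_isPr (X A : Finset V) (hXA : X ⊆ A) {B : Op {x // x ∈ X} q}
    {T : Op {x // x ∈ A \ X} q} (hB : IsPr B) (hT : IsPr T) : IsPr (b6d_prod X A hXA B T) := by
  refine ⟨?_, ?_⟩
  · rw [b6d_prod_mul, hB.1, hT.1]
  · rw [b6d_prod, Matrix.conjTranspose_reindex, conjTranspose_kronecker, hB.2, hT.2]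

theorem b6d_prod_trace (X A : Finset V) (hXA : X ⊆ A) (B : Op {x // x ∈ X} q)
    (T : Op {x // x ∈ A \ X} q) : (b6d_prod X A hXA B T).trace = B.trace * T.trace := by
  rw [← Matrix.trace_kronecker, b6d_prod]
  simp only [Matrix.trace, Matrix.diag_apply, Matrix.reindex_apply, Matrix.submatrix_apply,
    Equiv.symm_symm]
  exact Equiv.sum_comp (b6d_split X A hXA q) (fun z => (B ⊗ₖ T) z z)

/-- the product operator is the product of the two local operators -/
theorem b6d_prod_opOn (X A : Finset V) (hXA : X ⊆ A) (B : Op {x // x ∈ X} q)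
    (T : Op {x // x ∈ A \ X} q) :
    opOn A (b6d_prod X A hXA B T) = opOn X B * opOn (A \ X) T := by
  classical
  ext s t
  rw [Matrix.mul_apply]
  simp only [opOn_apply, b6d_prod_apply]
  let r1 : Conf V q := fun x => if x ∈ X then t x else s x
  have hL : ∀ r : Conf V q, r ≠ r1 →
      B (fun x => s x) (fun x => r x) * (if (∀ x, x ∉ X → s x = r x) then 1 else 0) *
      (T (fun x => r x) (fun x => t x) * (if (∀ x, x ∉ A \ X → r x = t x) then 1 else 0)) = 0 := by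
    intro r hr
    by_cases h1 : ∀ x, x ∉ X → s x = r x
    · by_cases h2 : ∀ x, x ∉ A \ X → r x = t x
      · exfalso
        apply hr
        funext x
        simp only [r1]
        by_cases hx : x ∈ X
        · rw [if_pos hx]
          exact h2 x (fun h => (Finset.mem_sdiff.mp h).2 hx)
        · rw [if_neg hx]
          exact (h1 x hx).symm
      · rw [if_neg h2, mul_zero, mul_zero]
    · rw [if_neg h1, mul_zero, zero_mul]
  rw [Finset.sum_eq_single r1 (fun r _ hr => hL r hr) (fun h => absurd (Finset.mem_univ _) h)]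
  have e1 : (fun x : {x // x ∈ X} => r1 x) = fun x : {x // x ∈ X} => t x := by
    funext x
    simp only [r1, if_pos x.2]
  have e2 : (fun x : {x // x ∈ A \ X} => r1 x) = fun x : {x // x ∈ A \ X} => s x := by
    funext x
    simp only [r1, if_neg (Finset.mem_sdiff.mp x.2).2]
  have c1 : ∀ x, x ∉ X → s x = r1 x := fun x hx => by simp only [r1, if_neg hx]
  have c2 : (∀ x, x ∉ A → s x = t x) ↔ (∀ x, x ∉ A \ X → r1 x = t x) := by
    constructor
    · intro h x hx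
      simp only [r1]
      by_cases hX : x ∈ X
      · rw [if_pos hX]
      · rw [if_neg hX]
        exact h x (fun hA => hx (Finset.mem_sdiff.mpr ⟨hA, hX⟩))
    · intro h x hx
      have := h x (fun h' => hx (Finset.mem_sdiff.mp h').1)
      simp only [r1, if_neg (fun h' => hx (hXA h'))] at this
      exact this
  rw [e1, e2, if_pos c1]
  by_cases hc : ∀ x, x ∉ A → s x = t x
  · rw [if_pos hc, if_pos (c2.mp hc)]
    ring
  · rw [if_neg hc, if_neg (fun h => hc (c2.mpr h))]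
    ring

/-- spectral projection of the reduced state of `X` on the eigenvector `i` -/
noncomputable def b6d_ev (X : Finset V) (Ω : Conf V q → ℂ) (i : Conf {x // x ∈ X} q) :
    Op {x // x ∈ X} q :=
  fOp (Ω ∘ (cut X q).symm) (fun j => if j = i then 1 else 0)

theorem b6d_ev_isPr (X : Finset V) (Ω : Conf V q → ℂ) (i : Conf {x // x ∈ X} q) :
    IsPr (b6d_ev X Ω i) := by
  refine ⟨?_, fOp_conjTranspose _ _⟩
  rw [b6d_ev, fOp_mul]
  congr 1
  funext j
  by_cases h : j = i <;> simp [h]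

theorem b6d_ev_trace (X : Finset V) (Ω : Conf V q → ℂ) (i : Conf {x // x ∈ X} q) :
    (b6d_ev X Ω i).trace = 1 := by
  rw [b6d_ev, trace_fOp]
  simp

theorem b6d_ev_nsq (X : Finset V) (Ω : Conf V q → ℂ) (i : Conf {x // x ∈ X} q) :
    nsq (opOn X (b6d_ev X Ω i) *ᵥ Ω) = eigp (Ω ∘ (cut X q).symm) i := by
  rw [b6d_nsq_proj (b6d_isPr_opOn X (b6d_ev_isPr X Ω i)), expect_opOn, rdm_eq, b6d_ev,
    trace_redA_fOp, Complex.ofReal_re]
  simp

theorem b6d_fOp_sum {α β : Type*} [Fintype α] [Fintype β] [DecidableEq α] [DecidableEq β]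
    (x : α × β → ℂ) : ∑ i, fOp x (fun j => if j = i then 1 else 0) = 1 := by
  rw [← fOp_one x]
  simp only [fOp]
  rw [← Finset.sum_mul, ← Finset.mul_sum]
  congr 2
  ext a b
  rw [Matrix.sum_apply]
  by_cases h : a = b
  · subst h
    simp only [Matrix.diagonal_apply, if_true]
    rw [Finset.sum_eq_single a]
    · simp
    · intro b _ hb
      simp [Ne.symm hb]
    · intro h
      exact absurd (Finset.mem_univ _) h
  · simp [Matrix.diagonal_apply, h]

theorem b6d_sum_ev (X : Finset V) (Ω : Conf V q → ℂ) :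
    ∑ i, opOn X (b6d_ev X Ω i) = 1 := by
  rw [← opOn_one X, ← b6d_fOp_sum (Ω ∘ (cut X q).symm)]
  simp only [opOn, b6d_ev]
  exact (opL_sum _ _ _).symm

/-- total weight of the measured pieces -/
theorem b6d_sum_nsq (X : Finset V) (Ω χ : Conf V q → ℂ) :
    ∑ i, nsq (opOn X (b6d_ev X Ω i) *ᵥ χ) = nsq χ := by
  have h1 : ∀ i, nsq (opOn X (b6d_ev X Ω i) *ᵥ χ) =
      (star χ ⬝ᵥ (opOn X (b6d_ev X Ω i) *ᵥ χ)).re := fun i =>
    b6d_nsq_proj (b6d_isPr_opOn X (b6d_ev_isPr X Ω i)) χ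
  rw [Finset.sum_congr rfl fun i _ => h1 i, ← Complex.re_sum, ← dotProduct_sum,
    ← Matrix.sum_mulVec, b6d_sum_ev, Matrix.one_mulVec, b6d_nsq_re]

/-- BLOCK 6D. The measured state. -/
theorem measured (X : Finset V) (n : ℕ) (A : ℕ → Finset V) (hXA : ∀ k < n, X ⊆ A k)
    (Ω : Conf V q → ℂ) (hΩ : nsq Ω = 1) (K u : ℝ) (hu : 0 < u) (hK : 0 ≤ K)
    (hX : TailLe (rdm X Ω) K) (hAX : ∀ k < n, TailLe (rdm (A k \ X) Ω) K)
    (hu2 : 6 * Real.exp (-(u / (4 + 2 * Real.sqrt K))) ≤ 1 / (16 * ((n : ℝ) + 1) ^ 3)) :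
    ∃ Bm : Op {x // x ∈ X} q, Contr Bm ∧
      Real.exp (-(entropyOf X Ω + u)) ≤ nsq (opOn X Bm *ᵥ Ω) ∧
      ∃ Pr : ∀ k, Op {x // x ∈ (A k)ᶜ} q, ∀ k < n, IsPr (Pr k) ∧
        (Pr k).trace.re ≤ Real.exp (entropyOf (A k \ X) Ω + u) ∧
        nsq ((1 - opOn (A k)ᶜ (Pr k)) *ᵥ (opOn X Bm *ᵥ Ω)) ≤
          1 / (2 * ((n : ℝ) + 1)) ^ 2 * nsq (opOn X Bm *ᵥ Ω) := by
  classical
  have hn : (0 : ℝ) ≤ n := Nat.cast_nonneg n
  -- typical projections
  have hT : ∀ k : ℕ, ∃ T : Op {x // x ∈ A k \ X} q, k < n → IsPr T ∧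
      T.trace.re ≤ Real.exp (entropyOf (A k \ X) Ω + u) ∧
      nsq ((1 - opOn (A k \ X) T) *ᵥ Ω) ≤ 6 * Real.exp (-(u / (4 + 2 * Real.sqrt K))) := by
    intro k
    by_cases hk : k < n
    · obtain ⟨T, h1, h2, h3, -⟩ := typical (A k \ X) Ω hΩ K (hAX k hk) u hu
      exact ⟨T, fun _ => ⟨h1, h2, h3⟩⟩
    · exact ⟨1, fun h => absurd h hk⟩
  choose T hT using hT
  set δ : ℝ := 6 * Real.exp (-(u / (4 + 2 * Real.sqrt K))) with hδ
  have hδ0 : 0 ≤ δ := by positivity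
  -- commutation
  have hcomm : ∀ k i, opOn X (b6d_ev X Ω i) * (1 - opOn (A k \ X) (T k)) =
      (1 - opOn (A k \ X) (T k)) * opOn X (b6d_ev X Ω i) := by
    intro k i
    rw [Matrix.mul_sub, Matrix.sub_mul, Matrix.mul_one, Matrix.one_mul,
      opOn_comm X (A k \ X) Finset.disjoint_sdiff]
  -- total weight of the errors
  have herr : ∀ k < n, ∑ i, nsq ((1 - opOn (A k \ X) (T k)) *ᵥ (opOn X (b6d_ev X Ω i) *ᵥ Ω)) ≤
      δ := by
    intro k hk
    have h1 : ∀ i, (1 - opOn (A k \ X) (T k)) *ᵥ (opOn X (b6d_ev X Ω i) *ᵥ Ω) =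
        opOn X (b6d_ev X Ω i) *ᵥ ((1 - opOn (A k \ X) (T k)) *ᵥ Ω) := by
      intro i
      rw [mulVec_mulVec, mulVec_mulVec, hcomm]
    rw [Finset.sum_congr rfl fun i _ => by rw [h1 i], b6d_sum_nsq]
    exact (hT k hk).2.2
  -- the weight of small eigenvalues
  have htail : ∑ i, (if eigp (Ω ∘ (cut X q).symm) i < Real.exp (-(entropyOf X Ω + u)) then
      eigp (Ω ∘ (cut X q).symm) i else 0) ≤ δ := by
    refine le_trans (Finset.sum_le_sum fun i _ => ?_) (hX u)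
    have he : eig (rdm X Ω) i = eigp (Ω ∘ (cut X q).symm) i := by
      rw [rdm_eq, eig, dif_pos (redA_isHermitian _)]
      rfl
    have hp := eigp_nonneg (Ω ∘ (cut X q).symm) i
    rw [he]
    split_ifs with h1 h2 h2
    · exact le_refl _
    · -- must be zero
      rcases hp.lt_or_eq with h | h
      · exfalso
        apply h2
        rw [dev, he]
        have h3 : Real.log (eigp (Ω ∘ (cut X q).symm) i) < -(entropyOf X Ω + u) := by
          rw [← Real.log_exp (-(entropyOf X Ω + u))]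
          exact Real.log_lt_log h h1
        have h4 : entropyOf X Ω = vnEntropy (rdm X Ω) := rfl
        rw [h4] at h3
        refine le_trans ?_ (le_abs_self _)
        linarith
      · rw [← h]
    · exact hp
    · exact le_refl _
  -- choice of the outcome
  have hex : ∃ i, Real.exp (-(entropyOf X Ω + u)) ≤ eigp (Ω ∘ (cut X q).symm) i ∧
      ∀ k < n, nsq ((1 - opOn (A k \ X) (T k)) *ᵥ (opOn X (b6d_ev X Ω i) *ᵥ Ω)) ≤
        1 / (2 * ((n : ℝ) + 1)) ^ 2 * eigp (Ω ∘ (cut X q).symm) i := by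
    by_contra hcon
    push Not at hcon
    have hsum : ∑ i, eigp (Ω ∘ (cut X q).symm) i = 1 := by
      apply eigp_sum
      have := nsq_comp (cut X q) Ω
      unfold nsq at this hΩ
      rw [this, hΩ]
    have hle : ∀ i, eigp (Ω ∘ (cut X q).symm) i ≤
        (if eigp (Ω ∘ (cut X q).symm) i < Real.exp (-(entropyOf X Ω + u)) then
          eigp (Ω ∘ (cut X q).symm) i else 0) +
        (2 * ((n : ℝ) + 1)) ^ 2 * ∑ k ∈ range n,
          nsq ((1 - opOn (A k \ X) (T k)) *ᵥ (opOn X (b6d_ev X Ω i) *ᵥ Ω)) := by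
      intro i
      have hnn : ∀ k ∈ range n,
          0 ≤ nsq ((1 - opOn (A k \ X) (T k)) *ᵥ (opOn X (b6d_ev X Ω i) *ᵥ Ω)) := fun k _ =>
        b6d_nsq_nonneg _
      by_cases h : eigp (Ω ∘ (cut X q).symm) i < Real.exp (-(entropyOf X Ω + u))
      · rw [if_pos h]
        have : 0 ≤ (2 * ((n : ℝ) + 1)) ^ 2 * ∑ k ∈ range n,
          nsq ((1 - opOn (A k \ X) (T k)) *ᵥ (opOn X (b6d_ev X Ω i) *ᵥ Ω)) :=
          mul_nonneg (by positivity) (Finset.sum_nonneg hnn)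
        linarith
      · rw [if_neg h, zero_add]
        obtain ⟨k, hk, hk2⟩ := hcon i (not_lt.mp h)
        have h5 := Finset.single_le_sum hnn (Finset.mem_range.mpr hk)
        have h6 : 0 < (2 * ((n : ℝ) + 1)) ^ 2 := by positivity
        have h7 : eigp (Ω ∘ (cut X q).symm) i = (2 * ((n : ℝ) + 1)) ^ 2 *
            (1 / (2 * ((n : ℝ) + 1)) ^ 2 * eigp (Ω ∘ (cut X q).symm) i) := by
          field_simp
        rw [h7]
        exact mul_le_mul_of_nonneg_left (le_trans hk2.le h5) h6.le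
    have h8 : (1 : ℝ) ≤ δ + (2 * ((n : ℝ) + 1)) ^ 2 * (n * δ) := by
      have s1 := Finset.sum_le_sum fun i (_ : i ∈ (Finset.univ : Finset (Conf {x // x ∈ X} q))) =>
        hle i
      have s2 : ∑ i, ((if eigp (Ω ∘ (cut X q).symm) i < Real.exp (-(entropyOf X Ω + u)) then
          eigp (Ω ∘ (cut X q).symm) i else 0) +
          (2 * ((n : ℝ) + 1)) ^ 2 * ∑ k ∈ range n,
          nsq ((1 - opOn (A k \ X) (T k)) *ᵥ (opOn X (b6d_ev X Ω i) *ᵥ Ω))) =
          ∑ i, (if eigp (Ω ∘ (cut X q).symm) i < Real.exp (-(entropyOf X Ω + u)) then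
          eigp (Ω ∘ (cut X q).symm) i else 0) +
          (2 * ((n : ℝ) + 1)) ^ 2 * ∑ k ∈ range n, ∑ i,
          nsq ((1 - opOn (A k \ X) (T k)) *ᵥ (opOn X (b6d_ev X Ω i) *ᵥ Ω)) := by
        rw [Finset.sum_add_distrib, ← Finset.mul_sum, Finset.sum_comm]
      have h12 := Finset.sum_le_sum fun k (hk : k ∈ range n) => herr k (Finset.mem_range.mp hk)
      rw [Finset.sum_const, Finset.card_range, nsmul_eq_mul] at h12
      have h13 : (0 : ℝ) ≤ (2 * ((n : ℝ) + 1)) ^ 2 := by positivity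
      have h14 := mul_le_mul_of_nonneg_left h12 h13
      rw [hsum, s2] at s1
      linarith
    have h9 : δ + (2 * ((n : ℝ) + 1)) ^ 2 * (n * δ) ≤ 5 / 16 := by
      have h10 : δ + (2 * ((n : ℝ) + 1)) ^ 2 * (n * δ) ≤ 5 * ((n : ℝ) + 1) ^ 3 * δ := by
        have h11 : 1 + (2 * ((n : ℝ) + 1)) ^ 2 * n ≤ 5 * ((n : ℝ) + 1) ^ 3 := by
          nlinarith [sq_nonneg (n : ℝ), mul_nonneg hn hn, mul_nonneg (mul_nonneg hn hn) hn]
        calc δ + (2 * ((n : ℝ) + 1)) ^ 2 * (n * δ) = (1 + (2 * ((n : ℝ) + 1)) ^ 2 * n) * δ := by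
              ring
          _ ≤ _ := mul_le_mul_of_nonneg_right h11 hδ0
      refine le_trans h10 ?_
      calc 5 * ((n : ℝ) + 1) ^ 3 * δ ≤ 5 * ((n : ℝ) + 1) ^ 3 * (1 / (16 * ((n : ℝ) + 1) ^ 3)) :=
            mul_le_mul_of_nonneg_left hu2 (by positivity)
        _ = 5 / 16 := by
            field_simp
    linarith
  obtain ⟨i, hi1, hi2⟩ := hex
  refine ⟨b6d_ev X Ω i, b6d_contr (b6d_ev_isPr X Ω i), ?_, ?_⟩
  · rw [b6d_ev_nsq]
    exact hi1
  · -- the projections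
    have hPr : ∀ k : ℕ, ∃ Pr : Op {x // x ∈ (A k)ᶜ} q, k < n → IsPr Pr ∧
        Pr.trace.re ≤ Real.exp (entropyOf (A k \ X) Ω + u) ∧
        nsq ((1 - opOn (A k)ᶜ Pr) *ᵥ (opOn X (b6d_ev X Ω i) *ᵥ Ω)) ≤
          1 / (2 * ((n : ℝ) + 1)) ^ 2 * nsq (opOn X (b6d_ev X Ω i) *ᵥ Ω) := by
      intro k
      by_cases hk : k < n
      · have hTk := hT k hk
        have hBi := b6d_ev_isPr X Ω i
        set Q := b6d_prod X (A k) (hXA k hk) (b6d_ev X Ω i) (T k) with hQdef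
        have hQ : IsPr Q := b6d_prod_isPr X (A k) (hXA k hk) hBi hTk.1
        have hQop : opOn (A k) Q = opOn X (b6d_ev X Ω i) * opOn (A k \ X) (T k) :=
          b6d_prod_opOn X (A k) (hXA k hk) _ _
        have hQtr : Q.trace = (T k).trace := by
          rw [hQdef, b6d_prod_trace, b6d_ev_trace, one_mul]
        set φ := opOn (A k) Q *ᵥ Ω with hφ
        have hφ1 : opOn (A k) Q *ᵥ φ = φ := by
          rw [hφ, mulVec_mulVec, ← opOn_mul, hQ.1]
        obtain ⟨Pr, hPr1, hPr2, hPr3⟩ := rank_transfer (A k) Q hQ φ hφ1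
        refine ⟨Pr, fun _ => ⟨hPr1, ?_, ?_⟩⟩
        · rw [hQtr] at hPr2
          exact le_trans hPr2 hTk.2.1
        · rw [b6d_ev_nsq]
          refine le_trans ?_ (hi2 k hk)
          -- the difference vector
          have hPr' : IsPr (1 - opOn (A k)ᶜ Pr) :=
            b6d_isPr_compl (b6d_isPr_opOn (A k)ᶜ hPr1)
          have hz : (1 - opOn (A k)ᶜ Pr) *ᵥ φ = 0 := by
            rw [Matrix.sub_mulVec, Matrix.one_mulVec, hPr3, sub_self]
          have hφ2 : φ = opOn (A k \ X) (T k) *ᵥ (opOn X (b6d_ev X Ω i) *ᵥ Ω) := by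
            rw [hφ, hQop, mulVec_mulVec, opOn_comm X (A k \ X) Finset.disjoint_sdiff]
          have hd : (1 - opOn (A k)ᶜ Pr) *ᵥ (opOn X (b6d_ev X Ω i) *ᵥ Ω) =
              (1 - opOn (A k)ᶜ Pr) *ᵥ
                ((1 - opOn (A k \ X) (T k)) *ᵥ (opOn X (b6d_ev X Ω i) *ᵥ Ω)) := by
            rw [Matrix.sub_mulVec (1 : Op V q) (opOn (A k \ X) (T k)), Matrix.one_mulVec,
              ← hφ2, Matrix.mulVec_sub, hz, sub_zero]
          rw [hd]
          exact b6d_nsq_proj_le hPr' _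
      · exact ⟨1, fun h => absurd h hk⟩
    choose Pr hPr using hPr
    exact ⟨Pr, hPr⟩

end regions

end Vale.Agent.P356.SV
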