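import Vale.Agent.P356.SV.Meas

set_option linter.all false

/-!
Upper bound for the weight of small projections outside of a region.
-/

namespace Vale.Agent.P356.SV

open Matrix Finset Vale.Agent.P356 Vale.Agent.P356.Path
open scoped BigOperators ComplexOrder Kronecker

section
variable {n : Type*} [Fintype n]

theorem b6c_nr_eq (ψ : n → ℂ) :
    Real.sqrt (nsq ψ) = ‖(WithLp.toLp 2 ψ : EuclideanSpace ℂ n)‖ := by
  rw [EuclideanSpace.norm_eq]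
  rfl

theorem b6c_add (ψ φ : n → ℂ) :
    Real.sqrt (nsq (ψ + φ)) ≤ Real.sqrt (nsq ψ) + Real.sqrt (nsq φ) := by
  rw [b6c_nr_eq, b6c_nr_eq, b6c_nr_eq, WithLp.toLp_add]
  exact norm_add_le _ _

end

section regions
variable {V : Type*} [Fintype V] [DecidableEq V] {q : ℕ}

theorem b6c_opOn_sum {ι : Type*} (A : Finset V) (s : Finset ι) (Y : ι → Op {x // x ∈ A} q) :
    opOn A (∑ i ∈ s, Y i) = ∑ i ∈ s, opOn A (Y i) := opL_sum _ _ _

/-- entries of a sum of elementary products -/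
theorem b6c_sum_apply (X A : Finset V) (hXA : X ⊆ A)
    (M : Conf {x // x ∈ X} q → Conf {x // x ∈ X} q → Op {x // x ∈ A \ X} q)
    (s t : Conf {x // x ∈ A} q) :
    (∑ a, ∑ b, b6d_prod X A hXA (Matrix.single a b (1 : ℂ)) (M a b)) s t =
      M (b6d_split X A hXA q s).1 (b6d_split X A hXA q t).1
        (b6d_split X A hXA q s).2 (b6d_split X A hXA q t).2 := by
  classical
  rw [Matrix.sum_apply]
  simp only [Matrix.sum_apply]
  rw [Finset.sum_eq_single (b6d_split X A hXA q s).1]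
  · rw [Finset.sum_eq_single (b6d_split X A hXA q t).1]
    · rw [b6d_prod_apply]
      have h : Matrix.single (b6d_split X A hXA q s).1 (b6d_split X A hXA q t).1 (1 : ℂ)
          (fun x => s ⟨x.1, hXA x.2⟩) (fun x => t ⟨x.1, hXA x.2⟩) = 1 :=
        Matrix.single_apply_same _ _ _
      rw [h, one_mul]
      rfl
    · intro b _ hb
      rw [b6d_prod_apply]
      have h : Matrix.single (b6d_split X A hXA q s).1 b (1 : ℂ)
          (fun x => s ⟨x.1, hXA x.2⟩) (fun x => t ⟨x.1, hXA x.2⟩) = 0 := by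
        rw [Matrix.single_apply, if_neg]
        rintro ⟨-, h2⟩
        exact hb h2
      rw [h, zero_mul]
    · intro h
      exact absurd (Finset.mem_univ _) h
  · intro a _ ha
    refine Finset.sum_eq_zero fun b _ => ?_
    rw [b6d_prod_apply]
    have h : Matrix.single a b (1 : ℂ)
        (fun x => s ⟨x.1, hXA x.2⟩) (fun x => t ⟨x.1, hXA x.2⟩) = 0 := by
      rw [Matrix.single_apply, if_neg]
      rintro ⟨h1, -⟩
      exact ha h1
    rw [h, zero_mul]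
  · intro h
    exact absurd (Finset.mem_univ _) h

/-- blocks of an operator on `A` along `X ⊆ A` -/
def b6c_blk (X A : Finset V) (hXA : X ⊆ A) (W : Op {x // x ∈ A} q)
    (a b : Conf {x // x ∈ X} q) : Op {x // x ∈ A \ X} q :=
  fun i j => W ((b6d_split X A hXA q).symm (a, i)) ((b6d_split X A hXA q).symm (b, j))

theorem b6c_decomp (X A : Finset V) (hXA : X ⊆ A) (W : Op {x // x ∈ A} q) :
    W = ∑ a, ∑ b, b6d_prod X A hXA (Matrix.single a b (1 : ℂ)) (b6c_blk X A hXA W a b) := by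
  ext s t
  rw [b6c_sum_apply]
  simp only [b6c_blk, Prod.mk.eta, Equiv.symm_apply_apply]

theorem b6c_opOn_decomp (X A : Finset V) (hXA : X ⊆ A)
    (M : Conf {x // x ∈ X} q → Conf {x // x ∈ X} q → Op {x // x ∈ A \ X} q) :
    opOn A (∑ a, ∑ b, b6d_prod X A hXA (Matrix.single a b (1 : ℂ)) (M a b)) =
      ∑ a, ∑ b, opOn X (Matrix.single a b (1 : ℂ)) * opOn (A \ X) (M a b) := by
  rw [b6c_opOn_sum]
  refine Finset.sum_congr rfl fun a _ => ?_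
  rw [b6c_opOn_sum]
  refine Finset.sum_congr rfl fun b _ => ?_
  rw [b6d_prod_opOn]

/-- Hilbert-Schmidt norm through the blocks -/
theorem b6c_hs (X A : Finset V) (hXA : X ⊆ A)
    (M : Conf {x // x ∈ X} q → Conf {x // x ∈ X} q → Op {x // x ∈ A \ X} q) :
    ∑ s, ∑ t, ‖(∑ a, ∑ b, b6d_prod X A hXA (Matrix.single a b (1 : ℂ)) (M a b)) s t‖ ^ 2 =
      ∑ a, ∑ b, ∑ i, ∑ j, ‖M a b i j‖ ^ 2 := by
  rw [sum_equiv_prod (b6d_split X A hXA q)]
  refine Finset.sum_congr rfl fun a _ => ?_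
  have h : ∀ i, ∑ t, ‖(∑ a, ∑ b, b6d_prod X A hXA (Matrix.single a b (1 : ℂ)) (M a b))
      ((b6d_split X A hXA q).symm (a, i)) t‖ ^ 2 = ∑ b, ∑ j, ‖M a b i j‖ ^ 2 := by
    intro i
    rw [sum_equiv_prod (b6d_split X A hXA q)]
    refine Finset.sum_congr rfl fun b _ => Finset.sum_congr rfl fun j _ => ?_
    rw [b6c_sum_apply, Equiv.apply_symm_apply, Equiv.apply_symm_apply]
  simp only [h]
  exact Finset.sum_comm

/-- Hilbert-Schmidt norm of a projection -/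
theorem b6c_hs_proj {n : Type*} [Fintype n] {P : Matrix n n ℂ} (hP : IsPr P) :
    ∑ i, ∑ j, ‖P i j‖ ^ 2 = P.trace.re := by
  have h1 : P.trace = (P * Pᴴ).trace := by rw [hP.2, hP.1]
  rw [h1, Matrix.trace, Complex.re_sum]
  refine Finset.sum_congr rfl fun i _ => ?_
  rw [Matrix.diag_apply, Matrix.mul_apply, Complex.re_sum]
  refine Finset.sum_congr rfl fun j _ => ?_
  rw [Matrix.conjTranspose_apply]
  have h2 : P i j * star (P i j) = ((‖P i j‖ ^ 2 : ℝ) : ℂ) := by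
    rw [mul_comm]
    have := Complex.conj_mul' (P i j)
    push_cast
    exact this
  rw [h2, Complex.ofReal_re]

/-- BLOCK 6C. Upper bound on the weight of small projections outside of `A`, for
`X ⊆ A ⊆ B`, from typicality of `B`, `B \ X`, `A \ X`. -/
theorem top_weight (X A B : Finset V) (hXA : X ⊆ A) (hAB : A ⊆ B) (Ω : Conf V q → ℂ)
    (hΩ : nsq Ω = 1) (K u : ℝ) (hu : 0 < u) (hK : 0 ≤ K)
    (hB : TailLe (rdm B Ω) K) (hBX : TailLe (rdm (B \ X) Ω) K) (hAX : TailLe (rdm (A \ X) Ω) K)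
    (hu2 : 6 * Real.exp (-(u / (4 + 2 * Real.sqrt K))) ≤ 1 / 256)
    (Q : Op {x // x ∈ Aᶜ} q) (hQ : IsPr Q)
    (htr : Q.trace.re ≤ 1 / 256 * Real.exp (entropyOf B Ω - entropyOf (B \ X) Ω +
      entropyOf (A \ X) Ω - 3 * u)) :
    nsq (opOn Aᶜ Q *ᵥ Ω) ≤ 1 / 16 := by
  classical
  have hXB : X ⊆ B := hXA.trans hAB
  have hDC : A \ X ⊆ B \ X := Finset.sdiff_subset_sdiff hAB (le_refl X)
  obtain ⟨TB, hB1, -, hB3, -, hB5, -⟩ := typical B Ω hΩ K hB u hu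
  obtain ⟨TC, hC1, -, hC3, -, -, hC6⟩ := typical (B \ X) Ω hΩ K hBX u hu
  obtain ⟨TD, hD1, -, hD3, -, hD5, -⟩ := typical (A \ X) Ω hΩ K hAX u hu
  -- the approximating vector
  set wB : Conf V q → ℂ := opOn B TB *ᵥ Ω with hwB
  set v : Conf V q → ℂ := opOn (A \ X) TD *ᵥ (opOn (B \ X) TC *ᵥ wB) with hv
  set φ : Conf V q → ℂ := opOn Aᶜ Q *ᵥ v with hφ
  have hQn : IsPr (opOn Aᶜ Q) := b6d_isPr_opOn _ hQ
  have hQφ : opOn Aᶜ Q *ᵥ φ = φ := by
    rw [hφ, mulVec_mulVec, hQn.1]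
  obtain ⟨P, hP1, hP2, hP3⟩ := rank_transfer' A Q hQ φ hQφ
  -- the operator on `B`
  set M : Conf {x // x ∈ X} q → Conf {x // x ∈ X} q → Op {x // x ∈ B \ X} q := fun a b =>
    b6d_prod (A \ X) (B \ X) hDC (b6c_blk X A hXA P a b * TD) 1 * TC with hM
  set Z : Op {x // x ∈ B} q :=
    ∑ a, ∑ b, b6d_prod X B hXB (Matrix.single a b (1 : ℂ)) (M a b) with hZ
  have hZop : opOn B Z = opOn A P * opOn (A \ X) TD * opOn (B \ X) TC := by
    rw [hZ, b6c_opOn_decomp]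
    conv_rhs => rw [b6c_decomp X A hXA P, b6c_opOn_decomp]
    rw [Finset.sum_mul, Finset.sum_mul]
    refine Finset.sum_congr rfl fun a _ => ?_
    rw [Finset.sum_mul, Finset.sum_mul]
    refine Finset.sum_congr rfl fun b _ => ?_
    rw [hM]
    simp only []
    rw [opOn_mul, b6d_prod_opOn, opOn_one, Matrix.mul_one, opOn_mul]
    simp only [Matrix.mul_assoc]
  -- bound of the Hilbert-Schmidt norm
  have hHS : ∑ s, ∑ t, ‖Z s t‖ ^ 2 ≤
      Real.exp (entropyOf (B \ X) Ω + u) * (Real.exp (-entropyOf (A \ X) Ω + u) * P.trace.re) := by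
    rw [hZ, b6c_hs, ← b6c_hs_proj hP1]
    conv_rhs => rw [b6c_decomp X A hXA P, b6c_hs]
    rw [Finset.mul_sum, Finset.mul_sum]
    refine Finset.sum_le_sum fun a _ => ?_
    rw [Finset.mul_sum, Finset.mul_sum]
    refine Finset.sum_le_sum fun b _ => ?_
    rw [hM]
    simp only []
    refine (hC6 _).trans ?_
    refine mul_le_mul_of_nonneg_left ?_ (Real.exp_pos _).le
    rw [b6d_prod_opOn, opOn_one, Matrix.mul_one, opOn_mul, ← mulVec_mulVec]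
    exact hD5 _
  -- bound of φ
  have hφle : nsq φ ≤ 1 / 256 := by
    have h1 : nsq φ ≤ nsq (opOn A P *ᵥ v) := by
      have hc := opOn_comm A Aᶜ disjoint_compl_right P Q
      have h2 : φ = opOn Aᶜ Q *ᵥ (opOn A P *ᵥ v) := by
        rw [mulVec_mulVec, ← hc, ← mulVec_mulVec, ← hφ, hP3]
      calc nsq φ = nsq (opOn Aᶜ Q *ᵥ (opOn A P *ᵥ v)) := by rw [← h2]
        _ ≤ _ := b6d_nsq_proj_le hQn _
    have h2 : opOn A P *ᵥ v = opOn B Z *ᵥ (opOn B TB *ᵥ Ω) := by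
      rw [hv, hZop, ← mulVec_mulVec, ← mulVec_mulVec]
    rw [h2] at h1
    have h3 := hB5 Z
    have htr0 : 0 ≤ P.trace.re := by
      rw [← b6c_hs_proj hP1]
      positivity
    have h4 : nsq φ ≤ Real.exp (-entropyOf B Ω + u) *
        (Real.exp (entropyOf (B \ X) Ω + u) *
          (Real.exp (-entropyOf (A \ X) Ω + u) * P.trace.re)) :=
      h1.trans (h3.trans (mul_le_mul_of_nonneg_left hHS (Real.exp_pos _).le))
    have h5 : Real.exp (-entropyOf B Ω + u) *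
        (Real.exp (entropyOf (B \ X) Ω + u) *
          (Real.exp (-entropyOf (A \ X) Ω + u) * P.trace.re)) ≤
        Real.exp (-entropyOf B Ω + u) *
        (Real.exp (entropyOf (B \ X) Ω + u) *
          (Real.exp (-entropyOf (A \ X) Ω + u) * (1 / 256 * Real.exp (entropyOf B Ω -
            entropyOf (B \ X) Ω + entropyOf (A \ X) Ω - 3 * u)))) := by
      have := hP2.trans htr
      gcongr
    refine h4.trans (h5.trans (le_of_eq ?_))
    have h6 : Real.exp (-entropyOf B Ω + u) *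
        (Real.exp (entropyOf (B \ X) Ω + u) *
          (Real.exp (-entropyOf (A \ X) Ω + u) * (1 / 256 * Real.exp (entropyOf B Ω -
            entropyOf (B \ X) Ω + entropyOf (A \ X) Ω - 3 * u)))) =
        1 / 256 * (Real.exp (-entropyOf B Ω + u) * Real.exp (entropyOf (B \ X) Ω + u) *
          Real.exp (-entropyOf (A \ X) Ω + u) * Real.exp (entropyOf B Ω -
            entropyOf (B \ X) Ω + entropyOf (A \ X) Ω - 3 * u)) := by ring
    rw [h6, ← Real.exp_add, ← Real.exp_add, ← Real.exp_add]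
    have h7 : -entropyOf B Ω + u + (entropyOf (B \ X) Ω + u) + (-entropyOf (A \ X) Ω + u) +
        (entropyOf B Ω - entropyOf (B \ X) Ω + entropyOf (A \ X) Ω - 3 * u) = 0 := by ring
    rw [h7, Real.exp_zero, mul_one]
  -- norms
  have s256 : Real.sqrt (1 / 256) = 1 / 16 := by
    rw [show (1 : ℝ) / 256 = (1 / 16) ^ 2 by norm_num]
    exact Real.sqrt_sq (by norm_num)
  have eB : Real.sqrt (nsq ((1 - opOn B TB) *ᵥ Ω)) ≤ 1 / 16 := by
    rw [← s256]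
    exact Real.sqrt_le_sqrt (hB3.trans hu2)
  have eC : Real.sqrt (nsq ((1 - opOn (B \ X) TC) *ᵥ Ω)) ≤ 1 / 16 := by
    rw [← s256]
    exact Real.sqrt_le_sqrt (hC3.trans hu2)
  have eD : Real.sqrt (nsq ((1 - opOn (A \ X) TD) *ᵥ Ω)) ≤ 1 / 16 := by
    rw [← s256]
    exact Real.sqrt_le_sqrt (hD3.trans hu2)
  have eφ : Real.sqrt (nsq φ) ≤ 1 / 16 := by
    rw [← s256]
    exact Real.sqrt_le_sqrt hφle
  have hc : ∀ {Y : Op V q} (hY : IsPr Y) (ψ : Conf V q → ℂ),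
      Real.sqrt (nsq (Y *ᵥ ψ)) ≤ Real.sqrt (nsq ψ) := fun hY ψ =>
    Real.sqrt_le_sqrt (b6d_nsq_proj_le hY ψ)
  have hCn : IsPr (opOn (B \ X) TC) := b6d_isPr_opOn _ hC1
  have hDn : IsPr (opOn (A \ X) TD) := b6d_isPr_opOn _ hD1
  have hdec : opOn Aᶜ Q *ᵥ Ω = φ + (opOn Aᶜ Q *ᵥ ((1 - opOn (A \ X) TD) *ᵥ Ω) +
      (opOn Aᶜ Q *ᵥ (opOn (A \ X) TD *ᵥ ((1 - opOn (B \ X) TC) *ᵥ Ω)) +
        opOn Aᶜ Q *ᵥ (opOn (A \ X) TD *ᵥ (opOn (B \ X) TC *ᵥ ((1 - opOn B TB) *ᵥ Ω))))) := by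
    rw [hφ, hv, hwB]
    simp only [Matrix.sub_mulVec, Matrix.one_mulVec, Matrix.mulVec_sub]
    abel
  have hfin : Real.sqrt (nsq (opOn Aᶜ Q *ᵥ Ω)) ≤ 1 / 4 := by
    rw [hdec]
    have t1 := b6c_add φ (opOn Aᶜ Q *ᵥ ((1 - opOn (A \ X) TD) *ᵥ Ω) +
      (opOn Aᶜ Q *ᵥ (opOn (A \ X) TD *ᵥ ((1 - opOn (B \ X) TC) *ᵥ Ω)) +
        opOn Aᶜ Q *ᵥ (opOn (A \ X) TD *ᵥ (opOn (B \ X) TC *ᵥ ((1 - opOn B TB) *ᵥ Ω)))))
    have t2 := b6c_add (opOn Aᶜ Q *ᵥ ((1 - opOn (A \ X) TD) *ᵥ Ω))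
      (opOn Aᶜ Q *ᵥ (opOn (A \ X) TD *ᵥ ((1 - opOn (B \ X) TC) *ᵥ Ω)) +
        opOn Aᶜ Q *ᵥ (opOn (A \ X) TD *ᵥ (opOn (B \ X) TC *ᵥ ((1 - opOn B TB) *ᵥ Ω))))
    have t3 := b6c_add (opOn Aᶜ Q *ᵥ (opOn (A \ X) TD *ᵥ ((1 - opOn (B \ X) TC) *ᵥ Ω)))
        (opOn Aᶜ Q *ᵥ (opOn (A \ X) TD *ᵥ (opOn (B \ X) TC *ᵥ ((1 - opOn B TB) *ᵥ Ω))))
    have u1 := hc hQn ((1 - opOn (A \ X) TD) *ᵥ Ω)
    have u2 := hc hQn (opOn (A \ X) TD *ᵥ ((1 - opOn (B \ X) TC) *ᵥ Ω))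
    have u3 := hc hDn ((1 - opOn (B \ X) TC) *ᵥ Ω)
    have u4 := hc hQn (opOn (A \ X) TD *ᵥ (opOn (B \ X) TC *ᵥ ((1 - opOn B TB) *ᵥ Ω)))
    have u5 := hc hDn (opOn (B \ X) TC *ᵥ ((1 - opOn B TB) *ᵥ Ω))
    have u6 := hc hCn ((1 - opOn B TB) *ᵥ Ω)
    linarith
  have hn0 : 0 ≤ nsq (opOn Aᶜ Q *ᵥ Ω) := b6d_nsq_nonneg _
  have h8 := Real.sq_sqrt hn0
  have h9 := Real.sqrt_nonneg (nsq (opOn Aᶜ Q *ᵥ Ω))
  nlinarith

end regions

end Vale.Agent.P356.SV
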