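import Vale.Agent.P356.SV.Lattice
import Vale.Agent.P356.SV.Top
import Vale.Agent.P356.SV.Meas
import Vale.Agent.P356.SV.Ent
import Mathlib.Analysis.PSeries

/-!
Contraction of the conditional entropy.
-/

set_option linter.all false

namespace Vale.Agent.P356.SV

open Matrix Finset Vale.Agent.P356 Vale.Agent.P356.Path
open scoped BigOperators ComplexOrder Kronecker

theorem b6e_mem_rect {L x0 x1 y0 y1 : ℕ} {p : Site L} :
    p ∈ rect L x0 x1 y0 y1 ↔ x0 ≤ p.1.val ∧ p.1.val < x1 ∧ y0 ≤ p.2.val ∧ p.2.val < y1 := by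
  simp [rect]

/-- boundary of a rectangle -/
theorem b6e_bdry_rect (L x0 x1 y0 y1 : ℕ) :
    bdry (rect L x0 x1 y0 y1) ≤ 2 * (x1 - x0) + 2 * (y1 - y0) := by
  classical
  set F : Finset (ℕ × ℕ) := (({0, 1} : Finset ℕ) ×ˢ Finset.Ico y0 y1) ∪
    (({2, 3} : Finset ℕ) ×ˢ Finset.Ico x0 x1) with hF
  have hcard : F.card ≤ 2 * (x1 - x0) + 2 * (y1 - y0) := by
    refine (Finset.card_union_le _ _).trans ?_
    rw [Finset.card_product, Finset.card_product, Nat.card_Ico, Nat.card_Ico]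
    simp
    omega
  refine le_trans ?_ hcard
  rw [bdry]
  set g : Site L × Site L → ℕ × ℕ := fun p =>
    if p.2.1.val = p.1.1.val + 1 then (0, p.1.2.val)
    else if p.1.1.val = p.2.1.val + 1 then (1, p.1.2.val)
    else if p.2.2.val = p.1.2.val + 1 then (2, p.1.1.val)
    else (3, p.1.1.val) with hg
  refine Finset.card_le_card_of_injOn g ?_ ?_
  · intro p hp
    rw [Finset.mem_coe, Finset.mem_filter] at hp
    obtain ⟨_, h1, h2, h3⟩ := hp
    rw [b6e_mem_rect] at h1 h2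
    rw [Finset.mem_coe, hF, Finset.mem_union, Finset.mem_product, Finset.mem_product,
      Finset.mem_Ico, Finset.mem_Ico]
    simp only [hg]
    split_ifs <;> simp <;> omega
  · intro p hp p' hp' hpp
    rw [Finset.mem_coe, Finset.mem_filter] at hp hp'
    obtain ⟨_, h1, h2, h3⟩ := hp
    obtain ⟨_, h1', h2', h3'⟩ := hp'
    rw [b6e_mem_rect] at h1 h2 h1' h2'
    rw [dist1] at h3 h3'
    obtain ⟨⟨a, b⟩, ⟨c, d⟩⟩ := p
    obtain ⟨⟨a', b'⟩, ⟨c', d'⟩⟩ := p'
    simp only [hg] at hpp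
    simp only at h1 h2 h3 h1' h2' h3'
    have key : a.val = a'.val ∧ b.val = b'.val ∧ c.val = c'.val ∧ d.val = d'.val := by
      split_ifs at hpp <;> simp only [Prod.mk.injEq] at hpp <;> omega
    obtain ⟨k1, k2, k3, k4⟩ := key
    rw [Fin.ext k1, Fin.ext k2, Fin.ext k3, Fin.ext k4]

theorem b6e_dist1_comm {L : ℕ} (x y : Site L) : dist1 x y = dist1 y x := dist1_comm x y

/-- boundary of a difference -/
theorem b6e_bdry_sdiff {L : ℕ} (B X : Finset (Site L)) :
    bdry (B \ X) ≤ bdry B + bdry X := by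
  classical
  rw [bdry, bdry, bdry]
  set FB := (Finset.univ : Finset (Site L × Site L)).filter
    (fun p => p.1 ∈ B ∧ p.2 ∉ B ∧ dist1 p.1 p.2 = 1) with hFB
  set FX := (Finset.univ : Finset (Site L × Site L)).filter
    (fun p => p.1 ∈ X ∧ p.2 ∉ X ∧ dist1 p.1 p.2 = 1) with hFX
  have hsub : (Finset.univ : Finset (Site L × Site L)).filter
      (fun p => p.1 ∈ B \ X ∧ p.2 ∉ B \ X ∧ dist1 p.1 p.2 = 1) ⊆ FB ∪ FX.image Prod.swap := by
    intro p hp
    rw [Finset.mem_filter] at hp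
    obtain ⟨_, h1, h2, h3⟩ := hp
    rw [Finset.mem_sdiff] at h1 h2
    rw [Finset.mem_union, Finset.mem_image]
    by_cases h4 : p.2 ∈ B
    · right
      have h5 : p.2 ∈ X := by
        by_contra h
        exact h2 ⟨h4, h⟩
      refine ⟨p.swap, ?_, Prod.swap_swap p⟩
      rw [hFX, Finset.mem_filter]
      refine ⟨Finset.mem_univ _, h5, h1.2, ?_⟩
      rw [← h3]
      exact dist1_comm _ _
    · left
      rw [hFB, Finset.mem_filter]
      exact ⟨Finset.mem_univ _, h1.1, h4, h3⟩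
  refine (Finset.card_le_card hsub).trans ((Finset.card_union_le _ _).trans ?_)
  exact Nat.add_le_add_left Finset.card_image_le _

/-- monotonicity of the tail bound -/
theorem b6e_tail_mono {ι : Type*} [Fintype ι] [DecidableEq ι] {ρ : Matrix ι ι ℂ} {K K' : ℝ}
    (hK : K ≤ K') (h : TailLe ρ K) : TailLe ρ K' := by
  intro u
  rcases le_total 0 u with hu | hu
  · refine (h u).trans ?_
    refine mul_le_mul_of_nonneg_left (Real.exp_le_exp.mpr ?_) (by norm_num)
    have h1 : 4 + 2 * Real.sqrt K ≤ 4 + 2 * Real.sqrt K' := by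
      have := Real.sqrt_le_sqrt hK
      linarith only [this]
    have h2 : 0 < 4 + 2 * Real.sqrt K := by positivity
    exact neg_le_neg (div_le_div_of_nonneg_left hu h2 h1)
  · have h0 := h 0
    rw [zero_div, neg_zero, Real.exp_zero, mul_one] at h0
    have h1 : ∀ i, (open Classical in (if u ≤ |dev ρ i| then eig ρ i else 0)) = eig ρ i := by
      intro i
      rw [if_pos (hu.trans (abs_nonneg _))]
    have h2 : ∀ i, (open Classical in (if (0 : ℝ) ≤ |dev ρ i| then eig ρ i else 0)) =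
        eig ρ i := by
      intro i
      rw [if_pos (abs_nonneg _)]
    simp only [h1]
    simp only [h2] at h0
    refine h0.trans ?_
    have h3 : 0 ≤ -(u / (4 + 2 * Real.sqrt K')) := by
      rw [← neg_div]
      exact div_nonneg (by linarith only [hu]) (by positivity)
    have h4 := Real.one_le_exp h3
    linarith only [h4]

/-- the harmonic sum over the concentric squares -/
theorem b6e_sum_lower (r : ℕ) (T : ℝ) : ∃ c : ℕ, ∀ l : ℕ, 1 ≤ l →
    T ≤ ∑ k ∈ Finset.range (c * l), 1 / ((l : ℝ) + 2 * r * k) := by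
  obtain ⟨c, hc⟩ := (Real.tendsto_sum_range_one_div_nat_succ_atTop.eventually_ge_atTop
    ((2 * r + 1) * T)).exists
  refine ⟨c, fun l hl => ?_⟩
  have hl0 : (0 : ℝ) < l := by exact_mod_cast hl
  have h1 : ∀ c : ℕ, (1 / (2 * (r : ℝ) + 1)) * ∑ i ∈ Finset.range c, (1 / ((i : ℝ) + 1)) ≤
      ∑ k ∈ Finset.range (c * l), 1 / ((l : ℝ) + 2 * r * k) := by
    intro c
    induction c with
    | zero => simp
    | succ c ih =>
      rw [Finset.sum_range_succ, mul_add, Nat.succ_mul, Finset.sum_range_add]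
      refine add_le_add ih ?_
      have h2 : ∀ k ∈ Finset.range l, (1 / (2 * (r : ℝ) + 1)) * (1 / ((c : ℝ) + 1)) * (1 / l) ≤
          1 / ((l : ℝ) + 2 * r * ((c * l + k : ℕ) : ℝ)) := by
        intro k hk
        have hkl : (k : ℝ) ≤ l := by exact_mod_cast (Finset.mem_range.mp hk).le
        have hr0 : (0 : ℝ) ≤ r := Nat.cast_nonneg r
        have hc0 : (0 : ℝ) ≤ c := Nat.cast_nonneg c
        rw [one_div_mul_one_div, one_div_mul_one_div]
        refine one_div_le_one_div_of_le (by positivity) ?_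
        push_cast
        nlinarith [mul_nonneg hr0 hc0, mul_nonneg hr0 hl0.le, mul_nonneg hc0 hl0.le,
          mul_nonneg hr0 (sub_nonneg.mpr hkl), mul_nonneg (mul_nonneg hr0 hc0) hl0.le]
      refine le_trans (le_of_eq ?_) (Finset.sum_le_sum h2)
      rw [Finset.sum_const, Finset.card_range, nsmul_eq_mul]
      field_simp
  refine le_trans ?_ (h1 c)
  rw [one_div, le_inv_mul_iff₀ (by positivity)]
  exact hc


/-- weights of the concentric cuts -/
noncomputable def b6e_theta (l r n : ℕ) (k : ℕ) : ℝ :=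
  (4 / 3) / (∑ j ∈ Finset.range n, 1 / ((l : ℝ) + 2 * r * j)) * (1 / ((l : ℝ) + 2 * r * k))

theorem b6e_theta_props (l r n : ℕ) (hl : 1 ≤ l) {D : ℝ} (hD : 0 ≤ D)
    (hs : 16 / 3 + 8 * D ≤ ∑ j ∈ Finset.range n, 1 / ((l : ℝ) + 2 * r * j)) :
    (∀ k, 0 < b6e_theta l r n k) ∧ (∀ k, b6e_theta l r n k ≤ 1 / 4) ∧
      ∑ k ∈ Finset.range n, b6e_theta l r n k = 4 / 3 ∧
      (∀ b : ℕ → ℝ, (∀ k < n, b k ≤ 4 * ((l : ℝ) + 2 * r * k)) →
        D * ∑ k ∈ Finset.range n, b6e_theta l r n k ^ 2 * b k ≤ 1) := by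
  set s := ∑ j ∈ Finset.range n, 1 / ((l : ℝ) + 2 * r * j) with hs_def
  have hl1 : (1 : ℝ) ≤ l := by exact_mod_cast hl
  have hden : ∀ k : ℕ, (1 : ℝ) ≤ (l : ℝ) + 2 * r * k := by
    intro k
    have : (0 : ℝ) ≤ 2 * r * k := by positivity
    linarith only [this, hl1]
  have hs0 : 0 < s := by linarith only [hs, hD]
  have hc1 : 4 / 3 / s ≤ 1 / 4 := by
    rw [div_le_iff₀ hs0]
    linarith only [hs, hD]
  have hth0 : ∀ k, 0 < b6e_theta l r n k := by
    intro k
    have := hden k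
    rw [b6e_theta, ← hs_def]
    have h1 : (0 : ℝ) < (l : ℝ) + 2 * r * k := by linarith only [this]
    positivity
  have hsum : ∑ k ∈ Finset.range n, b6e_theta l r n k = 4 / 3 := by
    simp only [b6e_theta]
    rw [← Finset.mul_sum, ← hs_def]
    field_simp
  refine ⟨hth0, ?_, hsum, ?_⟩
  · intro k
    have h1 := hden k
    rw [b6e_theta, ← hs_def]
    have h2 : 1 / ((l : ℝ) + 2 * r * k) ≤ 1 := by
      rw [div_le_one (by linarith only [h1])]
      exact h1
    have h3 : 0 < 4 / 3 / s := by positivity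
    calc 4 / 3 / s * (1 / ((l : ℝ) + 2 * r * k)) ≤ 4 / 3 / s * 1 :=
          mul_le_mul_of_nonneg_left h2 h3.le
      _ ≤ 1 / 4 := by rw [mul_one]; exact hc1
  · intro b hb
    have h1 : ∀ k ∈ Finset.range n, b6e_theta l r n k ^ 2 * b k ≤
        (16 / 3 / s) * b6e_theta l r n k := by
      intro k hk
      have h2 := hb k (Finset.mem_range.mp hk)
      have h3 := hden k
      have h4 : (0 : ℝ) < (l : ℝ) + 2 * r * k := by linarith only [h3]
      calc b6e_theta l r n k ^ 2 * b k ≤ b6e_theta l r n k ^ 2 * (4 * ((l : ℝ) + 2 * r * k)) :=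
            mul_le_mul_of_nonneg_left h2 (sq_nonneg _)
        _ = (16 / 3 / s) * b6e_theta l r n k := by
            rw [b6e_theta, ← hs_def]
            field_simp
            ring
    have h5 := Finset.sum_le_sum h1
    rw [← Finset.mul_sum, hsum] at h5
    have h6 := mul_le_mul_of_nonneg_left h5 hD
    refine h6.trans ?_
    have h7 : D * (16 / 3 / s * (4 / 3)) = (64 / 9 * D) / s := by
      field_simp
      ring
    rw [h7, div_le_one hs0]
    linarith only [hs, hD]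

theorem b6e_log_bound {P : ℝ} (hP : 1 ≤ P) : Real.log P ≤ 2 * Real.sqrt P := by
  have h1 : 0 < Real.sqrt P := Real.sqrt_pos.mpr (by linarith only [hP])
  have h2 := Real.log_le_sub_one_of_pos h1
  have h3 : Real.log P = 2 * Real.log (Real.sqrt P) := by
    rw [Real.log_sqrt (by linarith only [hP])]
    ring
  rw [h3]
  linarith only [h2]

/-- bound on the typicality window -/
theorem b6e_u_bound {κ P : ℝ} (hκ : 0 ≤ κ) {n : ℕ} (hn : (n : ℝ) + 1 ≤ P) :
    (4 + 2 * Real.sqrt (κ * P)) * Real.log (1536 * ((n : ℝ) + 1) ^ 3) ≤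
      (4 + 2 * Real.sqrt κ) * (Real.log 1536 + 6) * P := by
  have hn0 : (0 : ℝ) ≤ n := Nat.cast_nonneg n
  have hP1 : 1 ≤ P := by linarith only [hn, hn0]
  have hP0 : 0 ≤ P := by linarith only [hP1]
  have hs1 : 1 ≤ Real.sqrt P := by
    rw [Real.one_le_sqrt]
    exact hP1
  have h1 : Real.log (1536 * ((n : ℝ) + 1) ^ 3) ≤ Real.log 1536 + 6 * Real.sqrt P := by
    rw [Real.log_mul (by norm_num) (by positivity), Real.log_pow]
    have h2 : Real.log ((n : ℝ) + 1) ≤ Real.log P := Real.log_le_log (by positivity) hn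
    have h3 := b6e_log_bound hP1
    push_cast
    linarith only [h2, h3]
  have h2 : Real.log 1536 + 6 * Real.sqrt P ≤ (Real.log 1536 + 6) * Real.sqrt P := by
    have h3 : 0 ≤ Real.log 1536 := Real.log_nonneg (by norm_num)
    nlinarith only [h3, hs1]
  have h3 : 4 + 2 * Real.sqrt (κ * P) ≤ (4 + 2 * Real.sqrt κ) * Real.sqrt P := by
    rw [Real.sqrt_mul hκ]
    nlinarith only [hs1]
  have h4 : 0 ≤ Real.log (1536 * ((n : ℝ) + 1) ^ 3) := by
    refine Real.log_nonneg ?_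
    have : (1 : ℝ) ≤ ((n : ℝ) + 1) ^ 3 := one_le_pow₀ (by linarith only [hn0])
    linarith only [this]
  calc (4 + 2 * Real.sqrt (κ * P)) * Real.log (1536 * ((n : ℝ) + 1) ^ 3) ≤
      ((4 + 2 * Real.sqrt κ) * Real.sqrt P) * ((Real.log 1536 + 6) * Real.sqrt P) :=
        mul_le_mul h3 (h1.trans h2) h4 (by positivity)
    _ = (4 + 2 * Real.sqrt κ) * (Real.log 1536 + 6) * (Real.sqrt P * Real.sqrt P) := by ring
    _ = (4 + 2 * Real.sqrt κ) * (Real.log 1536 + 6) * P := by rw [Real.mul_self_sqrt hP0]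

theorem b6e_hd (n : ℕ) (a : ℕ → ℝ) (b : ℝ)
    (ha : ∀ k < n, a k ≤ 1 / (2 * ((n : ℝ) + 1)) ^ 2 * b) :
    ∑ k ∈ Finset.range n, Real.sqrt (a k) ≤ 1 / 2 * Real.sqrt b := by
  have h5 : ∀ k ∈ Finset.range n, Real.sqrt (a k) ≤ 1 / (2 * ((n : ℝ) + 1)) * Real.sqrt b := by
    intro k hk
    refine (Real.sqrt_le_sqrt (ha k (Finset.mem_range.mp hk))).trans (le_of_eq ?_)
    have h7 : 1 / (2 * ((n : ℝ) + 1)) ^ 2 = (1 / (2 * ((n : ℝ) + 1))) ^ 2 := by
      rw [one_div, one_div, inv_pow]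
    rw [h7, Real.sqrt_mul (by positivity), Real.sqrt_sq (by positivity)]
  refine (Finset.sum_le_sum h5).trans ?_
  rw [Finset.sum_const, Finset.card_range, nsmul_eq_mul, ← mul_assoc]
  refine mul_le_mul_of_nonneg_right ?_ (Real.sqrt_nonneg _)
  rw [mul_one_div, div_le_div_iff₀ (by positivity) (by norm_num)]
  linarith only []

/-- the contraction for a given system of cuts -/
theorem b6e_core {L q R : ℕ} {J Δ E : ℝ} (hJ : 0 < J) (hΔ : 0 < Δ) (hq : 1 ≤ q)
    {H : Op (Site L) q} {Ω : Conf (Site L) q → ℂ} (hA : Admissible L q R J H)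
    (hg : GappedGround H Δ E Ω) (n : ℕ) (I : ℕ → Finset (Site L)) (B : Finset (Site L))
    (hI : ∀ k x y, x ∈ I k → dist1 x y ≤ R → y ∈ I (k + 1))
    (hXI : ∀ k, I 0 ⊆ I k) (hIB : ∀ k, k < n → I k ⊆ B)
    (l r : ℕ) (hl : 1 ≤ l)
    (hs : 16 / 3 + 8 * (tiltC q R * (J / Δ)) ≤
      ∑ j ∈ Finset.range n, 1 / ((l : ℝ) + 2 * r * j))
    (hbI : ∀ k < n, (bdry (I k) : ℝ) ≤ 4 * ((l : ℝ) + 2 * r * k))
    (K u : ℝ) (hK0 : 0 ≤ K) (hu : 0 < u)
    (tX : TailLe (rdm (I 0) Ω) K) (tB : TailLe (rdm B Ω) K)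
    (tBX : TailLe (rdm (B \ I 0) Ω) K) (tIX : ∀ k < n, TailLe (rdm (I k \ I 0) Ω) K)
    (hu2a : 6 * Real.exp (-(u / (4 + 2 * Real.sqrt K))) ≤ 1 / 256)
    (hu2b : 6 * Real.exp (-(u / (4 + 2 * Real.sqrt K))) ≤ 1 / (16 * ((n : ℝ) + 1) ^ 3)) :
    entropyOf B Ω ≤ entropyOf (B \ I 0) Ω + 1 / 2 * entropyOf (I 0) Ω +
      (9 / 2 * u + (Real.log 256 + Real.log 2 + 4 / 3)) := by
  have hΩ : nsq Ω = 1 := hg.1
  have hD : 0 ≤ tiltC q R * (J / Δ) := by
    rw [tiltC]
    positivity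
  have hlog256 : 0 ≤ Real.log 256 := Real.log_nonneg (by norm_num)
  have hlog2 : 0 ≤ Real.log 2 := Real.log_nonneg (by norm_num)
  have hSX := entropy_nonneg (I 0) Ω hΩ
  set m := entropyOf B Ω - entropyOf (B \ I 0) Ω - 4 * u - Real.log 256 with hm
  have hgoal : m ≤ 1 / 2 * (entropyOf (I 0) Ω + u) + Real.log 2 + 4 / 3 →
      entropyOf B Ω ≤ entropyOf (B \ I 0) Ω + 1 / 2 * entropyOf (I 0) Ω +
      (9 / 2 * u + (Real.log 256 + Real.log 2 + 4 / 3)) := by
    intro h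
    rw [hm] at h
    linarith only [h]
  rcases le_total m 0 with hm0 | hm0
  · apply hgoal
    linarith only [hm0, hu, hSX, hlog2]
  apply hgoal
  obtain ⟨hth0, hth1, hthsum, hthN⟩ := b6e_theta_props l r n hl hD hs
  obtain ⟨Bm, hBm, hprob, Pr, hPr⟩ := measured (I 0) n I (fun k _ => hXI k) Ω hΩ K u hu hK0 tX
    tIX hu2b
  have hp0 : 0 < nsq (opOn (I 0) Bm *ᵥ Ω) := lt_of_lt_of_le (Real.exp_pos _) hprob
  have hmain := tilt_lattice hJ hΔ hq hA hg n I hI (b6e_theta l r n)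
    (fun k => 1 / 256 * Real.exp (entropyOf B Ω - entropyOf (B \ I 0) Ω +
    entropyOf (I k \ I 0) Ω - 3 * u)) m hm0 hth0 hth1
    (hthN (fun k => (bdry (I k) : ℝ)) hbI) (fun k => by positivity)
    (fun k hk Q hQ htr => top_weight (I 0) (I k) B (hXI k) (hIB k hk) Ω hΩ K u hu hK0 tB tBX
      (tIX k hk) hu2a Q hQ htr)
    Bm hBm hp0 Pr (fun k hk => (hPr k hk).1) ?_ ?_
  · rw [hthsum] at hmain
    have hlogp : -Real.log (nsq (opOn (I 0) Bm *ᵥ Ω)) ≤ entropyOf (I 0) Ω + u := by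
      have h5 := Real.log_le_log (Real.exp_pos _) hprob
      rw [Real.log_exp] at h5
      linarith only [h5]
    linarith only [hmain, hlogp]
  · intro k hk
    refine (hPr k hk).2.1.trans (le_of_eq ?_)
    have h6 : (1 : ℝ) / 256 = Real.exp (-Real.log 256) := by
      rw [Real.exp_neg, Real.exp_log (by norm_num), one_div]
    rw [h6, ← Real.exp_add, ← Real.exp_add, hm]
    congr 1
    ring
  · exact b6e_hd n _ _ (fun k hk => (hPr k hk).2.2)

/-- the window -/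
theorem b6e_window {K : ℝ} (n : ℕ) : ∃ u : ℝ,
    u = (4 + 2 * Real.sqrt K) * Real.log (1536 * ((n : ℝ) + 1) ^ 3) ∧ 0 < u ∧
    6 * Real.exp (-(u / (4 + 2 * Real.sqrt K))) ≤ 1 / 256 ∧
    6 * Real.exp (-(u / (4 + 2 * Real.sqrt K))) ≤ 1 / (16 * ((n : ℝ) + 1) ^ 3) := by
  have hn0 : (0 : ℝ) ≤ n := Nat.cast_nonneg n
  have hcube : (1 : ℝ) ≤ ((n : ℝ) + 1) ^ 3 := one_le_pow₀ (by linarith only [hn0])
  have harg : (1 : ℝ) < 1536 * ((n : ℝ) + 1) ^ 3 := by linarith only [hcube]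
  have hv0 : 0 < Real.log (1536 * ((n : ℝ) + 1) ^ 3) := Real.log_pos harg
  have hden : 0 < 4 + 2 * Real.sqrt K := by positivity
  have huv : (4 + 2 * Real.sqrt K) * Real.log (1536 * ((n : ℝ) + 1) ^ 3) /
      (4 + 2 * Real.sqrt K) = Real.log (1536 * ((n : ℝ) + 1) ^ 3) := by
    field_simp
  have hexp : 6 * Real.exp (-((4 + 2 * Real.sqrt K) * Real.log (1536 * ((n : ℝ) + 1) ^ 3) /
      (4 + 2 * Real.sqrt K))) = 1 / (256 * ((n : ℝ) + 1) ^ 3) := by
    rw [huv, Real.exp_neg, Real.exp_log (by linarith only [harg])]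
    field_simp
    norm_num
  refine ⟨_, rfl, by positivity, ?_, ?_⟩
  · rw [hexp]
    refine one_div_le_one_div_of_le (by norm_num) ?_
    linarith only [hcube]
  · rw [hexp]
    refine one_div_le_one_div_of_le (by positivity) ?_
    linarith only [hcube]

/-- the geometry of the concentric squares -/
theorem b6e_geom {L R c l x y x0 x1 y0 y1 : ℕ} (hl : 1 ≤ l)
    (h1 : x0 + ((R + 1) * c + 1) * l ≤ x) (h2 : x + l + ((R + 1) * c + 1) * l ≤ x1)
    (h3 : y0 + ((R + 1) * c + 1) * l ≤ y) (h4 : y + l + ((R + 1) * c + 1) * l ≤ y1) :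
    ∃ I : ℕ → Finset (Site L), I 0 = rect L x (x + l) y (y + l) ∧
      (∀ k u v, u ∈ I k → dist1 u v ≤ R → v ∈ I (k + 1)) ∧
      (∀ k, I 0 ⊆ I k) ∧ (∀ k, k < c * l → I k ⊆ rect L x0 x1 y0 y1) ∧
      (∀ k, k < c * l → bdry (I k) ≤ 4 * (l + 2 * ((R + 1) * k))) ∧
      (∀ k, k < c * l → bdry (I k) ≤ 2 * ((x1 - x0) + (y1 - y0))) ∧
      bdry (I 0) ≤ 2 * ((x1 - x0) + (y1 - y0)) ∧
      bdry (rect L x0 x1 y0 y1) ≤ 2 * ((x1 - x0) + (y1 - y0)) ∧
      x0 ≤ x1 ∧ y0 ≤ y1 ∧ c * l + 1 ≤ (x1 - x0) + (y1 - y0) := by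
  set r := R + 1 with hr
  have hρl : (r * c + 1) * l = r * (c * l) + l := by ring
  rw [hρl] at h1 h2 h3 h4
  have hnr : c * l ≤ r * (c * l) := Nat.le_mul_of_pos_left _ (by omega)
  have hrk : ∀ k, k < c * l → r * k ≤ r * (c * l) := fun k hk => Nat.mul_le_mul_left r hk.le
  generalize c * l = n at *
  refine ⟨fun k => rect L (x - r * k) (x + l + r * k) (y - r * k) (y + l + r * k), ?_, ?_, ?_,
    ?_, ?_, ?_, ?_, ?_, by omega, by omega, by omega⟩
  · simp only [Nat.mul_zero, Nat.sub_zero, Nat.add_zero]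
  · intro k u v hu hd
    simp only [b6e_mem_rect] at hu ⊢
    rw [dist1] at hd
    have hk1 : r * (k + 1) = r * k + R + 1 := by
      rw [hr]
      ring
    rw [hk1]
    omega
  · intro k u hu
    simp only [b6e_mem_rect, Nat.mul_zero] at hu ⊢
    omega
  · intro k hk u hu
    simp only [b6e_mem_rect] at hu ⊢
    have := hrk k hk
    omega
  · intro k hk
    refine (b6e_bdry_rect _ _ _ _ _).trans ?_
    have := hrk k hk
    omega
  · intro k hk
    refine (b6e_bdry_rect _ _ _ _ _).trans ?_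
    have := hrk k hk
    omega
  · refine (b6e_bdry_rect _ _ _ _ _).trans ?_
    rw [Nat.mul_zero]
    omega
  · refine (b6e_bdry_rect _ _ _ _ _).trans ?_
    omega

/-- Contraction of the conditional entropy. -/
theorem contraction (q R : ℕ) (hq : 1 ≤ q) (J Δ : ℝ) (hJ : 0 < J) (hΔ : 0 < Δ) :
    ∃ (ρ : ℕ) (C : ℝ), 1 ≤ ρ ∧ 0 ≤ C ∧ ∀ (L : ℕ) (H : Op (Site L) q), Admissible L q R J H →
      ∀ (E : ℝ) (Ω : Conf (Site L) q → ℂ), GappedGround H Δ E Ω →
      ∀ l x y x0 x1 y0 y1 : ℕ, 1 ≤ l →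
        x0 + ρ * l ≤ x → x + l + ρ * l ≤ x1 → y0 + ρ * l ≤ y → y + l + ρ * l ≤ y1 →
        x1 ≤ L → y1 ≤ L →
        entropyOf (rect L x0 x1 y0 y1) Ω ≤
          entropyOf (rect L x0 x1 y0 y1 \ rect L x (x + l) y (y + l)) Ω +
          1 / 2 * entropyOf (rect L x (x + l) y (y + l)) Ω +
          C * ((x1 : ℝ) - x0 + (y1 - y0)) := by
  set κ := spread_const q R * (J / Δ) * 4 with hκ_def
  have hsc : 0 ≤ spread_const q R * (J / Δ) := by
    rw [spread_const]
    positivity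
  have hκ : 0 ≤ κ := by
    rw [hκ_def]
    exact mul_nonneg hsc (by norm_num)
  obtain ⟨c, hc⟩ := b6e_sum_lower (R + 1) (16 / 3 + 8 * (tiltC q R * (J / Δ)))
  set C1 := (4 + 2 * Real.sqrt κ) * (Real.log 1536 + 6) with hC1
  have hC10 : 0 ≤ C1 := by
    have : 0 ≤ Real.log 1536 := Real.log_nonneg (by norm_num)
    positivity
  have hlog256 : 0 ≤ Real.log 256 := Real.log_nonneg (by norm_num)
  have hlog2 : 0 ≤ Real.log 2 := Real.log_nonneg (by norm_num)
  refine ⟨(R + 1) * c + 1, 9 / 2 * C1 + (Real.log 256 + Real.log 2 + 4 / 3), by omega,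
    by positivity, ?_⟩
  intro L H hA E Ω hg l x y x0 x1 y0 y1 hl h1 h2 h3 h4 hx1 hy1
  obtain ⟨I, hI0, hI, hXI, hIB, hbI, hbIP, hbX, hbB, hx01, hy01, hn1⟩ :=
    b6e_geom (L := L) hl h1 h2 h3 h4
  rw [← hI0]
  set B := rect L x0 x1 y0 y1 with hB
  have hPr : (((x1 - x0) + (y1 - y0) : ℕ) : ℝ) = (x1 : ℝ) - x0 + (y1 - y0) := by
    rw [Nat.cast_add, Nat.cast_sub hx01, Nat.cast_sub hy01]
  rw [← hPr]
  generalize (x1 - x0) + (y1 - y0) = Pn at *
  have hn1' : ((c * l : ℕ) : ℝ) + 1 ≤ Pn := by exact_mod_cast hn1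
  have htail : ∀ A : Finset (Site L), bdry A ≤ 4 * Pn → TailLe (rdm A Ω) (κ * Pn) := by
    intro A hAb
    refine b6e_tail_mono ?_ (spread_law hJ hΔ hq hA hg A).2.1
    have h5 : (bdry A : ℝ) ≤ 4 * Pn := by exact_mod_cast hAb
    rw [hκ_def]
    calc spread_const q R * (J / Δ) * (bdry A : ℝ) ≤
          spread_const q R * (J / Δ) * (4 * Pn) := mul_le_mul_of_nonneg_left h5 hsc
      _ = _ := by ring
  obtain ⟨u, hu_def, hu, hu2a, hu2b⟩ := b6e_window (K := κ * Pn) (c * l)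
  have hub : u ≤ C1 * Pn := by
    rw [hu_def]
    exact b6e_u_bound hκ hn1'
  have hP1 : (1 : ℝ) ≤ Pn := by
    have : (0 : ℝ) ≤ ((c * l : ℕ) : ℝ) := Nat.cast_nonneg _
    linarith only [hn1', this]
  have hcore := b6e_core hJ hΔ hq hA hg (c * l) I B hI hXI hIB l (R + 1) hl (hc l hl)
    (fun k hk => by
      have h6 : (bdry (I k) : ℝ) ≤ ((4 * (l + 2 * ((R + 1) * k)) : ℕ) : ℝ) := by
        exact_mod_cast hbI k hk
      refine h6.trans (le_of_eq ?_)
      push_cast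
      ring) (κ * Pn) u (by positivity) hu
    (htail (I 0) (hbX.trans (by omega))) (htail B (hbB.trans (by omega)))
    (htail (B \ I 0) ((b6e_bdry_sdiff _ _).trans (by omega)))
    (fun k hk => htail _ ((b6e_bdry_sdiff _ _).trans (by
      have h6 := hbIP k hk
      omega))) hu2a hu2b
  refine hcore.trans ?_
  have h5 : (Real.log 256 + Real.log 2 + 4 / 3) ≤
      (Real.log 256 + Real.log 2 + 4 / 3) * Pn := by
    have : 0 ≤ Real.log 256 + Real.log 2 + 4 / 3 := by positivity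
    nlinarith only [this, hP1]
  have h6 : 9 / 2 * u ≤ 9 / 2 * C1 * Pn := by linarith only [hub]
  rw [add_mul]
  linarith only [h5, h6]

end Vale.Agent.P356.SV
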