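import Vale.Agent.P356.SV.Base

set_option linter.all false

/-!
Algebra of the operators on the two factors of a splitting.
-/

namespace Vale.Agent.P356.SV

open Matrix Finset Vale.Agent.P356 Vale.Agent.P356.Path
open scoped BigOperators ComplexOrder Kronecker

section ops
variable {N α β : Type*} [Fintype N] [DecidableEq N] [Fintype α] [Fintype β] [DecidableEq α]
  [DecidableEq β]

theorem opL_apply (e : N ≃ α × β) (Y : Matrix α α ℂ) (s t : N) :
    opL e Y s t = Y (e s).1 (e t).1 * (if (e s).2 = (e t).2 then 1 else 0) := by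
  rw [opL, Matrix.reindex_apply, Matrix.submatrix_apply, kroneckerMap_apply, Matrix.one_apply]
  rfl

theorem opR_apply (e : N ≃ α × β) (S : Matrix β β ℂ) (s t : N) :
    opR e S s t = (if (e s).1 = (e t).1 then 1 else 0) * S (e s).2 (e t).2 := by
  rw [opR, Matrix.reindex_apply, Matrix.submatrix_apply, kroneckerMap_apply, Matrix.one_apply]
  rfl

theorem reindex_mul' {m : Type*} [Fintype m] (e : m ≃ N) (A B : Matrix m m ℂ) :
    Matrix.reindex e e (A * B) = Matrix.reindex e e A * Matrix.reindex e e B := by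
  simp only [Matrix.reindex_apply]
  exact (Matrix.submatrix_mul_equiv A B e.symm e.symm e.symm).symm

theorem opL_mul (e : N ≃ α × β) (A B : Matrix α α ℂ) :
    opL e (A * B) = opL e A * opL e B := by
  rw [opL, opL, opL, ← reindex_mul', ← mul_kronecker_mul, Matrix.one_mul]

theorem opR_mul (e : N ≃ α × β) (A B : Matrix β β ℂ) :
    opR e (A * B) = opR e A * opR e B := by
  rw [opR, opR, opR, ← reindex_mul', ← mul_kronecker_mul, Matrix.one_mul]

theorem opL_one (e : N ≃ α × β) : opL e (1 : Matrix α α ℂ) = 1 := by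
  rw [opL, one_kronecker_one, Matrix.reindex_apply, Matrix.submatrix_one_equiv]

theorem opR_one (e : N ≃ α × β) : opR e (1 : Matrix β β ℂ) = 1 := by
  rw [opR, one_kronecker_one, Matrix.reindex_apply, Matrix.submatrix_one_equiv]

theorem opL_conjTranspose (e : N ≃ α × β) (A : Matrix α α ℂ) : (opL e A)ᴴ = opL e Aᴴ := by
  rw [opL, opL, Matrix.conjTranspose_reindex, conjTranspose_kronecker, conjTranspose_one]

theorem opR_conjTranspose (e : N ≃ α × β) (A : Matrix β β ℂ) : (opR e A)ᴴ = opR e Aᴴ := by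
  rw [opR, opR, Matrix.conjTranspose_reindex, conjTranspose_kronecker, conjTranspose_one]

theorem opL_add (e : N ≃ α × β) (A B : Matrix α α ℂ) : opL e (A + B) = opL e A + opL e B := by
  ext s t
  simp only [opL_apply, Matrix.add_apply]
  ring

theorem opL_sub (e : N ≃ α × β) (A B : Matrix α α ℂ) : opL e (A - B) = opL e A - opL e B := by
  ext s t
  simp only [opL_apply, Matrix.sub_apply]
  ring

theorem opL_smul (e : N ≃ α × β) (c : ℂ) (A : Matrix α α ℂ) : opL e (c • A) = c • opL e A := by
  ext s t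
  simp only [opL_apply, Matrix.smul_apply, smul_eq_mul]
  ring

theorem opL_zero (e : N ≃ α × β) : opL e (0 : Matrix α α ℂ) = 0 := by
  ext s t
  simp only [opL_apply, Matrix.zero_apply, zero_mul]

theorem opR_add (e : N ≃ α × β) (A B : Matrix β β ℂ) : opR e (A + B) = opR e A + opR e B := by
  ext s t
  simp only [opR_apply, Matrix.add_apply]
  ring

theorem opR_sub (e : N ≃ α × β) (A B : Matrix β β ℂ) : opR e (A - B) = opR e A - opR e B := by
  ext s t
  simp only [opR_apply, Matrix.sub_apply]
  ring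

theorem opR_smul (e : N ≃ α × β) (c : ℂ) (A : Matrix β β ℂ) : opR e (c • A) = c • opR e A := by
  ext s t
  simp only [opR_apply, Matrix.smul_apply, smul_eq_mul]
  ring

theorem opR_zero (e : N ≃ α × β) : opR e (0 : Matrix β β ℂ) = 0 := by
  ext s t
  simp only [opR_apply, Matrix.zero_apply, mul_zero]

theorem opL_sum {ι : Type*} (e : N ≃ α × β) (s : Finset ι) (A : ι → Matrix α α ℂ) :
    opL e (∑ i ∈ s, A i) = ∑ i ∈ s, opL e (A i) := by
  classical
  induction s using Finset.induction_on with
  | empty => simp only [Finset.sum_empty, opL_zero]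
  | insert i s hi ih => rw [Finset.sum_insert hi, Finset.sum_insert hi, opL_add, ih]

theorem opR_sum {ι : Type*} (e : N ≃ α × β) (s : Finset ι) (A : ι → Matrix β β ℂ) :
    opR e (∑ i ∈ s, A i) = ∑ i ∈ s, opR e (A i) := by
  classical
  induction s using Finset.induction_on with
  | empty => simp only [Finset.sum_empty, opR_zero]
  | insert i s hi ih => rw [Finset.sum_insert hi, Finset.sum_insert hi, opR_add, ih]

theorem opL_mul_opR (e : N ≃ α × β) (Y : Matrix α α ℂ) (S : Matrix β β ℂ) :
    opL e Y * opR e S = Matrix.reindex e.symm e.symm (Y ⊗ₖ S) := by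
  rw [opL, opR, ← reindex_mul', ← mul_kronecker_mul, Matrix.mul_one, Matrix.one_mul]

theorem opR_mul_opL (e : N ≃ α × β) (Y : Matrix α α ℂ) (S : Matrix β β ℂ) :
    opR e S * opL e Y = Matrix.reindex e.symm e.symm (Y ⊗ₖ S) := by
  rw [opL, opR, ← reindex_mul', ← mul_kronecker_mul, Matrix.mul_one, Matrix.one_mul]

theorem opL_opR_comm (e : N ≃ α × β) (Y : Matrix α α ℂ) (S : Matrix β β ℂ) :
    opL e Y * opR e S = opR e S * opL e Y := by
  rw [opL_mul_opR, opR_mul_opL]

theorem opL_mulVec (e : N ≃ α × β) (Y : Matrix α α ℂ) (ψ : N → ℂ) :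
    (opL e Y *ᵥ ψ) ∘ e.symm = (Y ⊗ₖ (1 : Matrix β β ℂ)) *ᵥ (ψ ∘ e.symm) := by
  rw [opL, Matrix.reindex_apply, Matrix.submatrix_mulVec_equiv]
  funext z
  simp only [Function.comp_apply, Equiv.symm_symm, Equiv.apply_symm_apply]

theorem opR_mulVec (e : N ≃ α × β) (S : Matrix β β ℂ) (ψ : N → ℂ) :
    (opR e S *ᵥ ψ) ∘ e.symm = ((1 : Matrix α α ℂ) ⊗ₖ S) *ᵥ (ψ ∘ e.symm) := by
  rw [opR, Matrix.reindex_apply, Matrix.submatrix_mulVec_equiv]
  funext z
  simp only [Function.comp_apply, Equiv.symm_symm, Equiv.apply_symm_apply]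

theorem opL_mulVec_apply (e : N ≃ α × β) (Y : Matrix α α ℂ) (ψ : N → ℂ) (a : α) (b : β) :
    (opL e Y *ᵥ ψ) (e.symm (a, b)) = ∑ a', Y a a' * ψ (e.symm (a', b)) := by
  have h := congrFun (opL_mulVec e Y ψ) (a, b)
  simp only [Function.comp_apply] at h
  rw [h]
  simp only [mulVec, dotProduct, Fintype.sum_prod_type, kroneckerMap_apply, Matrix.one_apply,
    Function.comp_apply]
  refine Finset.sum_congr rfl fun a' _ => ?_
  rw [Finset.sum_eq_single b]
  · simp only [if_true, mul_one]
  · intro b' _ hb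
    rw [if_neg (Ne.symm hb), mul_zero, zero_mul]
  · intro h
    exact absurd (Finset.mem_univ b) h

theorem opR_mulVec_apply (e : N ≃ α × β) (S : Matrix β β ℂ) (ψ : N → ℂ) (a : α) (b : β) :
    (opR e S *ᵥ ψ) (e.symm (a, b)) = ∑ b', S b b' * ψ (e.symm (a, b')) := by
  have h := congrFun (opR_mulVec e S ψ) (a, b)
  simp only [Function.comp_apply] at h
  rw [h]
  simp only [mulVec, dotProduct, Fintype.sum_prod_type, kroneckerMap_apply, Matrix.one_apply,
    Function.comp_apply]
  rw [Finset.sum_eq_single a]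
  · refine Finset.sum_congr rfl fun b' _ => ?_
    simp only [if_true, one_mul]
  · intro a' _ ha
    refine Finset.sum_eq_zero fun b' _ => ?_
    rw [if_neg (Ne.symm ha), zero_mul, zero_mul]
  · intro h
    exact absurd (Finset.mem_univ a) h

theorem sum_equiv_prod {M : Type*} [AddCommMonoid M] (e : N ≃ α × β) (f : N → M) :
    ∑ s, f s = ∑ a, ∑ b, f (e.symm (a, b)) := by
  rw [← Fintype.sum_prod_type (f := fun z : α × β => f (e.symm z))]
  exact (Equiv.sum_comp e.symm f).symm

theorem nsq_comp (e : N ≃ α × β) (ψ : N → ℂ) : nsq (ψ ∘ e.symm) = nsq ψ := by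
  unfold nsq
  exact Equiv.sum_comp e.symm (fun s => ‖ψ s‖ ^ 2)

/-- expectation of an operator on the first factor -/
theorem expect_opL (e : N ≃ α × β) (Y : Matrix α α ℂ) (ψ : N → ℂ) :
    star ψ ⬝ᵥ (opL e Y *ᵥ ψ) = (redA (ψ ∘ e.symm) * Y).trace := by
  simp only [dotProduct, Pi.star_apply]
  rw [sum_equiv_prod e]
  simp only [opL_mulVec_apply, Matrix.trace, Matrix.diag_apply, Matrix.mul_apply, redA,
    Function.comp_apply, Finset.mul_sum, Finset.sum_mul]
  have h1 : ∀ a : α, ∑ b, ∑ a', star (ψ (e.symm (a, b))) * (Y a a' * ψ (e.symm (a', b))) =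
      ∑ a', ∑ b, star (ψ (e.symm (a, b))) * (Y a a' * ψ (e.symm (a', b))) := fun a =>
    Finset.sum_comm
  simp only [h1]
  rw [Finset.sum_comm]
  refine Finset.sum_congr rfl fun a' _ => Finset.sum_congr rfl fun a _ =>
    Finset.sum_congr rfl fun b _ => ?_
  ring

/-- spectral form of functions of the reduced state -/
theorem fOp_conjTranspose (x : α × β → ℂ) (f : α → ℝ) : (fOp x f)ᴴ = fOp x f := by
  rw [fOp, conjTranspose_mul, conjTranspose_mul, conjTranspose_conjTranspose,
    diagonal_conjTranspose, Matrix.mul_assoc]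
  congr 3
  funext i
  simp only [Pi.star_apply, RCLike.star_def, Complex.conj_ofReal]

theorem fOp_mul (x : α × β → ℂ) (f g : α → ℝ) : fOp x f * fOp x g = fOp x (fun i => f i * g i) := by
  have h := eigU_mul' x
  rw [fOp, fOp, fOp]
  calc eigU x * diagonal (fun i => (f i : ℂ)) * (eigU x)ᴴ *
      (eigU x * diagonal (fun i => (g i : ℂ)) * (eigU x)ᴴ) =
      eigU x * diagonal (fun i => (f i : ℂ)) * ((eigU x)ᴴ * eigU x) *
        diagonal (fun i => (g i : ℂ)) * (eigU x)ᴴ := by simp only [Matrix.mul_assoc]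
    _ = eigU x * (diagonal (fun i => (f i : ℂ)) * diagonal (fun i => (g i : ℂ))) *
        (eigU x)ᴴ := by rw [h, Matrix.mul_one, Matrix.mul_assoc (eigU x)]
    _ = _ := by
        rw [diagonal_mul_diagonal]
        simp only [Complex.ofReal_mul]

theorem fOp_one (x : α × β → ℂ) : fOp x (fun _ => 1) = 1 := by
  rw [fOp]
  simp only [Complex.ofReal_one, diagonal_one, Matrix.mul_one]
  exact eigU_mul x

theorem trace_redA_fOp (x : α × β → ℂ) (f : α → ℝ) :
    (redA x * fOp x f).trace = ((∑ i, eigp x i * f i : ℝ) : ℂ) := by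
  have h := eigU_mul' x
  rw [fOp, redA_spec x]
  have e1 : eigU x * diagonal (fun i => (eigp x i : ℂ)) * (eigU x)ᴴ *
      (eigU x * diagonal (fun i => (f i : ℂ)) * (eigU x)ᴴ) =
      eigU x * diagonal (fun i => ((eigp x i * f i : ℝ) : ℂ)) * (eigU x)ᴴ := by
    calc eigU x * diagonal (fun i => (eigp x i : ℂ)) * (eigU x)ᴴ *
      (eigU x * diagonal (fun i => (f i : ℂ)) * (eigU x)ᴴ) =
      eigU x * diagonal (fun i => (eigp x i : ℂ)) * ((eigU x)ᴴ * eigU x) *
        diagonal (fun i => (f i : ℂ)) * (eigU x)ᴴ := by simp only [Matrix.mul_assoc]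
    _ = eigU x * (diagonal (fun i => (eigp x i : ℂ)) * diagonal (fun i => (f i : ℂ))) *
        (eigU x)ᴴ := by rw [h, Matrix.mul_one, Matrix.mul_assoc (eigU x)]
    _ = _ := by
        rw [diagonal_mul_diagonal]
        simp only [Complex.ofReal_mul]
  rw [e1, Matrix.trace_mul_comm, ← Matrix.mul_assoc, h, Matrix.one_mul, Matrix.trace_diagonal]
  push_cast
  rfl

/-- trace of a function of the reduced state -/
theorem trace_fOp (x : α × β → ℂ) (f : α → ℝ) :
    (fOp x f).trace = ((∑ i, f i : ℝ) : ℂ) := by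
  rw [fOp, Matrix.trace_mul_comm, ← Matrix.mul_assoc, eigU_mul', Matrix.one_mul,
    Matrix.trace_diagonal]
  push_cast
  rfl

end ops

section regions
variable {V : Type*} [Fintype V] [DecidableEq V] {q : ℕ}

theorem opOn_mul (A : Finset V) (X Y : Op {x // x ∈ A} q) :
    opOn A (X * Y) = opOn A X * opOn A Y := opL_mul _ _ _

theorem opOn_one (A : Finset V) : opOn A (1 : Op {x // x ∈ A} q) = 1 := opL_one _

theorem opOn_conjTranspose (A : Finset V) (X : Op {x // x ∈ A} q) :
    (opOn A X)ᴴ = opOn A Xᴴ := opL_conjTranspose _ _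

theorem opOn_sub (A : Finset V) (X Y : Op {x // x ∈ A} q) :
    opOn A (X - Y) = opOn A X - opOn A Y := opL_sub _ _ _

theorem opOn_add (A : Finset V) (X Y : Op {x // x ∈ A} q) :
    opOn A (X + Y) = opOn A X + opOn A Y := opL_add _ _ _

theorem expect_opOn (A : Finset V) (Y : Op {x // x ∈ A} q) (ψ : Conf V q → ℂ) :
    star ψ ⬝ᵥ (opOn A Y *ᵥ ψ) = (rdm A ψ * Y).trace := expect_opL _ _ _

theorem opOn_apply (A : Finset V) (Y : Op {x // x ∈ A} q) (s t : Conf V q) :
    opOn A Y s t = Y (fun x => s x) (fun x => t x) *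
      (if (∀ x, x ∉ A → s x = t x) then 1 else 0) := by
  classical
  rw [opOn, opL_apply]
  have h1 : ((cut A q) s).1 = fun x : {x // x ∈ A} => s x := rfl
  have h2 : ((cut A q) t).1 = fun x : {x // x ∈ A} => t x := rfl
  rw [h1, h2]
  congr 1
  by_cases h : ∀ x, x ∉ A → s x = t x
  · rw [if_pos h, if_pos]
    funext x
    exact h x.1 x.2
  · rw [if_neg h, if_neg]
    intro hc
    apply h
    intro x hx
    exact congrFun hc ⟨x, hx⟩

/-- Operators on disjoint regions commute. -/
theorem opOn_comm (A B : Finset V) (hAB : Disjoint A B) (X : Op {x // x ∈ A} q)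
    (Y : Op {x // x ∈ B} q) : opOn A X * opOn B Y = opOn B Y * opOn A X := by
  classical
  ext s t
  rw [Matrix.mul_apply, Matrix.mul_apply]
  simp only [opOn_apply]
  -- the intermediate configurations
  let r1 : Conf V q := fun x => if x ∈ A then t x else s x
  let r2 : Conf V q := fun x => if x ∈ B then t x else s x
  have hdis : ∀ x, x ∈ A → x ∉ B := fun x hx hx' => Finset.disjoint_left.mp hAB hx hx'
  have hL : ∀ r : Conf V q, r ≠ r1 →
      X (fun x => s x) (fun x => r x) * (if (∀ x, x ∉ A → s x = r x) then 1 else 0) *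
      (Y (fun x => r x) (fun x => t x) * (if (∀ x, x ∉ B → r x = t x) then 1 else 0)) = 0 := by
    intro r hr
    by_cases h1 : ∀ x, x ∉ A → s x = r x
    · by_cases h2 : ∀ x, x ∉ B → r x = t x
      · exfalso
        apply hr
        funext x
        simp only [r1]
        by_cases hx : x ∈ A
        · rw [if_pos hx]
          exact h2 x (hdis x hx)
        · rw [if_neg hx]
          exact (h1 x hx).symm
      · rw [if_neg h2, mul_zero, mul_zero]
    · rw [if_neg h1, mul_zero, zero_mul]
  have hR : ∀ r : Conf V q, r ≠ r2 →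
      Y (fun x => s x) (fun x => r x) * (if (∀ x, x ∉ B → s x = r x) then 1 else 0) *
      (X (fun x => r x) (fun x => t x) * (if (∀ x, x ∉ A → r x = t x) then 1 else 0)) = 0 := by
    intro r hr
    by_cases h1 : ∀ x, x ∉ B → s x = r x
    · by_cases h2 : ∀ x, x ∉ A → r x = t x
      · exfalso
        apply hr
        funext x
        simp only [r2]
        by_cases hx : x ∈ B
        · rw [if_pos hx]
          exact h2 x (fun h' => hdis x h' hx)
        · rw [if_neg hx]
          exact (h1 x hx).symm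
      · rw [if_neg h2, mul_zero, mul_zero]
    · rw [if_neg h1, mul_zero, zero_mul]
  rw [Finset.sum_eq_single r1 (fun r _ hr => hL r hr) (fun h => absurd (Finset.mem_univ _) h),
    Finset.sum_eq_single r2 (fun r _ hr => hR r hr) (fun h => absurd (Finset.mem_univ _) h)]
  have e1 : (fun x : {x // x ∈ A} => r1 x) = fun x : {x // x ∈ A} => t x := by
    funext x
    simp only [r1, if_pos x.2]
  have e2 : (fun x : {x // x ∈ B} => r1 x) = fun x : {x // x ∈ B} => s x := by
    funext x
    simp only [r1, if_neg (fun h => hdis x.1 h x.2)]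
  have e3 : (fun x : {x // x ∈ B} => r2 x) = fun x : {x // x ∈ B} => t x := by
    funext x
    simp only [r2, if_pos x.2]
  have e4 : (fun x : {x // x ∈ A} => r2 x) = fun x : {x // x ∈ A} => s x := by
    funext x
    simp only [r2, if_neg (hdis x.1 x.2)]
  have c1 : ∀ x, x ∉ A → s x = r1 x := fun x hx => by simp only [r1, if_neg hx]
  have c2 : ∀ x, x ∉ B → s x = r2 x := fun x hx => by simp only [r2, if_neg hx]
  have c3 : (∀ x, x ∉ B → r1 x = t x) ↔ (∀ x, x ∉ A → r2 x = t x) := by
    constructor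
    · intro h x hx
      simp only [r2]
      by_cases hB : x ∈ B
      · rw [if_pos hB]
      · rw [if_neg hB]
        have := h x hB
        simp only [r1, if_neg hx] at this
        exact this
    · intro h x hx
      simp only [r1]
      by_cases hA : x ∈ A
      · rw [if_pos hA]
      · rw [if_neg hA]
        have := h x hA
        simp only [r2, if_neg hx] at this
        exact this
  rw [e1, e2, e3, e4, if_pos c1, if_pos c2]
  by_cases hc : ∀ x, x ∉ B → r1 x = t x
  · rw [if_pos hc, if_pos (c3.mp hc)]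
    ring
  · rw [if_neg hc, if_neg (fun h => hc (c3.mpr h))]
    ring

end regions

end Vale.Agent.P356.SV
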