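import Vale.Agent.P356.SV.Tilt5

set_option linter.all false

/-!
The trial state and the tilt inequality.
-/

namespace Vale.Agent.P356.SV

open Matrix Finset Vale.Agent.P356 Vale.Agent.P356.Path
open scoped BigOperators ComplexOrder Kronecker

/-- eigenbasis of a projection -/
theorem proj_basis {a : Type*} [Fintype a] [DecidableEq a] {Q : Matrix a a ℂ} (hQ : IsPr Q) :
    ∃ (U : Matrix a a ℂ) (b : a → ℝ), U * Uᴴ = 1 ∧ (∀ i, b i = 0 ∨ b i = 1) ∧ Q = dOp U b ∧
      Q.trace.re = ∑ i, b i := by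
  have hH : Q.IsHermitian := hQ.2
  set U : Matrix a a ℂ := (hH.eigenvectorUnitary : Matrix a a ℂ) with hU
  have hU1 : U * Uᴴ = 1 := by
    have := hH.eigenvectorUnitary.2
    rw [Matrix.mem_unitaryGroup_iff] at this
    exact this
  have hU2 : Uᴴ * U = 1 := mul_eq_one_comm.mp hU1
  have hd : Uᴴ * Q * U = diagonal (fun i => (hH.eigenvalues i : ℂ)) := by
    have := hH.conjStarAlgAut_star_eigenvectorUnitary
    rw [Unitary.conjStarAlgAut_star_apply] at this
    exact this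
  have hQs : Q = dOp U hH.eigenvalues := by
    rw [dOp, ← hd]
    calc Q = (U * Uᴴ) * Q * (U * Uᴴ) := by rw [hU1, Matrix.one_mul, Matrix.mul_one]
      _ = _ := by simp only [Matrix.mul_assoc]
  have hsq : ∀ i, hH.eigenvalues i * hH.eigenvalues i = hH.eigenvalues i := by
    intro i
    have h1 : (Uᴴ * Q * U) * (Uᴴ * Q * U) = Uᴴ * Q * U := by
      calc (Uᴴ * Q * U) * (Uᴴ * Q * U) = Uᴴ * Q * (U * Uᴴ) * Q * U := by
            simp only [Matrix.mul_assoc]
        _ = Uᴴ * (Q * Q) * U := by rw [hU1, Matrix.mul_one]; simp only [Matrix.mul_assoc]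
        _ = _ := by rw [hQ.1]
    rw [hd, diagonal_mul_diagonal] at h1
    have h2 := congrFun (congrFun h1 i) i
    rw [diagonal_apply_eq, diagonal_apply_eq] at h2
    exact_mod_cast h2
  refine ⟨U, hH.eigenvalues, hU1, ?_, hQs, ?_⟩
  · intro i
    have h1 : hH.eigenvalues i * (hH.eigenvalues i - 1) = 0 := by
      rw [mul_sub, hsq i, mul_one, sub_self]
    rcases mul_eq_zero.mp h1 with h | h
    · exact Or.inl h
    · exact Or.inr (by linarith)
  · conv_lhs => rw [hQs]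
    rw [dOp, Matrix.trace_mul_comm, ← Matrix.mul_assoc, hU2, Matrix.one_mul,
      Matrix.trace_diagonal, Complex.re_sum]
    simp only [Complex.ofReal_re]

section trial
variable {N : Type} [Fintype N] [DecidableEq N] {α β : ℕ → Type}
  [∀ k, Fintype (α k)] [∀ k, DecidableEq (α k)] [∀ k, Fintype (β k)] [∀ k, DecidableEq (β k)]

/-- growth of the product -/
theorem prR_nrm_le (Y : ℕ → Matrix N N ℂ) (a : ℕ → ℝ) (ha : ∀ k, 0 ≤ a k) (n : ℕ)
    (hY : ∀ k < n, ∀ v, nrm (Y k *ᵥ v) ≤ Real.exp (a k) * nrm v) (v : N → ℂ) :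
    nrm (prR Y n *ᵥ v) ≤ Real.exp (∑ k ∈ range n, a k) * nrm v := by
  induction n generalizing v with
  | zero =>
    rw [prR, one_mulVec, Finset.range_zero, Finset.sum_empty, Real.exp_zero, one_mul]
  | succ n ih =>
    rw [prR, ← mulVec_mulVec, Finset.sum_range_succ, Real.exp_add]
    have h1 := ih (fun k hk => hY k (Nat.lt_succ_of_lt hk)) (Y n *ᵥ v)
    have h2 := hY n (Nat.lt_succ_self n) v
    calc nrm (prR Y n *ᵥ (Y n *ᵥ v)) ≤ Real.exp (∑ k ∈ range n, a k) * nrm (Y n *ᵥ v) := h1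
      _ ≤ Real.exp (∑ k ∈ range n, a k) * (Real.exp (a n) * nrm v) :=
          mul_le_mul_of_nonneg_left h2 (Real.exp_pos _).le
      _ = _ := by ring

/-- the trial product acting on a vector almost fixed by the projections -/
theorem trial_dist (Y Q : ℕ → Matrix N N ℂ) (a : ℕ → ℝ) (ha : ∀ k, 0 ≤ a k) (n : ℕ)
    (hY : ∀ k < n, Y k = 1 + ((Real.exp (a k) - 1 : ℝ) : ℂ) • Q k)
    (hQ : ∀ k < n, IsPr (Q k)) (φ : N → ℂ) :
    nrm (prR Y n *ᵥ φ - (Real.exp (∑ k ∈ range n, a k) : ℂ) • φ) ≤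
      Real.exp (∑ k ∈ range n, a k) * ∑ k ∈ range n, nrm ((1 - Q k) *ᵥ φ) := by
  have hexp : ∀ k, 1 ≤ Real.exp (a k) := fun k => Real.one_le_exp (ha k)
  have hYn : ∀ k < n, ∀ v, nrm (Y k *ᵥ v) ≤ Real.exp (a k) * nrm v := by
    intro k hk v
    rw [hY k hk, add_mulVec, one_mulVec, smul_mulVec]
    refine (nrm_add_le _ _).trans ?_
    rw [nrm_smul, Complex.norm_real, Real.norm_eq_abs,
      abs_of_nonneg (by linarith [hexp k])]
    have h1 := contr_nrm (contr_of_isPr (hQ k hk)) v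
    have h2 := hexp k
    have h3 := nrm_nonneg (Q k *ᵥ v)
    nlinarith
  induction n with
  | zero =>
    simp only [prR, one_mulVec, Finset.range_zero, Finset.sum_empty, Real.exp_zero,
      Complex.ofReal_one, one_smul, sub_self, mul_zero]
    rw [nrm]
    simp [nsq]
  | succ n ih =>
    have ih' := ih (fun k hk => hY k (Nat.lt_succ_of_lt hk))
      (fun k hk => hQ k (Nat.lt_succ_of_lt hk)) (fun k hk => hYn k (Nat.lt_succ_of_lt hk))
    set s := ∑ k ∈ range n, a k with hs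
    have hYφ : Y n *ᵥ φ = (Real.exp (a n) : ℂ) • φ -
        ((Real.exp (a n) - 1 : ℝ) : ℂ) • ((1 - Q n) *ᵥ φ) := by
      rw [hY n (Nat.lt_succ_self n), add_mulVec, one_mulVec, smul_mulVec, sub_mulVec, one_mulVec]
      funext i
      simp only [Pi.add_apply, Pi.sub_apply, Pi.smul_apply, smul_eq_mul]
      push_cast
      ring
    have hdec : prR Y (n + 1) *ᵥ φ - (Real.exp (∑ k ∈ range (n + 1), a k) : ℂ) • φ =
        (Real.exp (a n) : ℂ) • (prR Y n *ᵥ φ - (Real.exp s : ℂ) • φ) -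
          ((Real.exp (a n) - 1 : ℝ) : ℂ) • (prR Y n *ᵥ ((1 - Q n) *ᵥ φ)) := by
      rw [prR, ← mulVec_mulVec, hYφ, mulVec_sub, mulVec_smul, mulVec_smul, smul_sub, smul_smul,
        Finset.sum_range_succ, ← hs, Real.exp_add]
      push_cast
      rw [mul_comm (Complex.exp (s : ℂ))]
      abel
    rw [hdec]
    refine (nrm_sub_le _ _).trans ?_
    rw [nrm_smul, nrm_smul, Complex.norm_real, Complex.norm_real, Real.norm_eq_abs,
      Real.norm_eq_abs, abs_of_pos (Real.exp_pos _), abs_of_nonneg (by linarith [hexp n]),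
      Finset.sum_range_succ, Finset.sum_range_succ, ← hs, Real.exp_add]
    have h1 := prR_nrm_le Y a ha n (fun k hk => hYn k (Nat.lt_succ_of_lt hk))
      ((1 - Q n) *ᵥ φ)
    rw [← hs] at h1
    have h2 := hexp n
    have h3 := nrm_nonneg ((1 - Q n) *ᵥ φ)
    have h4 : 0 < Real.exp s := Real.exp_pos _
    have h5 : Real.exp (a n) * nrm (prR Y n *ᵥ φ - (Real.exp s : ℂ) • φ) ≤
        Real.exp (a n) * (Real.exp s * ∑ k ∈ range n, nrm ((1 - Q k) *ᵥ φ)) :=
      mul_le_mul_of_nonneg_left ih' (Real.exp_pos _).le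
    have h6 : (Real.exp (a n) - 1) * nrm (prR Y n *ᵥ ((1 - Q n) *ᵥ φ)) ≤
        Real.exp (a n) * (Real.exp s * nrm ((1 - Q n) *ᵥ φ)) := by
      have h7 := nrm_nonneg (prR Y n *ᵥ ((1 - Q n) *ᵥ φ))
      calc (Real.exp (a n) - 1) * nrm (prR Y n *ᵥ ((1 - Q n) *ᵥ φ)) ≤
          Real.exp (a n) * nrm (prR Y n *ᵥ ((1 - Q n) *ᵥ φ)) :=
            mul_le_mul_of_nonneg_right (by linarith) h7
        _ ≤ _ := mul_le_mul_of_nonneg_left h1 (Real.exp_pos _).le
    linarith

/-- The tilt inequality, abstract form. -/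
theorem tilt_abstract' (e : ∀ k, N ≃ α k × β k)
    (hcomm : ∀ j k, j ≤ k → ∀ (Y : Matrix (α k) (α k) ℂ) (S : Matrix (β j) (β j) ℂ),
      opL (e k) Y * opR (e j) S = opR (e j) S * opL (e k) Y)
    {H : Matrix N N ℂ} {E Δ : ℝ} {Ω : N → ℂ} (hΔ : 0 < Δ) (hg : Gapped H E Ω Δ)
    (n : ℕ) {Z : Type} [Fintype Z] (h : Z → Matrix N N ℂ) (hH : H = ∑ z, h z) (κ : Z → ℕ)
    (hκR : ∀ z j, j < κ z → ∀ S, h z * opR (e j) S = opR (e j) S * h z)
    (hκL : ∀ z j, κ z < j → j < n → ∀ Y, h z * opL (e j) Y = opL (e j) Y * h z)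
    (w : Z → ℝ) (hw : ∀ z, κ z < n → CutBound (e (κ z)) (h z) (w z))
    (θ K : ℕ → ℝ) (m : ℝ) (hm : 0 ≤ m) (hθ0 : ∀ k, 0 < θ k) (hθ1 : ∀ k, θ k ≤ 1 / 4)
    (hN : 9 * ∑ k ∈ range n, θ k ^ 2 * (∑ z, if κ z = k then w z else 0) ≤ Δ / 32)
    (hw0 : ∀ z, 0 ≤ w z)
    (hK : ∀ k, 0 < K k)
    (hTop : ∀ k < n, ∀ Q : Matrix (α k) (α k) ℂ, IsPr Q → Q.trace.re ≤ K k →
      nsq (opL (e k) Q *ᵥ Ω) ≤ 1 / 16)
    (B : Matrix N N ℂ) (hB : Contr B)
    (hBc : ∀ k < n, ∀ Y, B * opL (e k) Y = opL (e k) Y * B)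
    (hp0 : 0 < nsq (B *ᵥ Ω))
    (Pr : ∀ k, Matrix (α k) (α k) ℂ) (hPr : ∀ k < n, IsPr (Pr k))
    (hPrt : ∀ k < n, (Pr k).trace.re ≤ K k * Real.exp (-m))
    (hd : ∑ k ∈ range n, Real.sqrt (nsq ((1 - opL (e k) (Pr k)) *ᵥ (B *ᵥ Ω))) ≤
      1 / 2 * Real.sqrt (nsq (B *ᵥ Ω))) :
    3 / 2 * m * ∑ k ∈ range n, θ k ≤
      -Real.log (nsq (B *ᵥ Ω)) + 2 * Real.log 2 + 2 * ∑ k ∈ range n, θ k := by
  have hup := tilt_upper e hcomm hΔ hg n h hH κ hκR hκL w hw θ K m hm hθ0 hθ1 hN hw0 hK hTop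
  -- the trial parameters
  have hbas : ∀ k, ∃ p : Matrix (α k) (α k) ℂ × (α k → ℝ), p.1 * p.1ᴴ = 1 ∧
      (∀ i, p.2 i = 0 ∨ p.2 i = 1) ∧ (k < n → Pr k = dOp p.1 p.2 ∧
        (Pr k).trace.re = ∑ i, p.2 i) := by
    intro k
    by_cases hk : k < n
    · obtain ⟨U, b, h1, h2, h3, h4⟩ := proj_basis (hPr k hk)
      exact ⟨(U, b), h1, h2, fun _ => ⟨h3, h4⟩⟩
    · exact ⟨(1, fun _ => 0), by simp, fun i => Or.inl rfl, fun h' => absurd h' hk⟩
  choose p hp1 hp2 hp3 using hbas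
  set π : ∀ k, Par α k := fun k => ((p k).1, fun i => m * (p k).2 i) with hπ
  have hfeas : π ∈ Feas α m := by
    intro k
    refine ⟨hp1 k, fun i => ?_⟩
    show 0 ≤ m * (p k).2 i ∧ m * (p k).2 i ≤ m
    rcases hp2 k i with h0 | h0
    · rw [h0]
      constructor <;> linarith
    · rw [h0]
      constructor <;> linarith
  have hFF := hup π hfeas
  have hpos := vv_pos e θ hg.unit n 1 hfeas
  -- the operators
  have hYY : ∀ k < n, YY e θ π 1 k =
      1 + ((Real.exp (m * θ k) - 1 : ℝ) : ℂ) • opL (e k) (Pr k) := by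
    intro k hk
    rw [YY, (hp3 k hk).1, ← opL_smul]
    have h1 : dOp (π k).1 (fun i => Real.exp (1 * θ k * (π k).2 i)) =
        1 + ((Real.exp (m * θ k) - 1 : ℝ) : ℂ) • dOp (p k).1 (p k).2 := by
      have h2 : (1 : Matrix (α k) (α k) ℂ) = dOp (p k).1 (fun _ => 1) := (dOp_one (hp1 k)).symm
      ext i j
      rw [Matrix.add_apply, Matrix.smul_apply, h2, dOp_apply, dOp_apply, dOp_apply, smul_eq_mul,
        Finset.mul_sum, ← Finset.sum_add_distrib]
      refine Finset.sum_congr rfl fun l _ => ?_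
      have h3 : ((Real.exp (1 * θ k * (π k).2 l) : ℝ) : ℂ) =
          ((1 : ℝ) : ℂ) + ((Real.exp (m * θ k) - 1 : ℝ) : ℂ) * (((p k).2 l : ℝ) : ℂ) := by
        have h4 : Real.exp (1 * θ k * (π k).2 l) =
            1 + (Real.exp (m * θ k) - 1) * (p k).2 l := by
          show Real.exp (1 * θ k * (m * (p k).2 l)) = _
          rcases hp2 k l with h0 | h0
          · rw [h0]; simp
          · rw [h0]
            have : 1 * θ k * (m * 1) = m * θ k := by ring
            rw [this]; ring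
        rw [h4]
        push_cast
        ring
      rw [h3]
      ring
    rw [h1, opL_add, opL_one]
  -- the penalty
  have hpen : pen θ K n π ≤ 2 * ∑ k ∈ range n, θ k := by
    rw [pen, Finset.mul_sum]
    refine Finset.sum_le_sum fun k hk => ?_
    have hkn := Finset.mem_range.mp hk
    have h1 : ∑ i, (Real.exp ((π k).2 i) - 1) = (Real.exp m - 1) * (Pr k).trace.re := by
      rw [(hp3 k hkn).2, Finset.mul_sum]
      refine Finset.sum_congr rfl fun i _ => ?_
      show Real.exp (m * (p k).2 i) - 1 = _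
      rcases hp2 k i with h0 | h0
      · rw [h0]; simp
      · rw [h0]; simp
    have h2 : 0 ≤ (Pr k).trace.re := by
      rw [(hp3 k hkn).2]
      refine Finset.sum_nonneg fun i _ => ?_
      rcases hp2 k i with h0 | h0 <;> rw [h0] <;> norm_num
    have h3 := hPrt k hkn
    have h4 := hK k
    have h5 := hθ0 k
    have h6 : (Real.exp m - 1) * (Pr k).trace.re ≤ K k := by
      have h7 : Real.exp m * Real.exp (-m) = 1 := by rw [← Real.exp_add]; simp
      have h8 := Real.exp_pos m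
      calc (Real.exp m - 1) * (Pr k).trace.re ≤ Real.exp m * (Pr k).trace.re := by nlinarith
        _ ≤ Real.exp m * (K k * Real.exp (-m)) := mul_le_mul_of_nonneg_left h3 h8.le
        _ = K k * (Real.exp m * Real.exp (-m)) := by ring
        _ = K k := by rw [h7, mul_one]
    rw [h1]
    have h9 : 2 * θ k * (1 / K k) * ((Real.exp m - 1) * (Pr k).trace.re) ≤
        2 * θ k * (1 / K k) * K k := mul_le_mul_of_nonneg_left h6 (by positivity)
    refine h9.trans (le_of_eq ?_)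
    field_simp
  -- the norm
  set φ := B *ᵥ Ω with hφ
  set s := ∑ k ∈ range n, m * θ k with hs
  have hdist := trial_dist (YY e θ π 1) (fun k => opL (e k) (Pr k)) (fun k => m * θ k)
    (fun k => mul_nonneg hm (hθ0 k).le) n hYY (fun k hk => isPr_opL (e k) (hPr k hk)) φ
  rw [← hs] at hdist
  have hsumd : ∑ k ∈ range n, nrm ((1 - opL (e k) (Pr k)) *ᵥ φ) ≤ 1 / 2 * nrm φ := hd
  have hexps := Real.exp_pos s
  have hlow : 1 / 2 * Real.exp s * nrm φ ≤ nrm (prR (YY e θ π 1) n *ᵥ φ) := by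
    have h1 : nrm ((Real.exp s : ℂ) • φ) ≤ nrm (prR (YY e θ π 1) n *ᵥ φ) +
        nrm (prR (YY e θ π 1) n *ᵥ φ - (Real.exp s : ℂ) • φ) := by
      have h2 : (Real.exp s : ℂ) • φ = prR (YY e θ π 1) n *ᵥ φ -
          (prR (YY e θ π 1) n *ᵥ φ - (Real.exp s : ℂ) • φ) := by abel
      conv_lhs => rw [h2]
      exact nrm_sub_le _ _
    rw [nrm_smul, Complex.norm_real, Real.norm_eq_abs, abs_of_pos hexps] at h1
    have h3 : Real.exp s * ∑ k ∈ range n, nrm ((1 - opL (e k) (Pr k)) *ᵥ φ) ≤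
        Real.exp s * (1 / 2 * nrm φ) := mul_le_mul_of_nonneg_left hsumd hexps.le
    linarith
  -- commutation of the event with the tilts
  have hBcomm : ∀ j ≤ n, B * prR (YY e θ π 1) j = prR (YY e θ π 1) j * B := by
    intro j
    induction j with
    | zero => intro _; rw [prR, Matrix.mul_one, Matrix.one_mul]
    | succ j ih =>
      intro hj
      have h1 := ih (by omega)
      have h2 : B * YY e θ π 1 j = YY e θ π 1 j * B := hBc j (by omega) _
      rw [prR, ← Matrix.mul_assoc, h1, Matrix.mul_assoc, h2, Matrix.mul_assoc]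
  have hvv : nrm (prR (YY e θ π 1) n *ᵥ φ) ≤ nrm (vv e θ Ω n 1 π) := by
    rw [hφ, mulVec_mulVec, ← hBcomm n le_rfl, ← mulVec_mulVec]
    exact contr_nrm hB _
  have hlow2 : (1 / 2 * Real.exp s * nrm φ) ^ 2 ≤ nsq (vv e θ Ω n 1 π) := by
    rw [← nrm_sq (vv e θ Ω n 1 π)]
    exact pow_le_pow_left₀ (by have := nrm_nonneg φ; positivity) (hlow.trans hvv) 2
  have hval : (1 / 2 * Real.exp s * nrm φ) ^ 2 = nsq φ * (Real.exp (2 * s) / 4) := by
    rw [mul_pow, nrm_sq, mul_pow, ← Real.exp_nat_mul]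
    push_cast
    ring
  rw [hval] at hlow2
  have hlog : Real.log (nsq φ) + (2 * s - 2 * Real.log 2) ≤ Real.log (nsq (vv e θ Ω n 1 π)) := by
    have h1 := Real.log_le_log (by positivity) hlow2
    rw [Real.log_mul hp0.ne' (by positivity), Real.log_div (Real.exp_pos _).ne' (by norm_num),
      Real.log_exp] at h1
    have h2 : Real.log 4 = 2 * Real.log 2 := by
      have : (4 : ℝ) = 2 ^ 2 := by norm_num
      rw [this, Real.log_pow]
      push_cast
      ring
    rw [h2] at h1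
    exact h1
  have hsm : s = m * ∑ k ∈ range n, θ k := by rw [hs, Finset.mul_sum]
  rw [FF, one_mul] at hFF
  rw [hsm] at hlog
  linarith

end trial

end Vale.Agent.P356.SV
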