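import Vale.Agent.P356.SV.Tilt4
import Mathlib.Topology.Instances.Matrix
import Mathlib.Topology.Order.Compact

set_option linter.all false

/-!
Existence of maximisers and the upper bound for the maximum.
-/

namespace Vale.Agent.P356.SV

open Matrix Finset Vale.Agent.P356 Vale.Agent.P356.Path
open scoped BigOperators ComplexOrder Kronecker

theorem contr_of_isPr {N : Type*} [Fintype N] [DecidableEq N] {Q : Matrix N N ℂ}
    (hQ : IsPr Q) : Contr Q := by
  intro v
  show nsq (Q *ᵥ v) ≤ nsq v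
  have h1 : ((nsq (Q *ᵥ v) : ℝ) : ℂ) = star v ⬝ᵥ (Q *ᵥ v) := by
    rw [← ip_self, ip_mulVec, hQ.2, mulVec_mulVec, hQ.1]
  have h2 : nsq (Q *ᵥ v) ≤ nrm v * nrm (Q *ᵥ v) := by
    have h3 : nsq (Q *ᵥ v) = (star v ⬝ᵥ (Q *ᵥ v)).re := by rw [← h1, Complex.ofReal_re]
    rw [h3]
    exact (Complex.re_le_norm _).trans (nrm_ip_le _ _)
  have h4 := nrm_sq (Q *ᵥ v)
  have h5 := nrm_sq v
  have h6 := nrm_nonneg (Q *ᵥ v)
  have h7 := nrm_nonneg v
  rcases h6.lt_or_eq with h | h
  · have h8 : nrm (Q *ᵥ v) ≤ nrm v := by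
      by_contra hc
      push Not at hc
      nlinarith
    nlinarith
  · rw [← h4, ← h5, ← h]
    nlinarith [sq_nonneg (nrm v)]

theorem nsq_isPr {N : Type*} [Fintype N] [DecidableEq N] {Q : Matrix N N ℂ}
    (hQ : IsPr Q) (v : N → ℂ) : nsq (Q *ᵥ v) = (star v ⬝ᵥ (Q *ᵥ v)).re := by
  have h1 : ((nsq (Q *ᵥ v) : ℝ) : ℂ) = star v ⬝ᵥ (Q *ᵥ v) := by
    rw [← ip_self, ip_mulVec, hQ.2, mulVec_mulVec, hQ.1]
  rw [← h1, Complex.ofReal_re]

theorem isPr_opL {N α β : Type*} [Fintype N] [DecidableEq N] [Fintype α] [Fintype β]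
    [DecidableEq α] [DecidableEq β] (e : N ≃ α × β) {Q : Matrix α α ℂ} (hQ : IsPr Q) :
    IsPr (opL e Q) :=
  ⟨by rw [← opL_mul, hQ.1], by rw [opL_conjTranspose, hQ.2]⟩

section comp
variable {N : Type} [Fintype N] [DecidableEq N] {α β : ℕ → Type}
  [∀ k, Fintype (α k)] [∀ k, DecidableEq (α k)] [∀ k, Fintype (β k)] [∀ k, DecidableEq (β k)]

theorem isCompact_par (k : ℕ) (m : ℝ) :
    IsCompact {p : Par α k | p.1 * p.1ᴴ = 1 ∧ ∀ i, 0 ≤ p.2 i ∧ p.2 i ≤ m} := by
  have hK : IsCompact ((Set.univ.pi (fun _ : α k => Set.univ.pi (fun _ : α k =>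
      Metric.closedBall (0 : ℂ) 1)) : Set (α k → α k → ℂ)) ×ˢ
      (Set.univ.pi (fun _ : α k => Set.Icc (0 : ℝ) m) : Set (α k → ℝ))) := by
    refine IsCompact.prod ?_ ?_
    · exact isCompact_univ_pi (fun _ => isCompact_univ_pi (fun _ => isCompact_closedBall _ _))
    · exact isCompact_univ_pi (fun _ => isCompact_Icc)
  refine IsCompact.of_isClosed_subset (s := ((Set.univ.pi (fun _ : α k =>
    Set.univ.pi (fun _ : α k => Metric.closedBall (0 : ℂ) 1)) : Set (α k → α k → ℂ)) ×ˢ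
      (Set.univ.pi (fun _ : α k => Set.Icc (0 : ℝ) m) : Set (α k → ℝ)))) hK ?_ ?_
  · have h1 : IsClosed {p : Par α k | p.1 * p.1ᴴ = 1} := by
      refine isClosed_eq ?_ continuous_const
      exact Continuous.matrix_mul continuous_fst
        (Continuous.matrix_conjTranspose continuous_fst)
    have h2 : IsClosed {p : Par α k | ∀ i, 0 ≤ p.2 i ∧ p.2 i ≤ m} := by
      have h3 : {p : Par α k | ∀ i, 0 ≤ p.2 i ∧ p.2 i ≤ m} =
          ⋂ i, ({p : Par α k | 0 ≤ p.2 i} ∩ {p : Par α k | p.2 i ≤ m}) := by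
        ext p
        simp only [Set.mem_setOf_eq, Set.mem_iInter, Set.mem_inter_iff]
      rw [h3]
      refine isClosed_iInter (fun i => IsClosed.inter ?_ ?_)
      · exact isClosed_le continuous_const ((continuous_apply i).comp continuous_snd)
      · exact isClosed_le ((continuous_apply i).comp continuous_snd) continuous_const
    exact h1.inter h2
  · intro p hp
    obtain ⟨hU, hg⟩ := hp
    set U : Matrix (α k) (α k) ℂ := p.1 with hUdef
    refine ⟨?_, ?_⟩
    · intro i _ j _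
      rw [Metric.mem_closedBall, dist_zero_right]
      have h1 : ∑ l, ‖U i l‖ ^ 2 = 1 := by
        have h2 := congrFun (congrFun hU i) i
        rw [Matrix.mul_apply, Matrix.one_apply_eq] at h2
        have h3 : ∑ l, U i l * Uᴴ l i = ((∑ l, ‖U i l‖ ^ 2 : ℝ) : ℂ) := by
          push_cast
          refine Finset.sum_congr rfl fun l _ => ?_
          rw [conjTranspose_apply, RCLike.star_def, Complex.mul_conj']
        rw [h3] at h2
        exact_mod_cast h2
      have h4 : ‖U i j‖ ^ 2 ≤ 1 := by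
        rw [← h1]
        exact Finset.single_le_sum (f := fun l => ‖U i l‖ ^ 2) (fun l _ => sq_nonneg _)
          (Finset.mem_univ j)
      have h5 := norm_nonneg (U i j)
      nlinarith
    · intro i _
      exact hg i

theorem isCompact_feas (m : ℝ) : IsCompact (Feas α m) := by
  have h : Feas α m = Set.univ.pi (fun k => {p : Par α k | p.1 * p.1ᴴ = 1 ∧
      ∀ i, 0 ≤ p.2 i ∧ p.2 i ≤ m}) := by
    ext π
    simp only [Feas, Set.mem_setOf_eq, Set.mem_pi, Set.mem_univ, true_implies]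
  rw [h]
  exact isCompact_univ_pi (fun k => isCompact_par k m)

theorem continuous_YY (e : ∀ k, N ≃ α k × β k) (θ : ℕ → ℝ) (k : ℕ) :
    Continuous (fun p : ℝ × (∀ k, Par α k) => YY e θ p.2 p.1 k) := by
  refine continuous_matrix (fun i j => ?_)
  have h1 : (fun p : ℝ × (∀ k, Par α k) => YY e θ p.2 p.1 k i j) = fun p =>
      (∑ l, (p.2 k).1 ((e k) i).1 l * (Real.exp (p.1 * θ k * (p.2 k).2 l) : ℂ) *
        star ((p.2 k).1 ((e k) j).1 l)) * (if ((e k) i).2 = ((e k) j).2 then 1 else 0) := by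
    funext p
    rw [YY, opL_apply, dOp_apply]
  rw [h1]
  have hk : Continuous (fun p : ℝ × (∀ k, Par α k) => p.2 k) :=
    (continuous_apply k).comp continuous_snd
  have hU : ∀ i l, Continuous (fun p : ℝ × (∀ k, Par α k) => (p.2 k).1 i l) := fun i l =>
    Continuous.matrix_elem (continuous_fst.comp hk) i l
  have hg : ∀ l, Continuous (fun p : ℝ × (∀ k, Par α k) => (p.2 k).2 l) := fun l =>
    (continuous_apply l).comp (continuous_snd.comp hk)
  refine Continuous.mul ?_ continuous_const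
  refine continuous_finset_sum _ (fun l _ => ?_)
  refine Continuous.mul (Continuous.mul (hU _ l) ?_) (continuous_star.comp (hU _ l))
  exact Complex.continuous_ofReal.comp (Real.continuous_exp.comp
    ((continuous_fst.mul continuous_const).mul (hg l)))

theorem continuous_prR (e : ∀ k, N ≃ α k × β k) (θ : ℕ → ℝ) (n : ℕ) :
    Continuous (fun p : ℝ × (∀ k, Par α k) => prR (YY e θ p.2 p.1) n) := by
  induction n with
  | zero => exact continuous_const
  | succ n ih => exact Continuous.matrix_mul ih (continuous_YY e θ n)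

theorem continuous_nsq (e : ∀ k, N ≃ α k × β k) (θ : ℕ → ℝ) (Ω : N → ℂ) (n : ℕ) :
    Continuous (fun p : ℝ × (∀ k, Par α k) => nsq (vv e θ Ω n p.1 p.2)) := by
  have h1 : Continuous (fun p : ℝ × (∀ k, Par α k) => prR (YY e θ p.2 p.1) n *ᵥ Ω) :=
    Continuous.matrix_mulVec (continuous_prR e θ n) continuous_const
  unfold nsq vv
  refine continuous_finset_sum _ (fun i _ => ?_)
  exact (continuous_norm.comp ((continuous_apply i).comp h1)).pow 2

theorem continuous_pen (θ K : ℕ → ℝ) (n : ℕ) :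
    Continuous (fun π : ∀ k, Par α k => pen θ K n π) := by
  unfold pen
  refine continuous_finset_sum _ (fun k _ => Continuous.mul continuous_const ?_)
  refine continuous_finset_sum _ (fun i _ => Continuous.sub ?_ continuous_const)
  exact Real.continuous_exp.comp ((continuous_apply i).comp
    (continuous_snd.comp (continuous_apply k)))

theorem continuous_FF (e : ∀ k, N ≃ α k × β k) (θ K : ℕ → ℝ) {Ω : N → ℂ} (hΩ : nsq Ω = 1)
    (n : ℕ) (m : ℝ) :
    Continuous (fun p : ℝ × (Feas α m) => FF e θ K Ω n p.1 p.2.1) := by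
  have hg : Continuous (fun p : ℝ × Feas α m => ((p.1, p.2.1) : ℝ × (∀ k, Par α k))) :=
    continuous_fst.prodMk (continuous_subtype_val.comp continuous_snd)
  have h1 : Continuous (fun p : ℝ × Feas α m => nsq (vv e θ Ω n p.1 p.2.1)) := by
    have h0 := Continuous.comp (g := fun p : ℝ × (∀ k, Par α k) => nsq (vv e θ Ω n p.1 p.2))
      (f := fun p : ℝ × Feas α m => ((p.1, p.2.1) : ℝ × (∀ k, Par α k)))
      (continuous_nsq e θ Ω n) hg
    exact h0
  have h2 : Continuous (fun p : ℝ × Feas α m => Real.log (nsq (vv e θ Ω n p.1 p.2.1))) :=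
    Continuous.log h1 (fun p => (vv_pos e θ hΩ n p.1 p.2.2).ne')
  have h3 : Continuous (fun p : ℝ × Feas α m => pen θ K n p.2.1) :=
    (continuous_pen θ K n).comp (continuous_subtype_val.comp continuous_snd)
  have h4 : Continuous (fun p : ℝ × Feas α m => p.1 * pen θ K n p.2.1) :=
    continuous_fst.mul h3
  exact h2.sub h4

/-- derivative bound at a maximiser -/
theorem deriv_le (e : ∀ k, N ≃ α k × β k) {θ K : ℕ → ℝ} {m t : ℝ} (hm : 0 ≤ m)
    (hθ0 : ∀ k, 0 < θ k) (hK : ∀ k, 0 < K k)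
    {H : Matrix N N ℂ} {E Δ : ℝ} {Ω : N → ℂ} (hΔ : 0 < Δ) (hg : Gapped H E Ω Δ) (n : ℕ)
    (hTop : ∀ k < n, ∀ Q : Matrix (α k) (α k) ℂ, IsPr Q → Q.trace.re ≤ K k →
      nsq (opL (e k) Q *ᵥ Ω) ≤ 1 / 16)
    {π : ∀ k, Par α k} (hπ : π ∈ Feas α m)
    (hE : (star (psi e θ Ω n t π) ⬝ᵥ (H *ᵥ (psi e θ Ω n t π))).re - E ≤ Δ / 32) :
    2 * ∑ k ∈ range n, θ k * ∑ i, eigp (psi e θ Ω n t π ∘ (e k).symm) i *
        clipf (1 / K k) m (eigp (psi e θ Ω n t π ∘ (e k).symm) i) - pen θ K n π ≤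
      m / 2 * ∑ k ∈ range n, θ k := by
  have hΩ : nsq Ω = 1 := hg.unit
  have hψ1 := nsq_psi e θ hΩ n t hπ
  set ψ := psi e θ Ω n t π with hψ
  have hpen : 0 ≤ pen θ K n π := by
    unfold pen
    refine Finset.sum_nonneg fun k _ => mul_nonneg ?_ (Finset.sum_nonneg fun i _ => ?_)
    · have h1 := hθ0 k
      have h2 := hK k
      positivity
    · have := Real.one_le_exp ((hπ k).2 i).1
      linarith
  have hk : ∀ k ∈ range n, θ k * ∑ i, eigp (ψ ∘ (e k).symm) i *
      clipf (1 / K k) m (eigp (ψ ∘ (e k).symm) i) ≤ θ k * (m / 4) := by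
    intro k hk
    refine mul_le_mul_of_nonneg_left ?_ (hθ0 k).le
    set x := ψ ∘ (e k).symm with hx
    have hx1 : ∑ z, ‖x z‖ ^ 2 = 1 := by
      have := nsq_comp (e k) ψ
      rw [hψ1] at this
      exact this
    have hp0 := eigp_nonneg x
    have hp1 := eigp_sum x hx1
    have hKk := hK k
    set f : α k → ℝ := fun i => if 1 / K k < eigp x i then 1 else 0 with hf
    have hff : (fun i => f i * f i) = f := by
      funext i
      simp only [hf]
      split_ifs <;> simp
    have hpr : IsPr (fOp x f) := ⟨by rw [fOp_mul, hff], fOp_conjTranspose x f⟩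
    have htr : (fOp x f).trace.re ≤ K k := by
      rw [trace_fOp, Complex.ofReal_re]
      have h1 : ∑ i, f i ≤ ∑ i, K k * eigp x i := by
        refine Finset.sum_le_sum fun i _ => ?_
        simp only [hf]
        split_ifs with h
        · rw [div_lt_iff₀ hKk] at h
          linarith
        · exact mul_nonneg hKk.le (hp0 i)
      rw [← Finset.mul_sum, hp1, mul_one] at h1
      exact h1
    have hw := weight_bound hΔ hg hψ1 hE (opL (e k) (fOp x f))
      (contr_of_isPr (isPr_opL (e k) hpr)) (hTop k (Finset.mem_range.mp hk) _ hpr htr)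
    rw [nsq_isPr (isPr_opL (e k) hpr), expect_opL, ← hx, trace_redA_fOp,
      Complex.ofReal_re] at hw
    have h2 : ∑ i, eigp x i * clipf (1 / K k) m (eigp x i) ≤ ∑ i, m * (eigp x i * f i) := by
      refine Finset.sum_le_sum fun i _ => ?_
      simp only [hf]
      by_cases h : 1 / K k < eigp x i
      · rw [if_pos h, mul_one, mul_comm m]
        exact mul_le_mul_of_nonneg_left (clipf_le hm) (hp0 i)
      · rw [if_neg h, clipf, if_pos (not_lt.mp h)]
        simp
    rw [← Finset.mul_sum] at h2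
    nlinarith
  have hsum := Finset.sum_le_sum hk
  rw [← Finset.sum_mul] at hsum
  nlinarith

/-- Integration of the derivative bound at maximisers. -/
theorem max_bound {P : Type*} [TopologicalSpace P] [CompactSpace P] [Nonempty P]
    (f : ℝ → P → ℝ) (hcont : Continuous (fun p : ℝ × P => f p.1 p.2)) (c : ℝ)
    (h0 : ∀ π, f 0 π = 0)
    (hD : ∀ t, 0 < t → t ≤ 1 → ∀ π, (∀ π', f t π' ≤ f t π) →
      ∃ D, HasDerivAt (fun s => f s π) D t ∧ D ≤ c) : ∀ π, f 1 π ≤ c := by
  set Fs : ℝ → ℝ := fun t => sSup (f t '' Set.univ) with hFs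
  have hFc : Continuous Fs := IsCompact.continuous_sSup isCompact_univ hcont
  have hft : ∀ t, Continuous (f t) := fun t => hcont.comp (continuous_const.prodMk continuous_id)
  have hle : ∀ t (π : P), f t π ≤ Fs t := fun t π =>
    le_csSup ((isCompact_univ.image (hft t)).bddAbove) ⟨π, Set.mem_univ _, rfl⟩
  have hmx : ∀ t, ∃ π : P, f t π = Fs t := by
    intro t
    obtain ⟨π, -, hπ⟩ := isCompact_univ.exists_isMaxOn Set.univ_nonempty (hft t).continuousOn
    refine ⟨π, le_antisymm (hle t π) ?_⟩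
    refine csSup_le (Set.univ_nonempty.image _) ?_
    rintro _ ⟨π', -, rfl⟩
    exact hπ (Set.mem_univ π')
  have hF0 : Fs 0 = 0 := by
    obtain ⟨π, hπ⟩ := hmx 0
    rw [← hπ, h0]
  have hmain : ∀ ⦃x⦄, x ∈ Set.Icc (0 : ℝ) 1 → (fun u => -Fs (1 - u)) x ≤
      (fun u => -Fs 1 + c * u) x := by
    refine image_le_of_liminf_slope_right_le_deriv_boundary (B' := fun _ => c) ?_ ?_ ?_ ?_ ?_
    · exact (hFc.comp (continuous_const.sub continuous_id)).neg.continuousOn
    · simp
    · exact (continuous_const.add (continuous_const.mul continuous_id)).continuousOn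
    · intro x _
      have : HasDerivAt (fun u : ℝ => -Fs 1 + c * u) c x := by
        simpa using ((hasDerivAt_id x).const_mul c).const_add (-Fs 1)
      exact this.hasDerivWithinAt
    · intro x hx r hr
      set t := 1 - x with ht
      have ht0 : 0 < t := by have := hx.2; linarith
      have ht1 : t ≤ 1 := by have := hx.1; linarith
      obtain ⟨π, hπ⟩ := hmx t
      obtain ⟨D, hDd, hDc⟩ := hD t ht0 ht1 π (fun π' => by rw [hπ]; exact hle t π')
      have hDr : D < r := lt_of_le_of_lt hDc hr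
      have hslope := hasDerivAt_iff_tendsto_slope.mp hDd
      have hev : ∀ᶠ s in nhdsWithin t {t}ᶜ, slope (fun s => f s π) t s < r :=
        hslope.eventually (gt_mem_nhds hDr)
      refine Filter.Eventually.frequently ?_
      have hmap : Filter.Tendsto (fun z : ℝ => 1 - z) (nhdsWithin x (Set.Ioi x))
          (nhdsWithin t {t}ᶜ) := by
        refine tendsto_nhdsWithin_iff.mpr ⟨?_, ?_⟩
        · have : Filter.Tendsto (fun z : ℝ => 1 - z) (nhds x) (nhds (1 - x)) :=
            (continuous_const.sub continuous_id).tendsto x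
          exact this.mono_left nhdsWithin_le_nhds
        · filter_upwards [self_mem_nhdsWithin] with z hz
          have hz' : x < z := hz
          show 1 - z ∈ ({t} : Set ℝ)ᶜ
          simp only [Set.mem_compl_iff, Set.mem_singleton_iff, ht]
          intro hcon
          linarith
      filter_upwards [hmap.eventually hev, self_mem_nhdsWithin] with z hz hzx
      have hz' : x < z := hzx
      refine lt_of_le_of_lt ?_ hz
      rw [slope_def_field, slope_def_field]
      have h1 : f (1 - z) π ≤ Fs (1 - z) := hle (1 - z) π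
      rw [hπ, ht]
      have h3 : (-Fs (1 - z) - -Fs (1 - x)) / (z - x) =
          (Fs (1 - x) - Fs (1 - z)) / (z - x) := by ring
      have h4 : (f (1 - z) π - Fs (1 - x)) / (1 - z - (1 - x)) =
          (Fs (1 - x) - f (1 - z) π) / (z - x) := by
        have : (1 - z - (1 - x)) = -(z - x) := by ring
        rw [this, div_neg, ← neg_div]
        congr 1
        ring
      rw [h3, h4]
      exact div_le_div_of_nonneg_right (by linarith) (by linarith)
  have h1 := hmain (Set.right_mem_Icc.mpr zero_le_one)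
  simp only [sub_self, mul_one, hF0, neg_zero] at h1
  intro π
  have h2 : f 1 π ≤ Fs 1 := hle 1 π
  linarith

theorem FF_zero (e : ∀ k, N ≃ α k × β k) (θ K : ℕ → ℝ) {Ω : N → ℂ} (hΩ : nsq Ω = 1)
    (n : ℕ) {m : ℝ} {π : ∀ k, Par α k} (hπ : π ∈ Feas α m) : FF e θ K Ω n 0 π = 0 := by
  have h1 : ∀ j, YY e θ π 0 j = 1 := by
    intro j
    rw [YY]
    have : (fun i => Real.exp (0 * θ j * (π j).2 i)) = fun _ => (1 : ℝ) := by
      funext i
      simp
    rw [this, dOp_one (hπ j).1, opL_one]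
  have h2 : ∀ n, prR (YY e θ π 0) n = 1 := by
    intro n
    induction n with
    | zero => rfl
    | succ n ih => rw [prR, ih, h1, Matrix.mul_one]
  rw [FF, vv, h2, one_mulVec, hΩ, Real.log_one]
  ring

/-- The energy hypothesis in summed form. -/
theorem energy_sum {n : ℕ} {Z : Type} [Fintype Z] (κ : Z → ℕ) (w : Z → ℝ) (θ : ℕ → ℝ)
    {t b : ℝ} (ht0 : 0 ≤ t) (ht1 : t ≤ 1)
    (hN : 9 * ∑ k ∈ range n, θ k ^ 2 * (∑ z, if κ z = k then w z else 0) ≤ b)
    (hw0 : ∀ z, 0 ≤ w z) :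
    9 * ∑ z, (if κ z < n then (t * θ (κ z)) ^ 2 * w z else 0) ≤ b := by
  refine le_trans ?_ hN
  refine mul_le_mul_of_nonneg_left ?_ (by norm_num)
  have h1 : ∀ z, (if κ z < n then (t * θ (κ z)) ^ 2 * w z else 0) ≤
      ∑ k ∈ range n, θ k ^ 2 * (if κ z = k then w z else 0) := by
    intro z
    by_cases hz : κ z < n
    · rw [if_pos hz, Finset.sum_eq_single (κ z)]
      · rw [if_pos rfl]
        refine mul_le_mul_of_nonneg_right ?_ (hw0 z)
        rw [mul_pow]
        have h2 := sq_nonneg (θ (κ z))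
        have h3 : t ^ 2 ≤ 1 := by nlinarith
        nlinarith
      · intro b _ hb
        rw [if_neg (Ne.symm hb), mul_zero]
      · intro h'
        exact absurd (Finset.mem_range.mpr hz) h'
    · rw [if_neg hz]
      refine Finset.sum_nonneg fun k _ => mul_nonneg (sq_nonneg _) ?_
      split_ifs
      · exact hw0 z
      · exact le_rfl
  refine (Finset.sum_le_sum fun z _ => h1 z).trans (le_of_eq ?_)
  rw [Finset.sum_comm]
  refine Finset.sum_congr rfl fun k _ => ?_
  rw [Finset.mul_sum]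

/-- The upper bound for the functional. -/
theorem tilt_upper (e : ∀ k, N ≃ α k × β k)
    (hcomm : ∀ j k, j ≤ k → ∀ (Y : Matrix (α k) (α k) ℂ) (S : Matrix (β j) (β j) ℂ),
      opL (e k) Y * opR (e j) S = opR (e j) S * opL (e k) Y)
    {H : Matrix N N ℂ} {E Δ : ℝ} {Ω : N → ℂ} (hΔ : 0 < Δ) (hg : Gapped H E Ω Δ)
    (n : ℕ) {Z : Type} [Fintype Z] (h : Z → Matrix N N ℂ) (hH : H = ∑ z, h z) (κ : Z → ℕ)
    (hκR : ∀ z j, j < κ z → ∀ S, h z * opR (e j) S = opR (e j) S * h z)
    (hκL : ∀ z j, κ z < j → j < n → ∀ Y, h z * opL (e j) Y = opL (e j) Y * h z)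
    (w : Z → ℝ) (hw : ∀ z, κ z < n → CutBound (e (κ z)) (h z) (w z))
    (θ K : ℕ → ℝ) (m : ℝ) (hm : 0 ≤ m) (hθ0 : ∀ k, 0 < θ k) (hθ1 : ∀ k, θ k ≤ 1 / 4)
    (hN : 9 * ∑ k ∈ range n, θ k ^ 2 * (∑ z, if κ z = k then w z else 0) ≤ Δ / 32)
    (hw0 : ∀ z, 0 ≤ w z)
    (hK : ∀ k, 0 < K k)
    (hTop : ∀ k < n, ∀ Q : Matrix (α k) (α k) ℂ, IsPr Q → Q.trace.re ≤ K k →
      nsq (opL (e k) Q *ᵥ Ω) ≤ 1 / 16) :
    ∀ π ∈ Feas α m, FF e θ K Ω n 1 π ≤ m / 2 * ∑ k ∈ range n, θ k := by
  have hΩ : nsq Ω = 1 := hg.unit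
  haveI : CompactSpace (Feas α m) := isCompact_iff_compactSpace.mp (isCompact_feas m)
  haveI : Nonempty (Feas α m) := ⟨⟨fun k => (1, fun _ => 0), fun k =>
    ⟨by simp, fun i => ⟨le_rfl, hm⟩⟩⟩⟩
  have hmb := max_bound (P := Feas α m) (fun t π => FF e θ K Ω n t π.1)
    (continuous_FF e θ K hΩ n m) (m / 2 * ∑ k ∈ range n, θ k)
    (fun π => FF_zero e θ K hΩ n π.2) ?_
  · intro π hπ
    exact hmb ⟨π, hπ⟩
  · intro t ht0 ht1 π hmax
    have hform := form_of_max e hcomm θ K hm hθ0 hθ1 hK ht0 ht1 hΩ n π.2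
      (fun π' hπ' => hmax ⟨π', hπ'⟩)
    have hEb := energy_bound e hcomm θ K hm hθ0 hθ1 hK ht0.le ht1 hΩ hg.eig n h hH κ hκR hκL
      w hw π.2 hform
    exact ⟨_, FF_deriv e hcomm θ K hΩ n π.2 hform,
      deriv_le e hm hθ0 hK hΔ hg n hTop π.2
        (hEb.trans (energy_sum κ w θ ht0.le ht1 hN hw0))⟩

end comp

end Vale.Agent.P356.SV
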