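import Vale.Agent.P356.SV.Base

/-!
The recursion over scales, pure combinatorics of rectangles.
-/

set_option linter.all false

namespace Vale.Agent.P356.SV

open Matrix Finset Vale.Agent.P356 Vale.Agent.P356.Path
open scoped BigOperators ComplexOrder Kronecker

theorem b8_mem {L x0 x1 y0 y1 : ℕ} (p : Site L) :
    p ∈ rect L x0 x1 y0 y1 ↔ x0 ≤ p.1.val ∧ p.1.val < x1 ∧ y0 ≤ p.2.val ∧ p.2.val < y1 := by
  unfold rect
  simp only [Finset.mem_filter, Finset.mem_univ, true_and]

theorem b8_inter (L x0 x1 y0 y1 u0 u1 v0 v1 : ℕ) :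
    rect L x0 x1 y0 y1 ∩ rect L u0 u1 v0 v1 =
      rect L (max x0 u0) (min x1 u1) (max y0 v0) (min y1 v1) := by
  ext p
  rw [Finset.mem_inter, b8_mem, b8_mem, b8_mem]
  constructor
  · rintro ⟨⟨h1, h2, h3, h4⟩, h5, h6, h7, h8⟩
    exact ⟨max_le h1 h5, lt_min h2 h6, max_le h3 h7, lt_min h4 h8⟩
  · rintro ⟨h1, h2, h3, h4⟩
    exact ⟨⟨(le_max_left _ _).trans h1, h2.trans_le (min_le_left _ _),
      (le_max_left _ _).trans h3, h4.trans_le (min_le_left _ _)⟩,
      (le_max_right _ _).trans h1, h2.trans_le (min_le_right _ _),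
      (le_max_right _ _).trans h3, h4.trans_le (min_le_right _ _)⟩

theorem b8_clip (L x0 x1 y0 y1 : ℕ) :
    rect L x0 x1 y0 y1 = rect L x0 (min x1 L) y0 (min y1 L) := by
  ext p
  rw [b8_mem, b8_mem]
  have h1 := p.1.isLt
  have h2 := p.2.isLt
  constructor
  · rintro ⟨a, b, c, d⟩
    exact ⟨a, lt_min b h1, c, lt_min d h2⟩
  · rintro ⟨a, b, c, d⟩
    exact ⟨a, b.trans_le (min_le_left _ _), c, d.trans_le (min_le_left _ _)⟩

/-- subadditivity over a disjoint family -/
theorem b8_sub {L : ℕ} {ι : Type*} [DecidableEq ι] (S : Finset (Site L) → ℝ) (hS0 : S ∅ ≤ 0)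
    (hsub : ∀ A B, Disjoint A B → S (A ∪ B) ≤ S A + S B) (I : Finset ι)
    (B : ι → Finset (Site L)) (hB : ∀ i ∈ I, ∀ j ∈ I, i ≠ j → Disjoint (B i) (B j)) :
    S (I.biUnion B) ≤ ∑ i ∈ I, S (B i) := by
  induction I using Finset.induction_on with
  | empty => simpa using hS0
  | insert a s ha ih =>
    rw [Finset.biUnion_insert, Finset.sum_insert ha]
    refine (hsub _ _ ?_).trans ?_
    · rw [Finset.disjoint_biUnion_right]
      intro i hi
      exact hB a (Finset.mem_insert_self _ _) i (Finset.mem_insert_of_mem hi)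
        (fun h => ha (h ▸ hi))
    · have := ih (fun i hi j hj => hB i (Finset.mem_insert_of_mem hi) j
        (Finset.mem_insert_of_mem hj))
      linarith

/-- the grid cell -/
def b8_cell (L l x0 y0 : ℕ) (i : ℕ × ℕ) : Finset (Site L) :=
  rect L (x0 + i.1 * l) (x0 + i.1 * l + l) (y0 + i.2 * l) (y0 + i.2 * l + l)

theorem b8_cell_mem {L l x0 y0 : ℕ} (hl : 0 < l) {p : Site L} (i : ℕ × ℕ) :
    p ∈ b8_cell L l x0 y0 i ↔ x0 ≤ p.1.val ∧ y0 ≤ p.2.val ∧
      (p.1.val - x0) / l = i.1 ∧ (p.2.val - y0) / l = i.2 := by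
  have key : ∀ a z k : ℕ, (z + k * l ≤ a ∧ a < z + k * l + l) ↔ (z ≤ a ∧ (a - z) / l = k) := by
    intro a z k
    constructor
    · rintro ⟨h1, h2⟩
      refine ⟨by linarith [Nat.zero_le (k * l)], ?_⟩
      rw [Nat.div_eq_iff hl]
      have h4 : z ≤ a := by linarith [Nat.zero_le (k * l)]
      constructor
      · omega
      · omega
    · rintro ⟨h1, h2⟩
      rw [Nat.div_eq_iff hl] at h2
      obtain ⟨h3, h4⟩ := h2
      constructor
      · omega
      · omega
  unfold b8_cell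
  rw [b8_mem]
  have h1 := key p.1.val x0 i.1
  have h2 := key p.2.val y0 i.2
  constructor
  · rintro ⟨a, b, c, d⟩
    have e1 := h1.mp ⟨a, b⟩
    have e2 := h2.mp ⟨c, d⟩
    exact ⟨e1.1, e2.1, e1.2, e2.2⟩
  · rintro ⟨a, b, c, d⟩
    have e1 := h1.mpr ⟨a, c⟩
    have e2 := h2.mpr ⟨b, d⟩
    exact ⟨e1.1, e1.2, e2.1, e2.2⟩

theorem b8_cell_disj {L l x0 y0 : ℕ} (hl : 0 < l) {i j : ℕ × ℕ} (h : i ≠ j) :
    Disjoint (b8_cell L l x0 y0 i) (b8_cell L l x0 y0 j) := by
  rw [Finset.disjoint_left]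
  intro p hp hq
  rw [b8_cell_mem hl] at hp hq
  apply h
  ext
  · rw [← hp.2.2.1, ← hq.2.2.1]
  · rw [← hp.2.2.2, ← hq.2.2.2]

/-- one side short: tile -/
theorem b8_tile {L : ℕ} (S : Finset (Site L) → ℝ) (hS0 : S ∅ ≤ 0)
    (hsub : ∀ A B, Disjoint A B → S (A ∪ B) ≤ S A + S B) {l : ℕ} (hl : 0 < l) {F : ℝ}
    (hF : ∀ x0 x1 y0 y1 : ℕ, x1 ≤ x0 + l → y1 ≤ y0 + l → S (rect L x0 x1 y0 y1) ≤ F)
    (a b : ℕ) (x0 x1 y0 y1 : ℕ) (hx : x1 ≤ x0 + a * l) (hy : y1 ≤ y0 + b * l) :
    S (rect L x0 x1 y0 y1) ≤ a * b * F := by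
  have e : rect L x0 x1 y0 y1 = (Finset.range a ×ˢ Finset.range b).biUnion
      (fun i => rect L x0 x1 y0 y1 ∩ b8_cell L l x0 y0 i) := by
    ext p
    rw [Finset.mem_biUnion]
    constructor
    · intro hp
      refine ⟨((p.1.val - x0) / l, (p.2.val - y0) / l), ?_, ?_⟩
      · rw [b8_mem] at hp
        rw [Finset.mem_product, Finset.mem_range, Finset.mem_range]
        constructor
        · show (p.1.val - x0) / l < a
          rw [Nat.div_lt_iff_lt_mul hl]
          omega
        · show (p.2.val - y0) / l < b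
          rw [Nat.div_lt_iff_lt_mul hl]
          omega
      · rw [Finset.mem_inter, b8_cell_mem hl]
        have := (b8_mem p).mp hp
        exact ⟨hp, this.1, this.2.2.1, rfl, rfl⟩
    · rintro ⟨i, _, hi⟩
      exact (Finset.mem_inter.mp hi).1
  rw [e]
  refine (b8_sub S hS0 hsub _ _ ?_).trans ?_
  · intro i _ j _ hij
    exact (b8_cell_disj hl hij).mono Finset.inter_subset_right Finset.inter_subset_right
  · have : ∀ i ∈ (Finset.range a ×ˢ Finset.range b),
        S (rect L x0 x1 y0 y1 ∩ b8_cell L l x0 y0 i) ≤ F := by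
      intro i _
      unfold b8_cell
      rw [b8_inter]
      refine hF _ _ _ _ ?_ ?_
      · have h1 := min_le_right x1 (x0 + i.1 * l + l)
        have h2 := le_max_right x0 (x0 + i.1 * l)
        omega
      · have h1 := min_le_right y1 (y0 + i.2 * l + l)
        have h2 := le_max_right y0 (y0 + i.2 * l)
        omega
    refine (Finset.sum_le_sum this).trans (le_of_eq ?_)
    rw [Finset.sum_const, Finset.card_product, Finset.card_range, Finset.card_range, nsmul_eq_mul]
    push_cast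
    ring

/-- both sides long: tile the complement of the central cell -/
theorem b8_ring {L : ℕ} (S : Finset (Site L) → ℝ) (hS0 : S ∅ ≤ 0)
    (hsub : ∀ A B, Disjoint A B → S (A ∪ B) ≤ S A + S B) {l : ℕ} (hl : 0 < l) {F : ℝ}
    (hF : ∀ x0 x1 y0 y1 : ℕ, x1 ≤ x0 + l → y1 ≤ y0 + l → S (rect L x0 x1 y0 y1) ≤ F)
    (n r : ℕ) (hr : r < n) (x0 x1 y0 y1 : ℕ) (hx : x1 ≤ x0 + n * l) (hy : y1 ≤ y0 + n * l) :
    S (rect L x0 x1 y0 y1 \ rect L (x0 + r * l) (x0 + r * l + l) (y0 + r * l) (y0 + r * l + l)) ≤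
      ((n : ℝ) ^ 2 - 1) * F := by
  have e : rect L x0 x1 y0 y1 \ rect L (x0 + r * l) (x0 + r * l + l) (y0 + r * l)
      (y0 + r * l + l) = ((Finset.range n ×ˢ Finset.range n).erase (r, r)).biUnion
      (fun i => rect L x0 x1 y0 y1 ∩ b8_cell L l x0 y0 i) := by
    ext p
    rw [Finset.mem_biUnion, Finset.mem_sdiff]
    have hc : p ∈ rect L (x0 + r * l) (x0 + r * l + l) (y0 + r * l) (y0 + r * l + l) ↔
      p ∈ b8_cell L l x0 y0 (r, r) := Iff.rfl
    rw [hc]
    constructor
    · rintro ⟨hp, hn⟩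
      refine ⟨((p.1.val - x0) / l, (p.2.val - y0) / l), ?_, ?_⟩
      · have hp' := (b8_mem p).mp hp
        rw [Finset.mem_erase, Finset.mem_product, Finset.mem_range, Finset.mem_range]
        refine ⟨?_, ?_, ?_⟩
        · intro h
          apply hn
          rw [b8_cell_mem hl]
          rw [Prod.mk.injEq] at h
          exact ⟨hp'.1, hp'.2.2.1, h.1, h.2⟩
        · show (p.1.val - x0) / l < n
          rw [Nat.div_lt_iff_lt_mul hl]
          omega
        · show (p.2.val - y0) / l < n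
          rw [Nat.div_lt_iff_lt_mul hl]
          omega
      · rw [Finset.mem_inter, b8_cell_mem hl]
        have := (b8_mem p).mp hp
        exact ⟨hp, this.1, this.2.2.1, rfl, rfl⟩
    · rintro ⟨i, hi0, hi⟩
      rw [Finset.mem_inter] at hi
      refine ⟨hi.1, fun hn => ?_⟩
      have hne := (Finset.mem_erase.mp hi0).1
      exact (Finset.disjoint_left.mp (b8_cell_disj hl hne)) hi.2 hn
  rw [e]
  refine (b8_sub S hS0 hsub _ _ ?_).trans ?_
  · intro i _ j _ hij
    exact (b8_cell_disj hl hij).mono Finset.inter_subset_right Finset.inter_subset_right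
  · have : ∀ i ∈ ((Finset.range n ×ˢ Finset.range n).erase (r, r)),
        S (rect L x0 x1 y0 y1 ∩ b8_cell L l x0 y0 i) ≤ F := by
      intro i _
      unfold b8_cell
      rw [b8_inter]
      refine hF _ _ _ _ ?_ ?_
      · have h1 := min_le_right x1 (x0 + i.1 * l + l)
        have h2 := le_max_right x0 (x0 + i.1 * l)
        omega
      · have h1 := min_le_right y1 (y0 + i.2 * l + l)
        have h2 := le_max_right y0 (y0 + i.2 * l)
        omega
    refine (Finset.sum_le_sum this).trans (le_of_eq ?_)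
    rw [Finset.sum_const, Finset.card_erase_of_mem
      (Finset.mem_product.mpr ⟨Finset.mem_range.mpr hr, Finset.mem_range.mpr hr⟩),
      Finset.card_product, Finset.card_range, nsmul_eq_mul]
    have h1 : 1 ≤ n * n := Nat.mul_pos (by omega) (by omega)
    push_cast [Nat.cast_sub h1]
    ring

/-- BLOCK 8. The recursion over scales (pure combinatorics of rectangles). -/
theorem rect_bound (ρ : ℕ) (hρ : 1 ≤ ρ) (C κ : ℝ) (hC : 0 ≤ C) (hκ : 0 ≤ κ) :
    ∃ c a : ℝ, 0 ≤ c ∧ 0 < a ∧ a < 1 ∧ ∀ (L : ℕ) (S : Finset (Site L) → ℝ),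
      (∀ A, 0 ≤ S A) → (∀ A B, Disjoint A B → S (A ∪ B) ≤ S A + S B) →
      (∀ A, S A ≤ κ * A.card) →
      (∀ l x y x0 x1 y0 y1 : ℕ, 1 ≤ l →
        x0 + ρ * l ≤ x → x + l + ρ * l ≤ x1 → y0 + ρ * l ≤ y → y + l + ρ * l ≤ y1 →
        x1 ≤ L → y1 ≤ L →
        S (rect L x0 x1 y0 y1) ≤ S (rect L x0 x1 y0 y1 \ rect L x (x + l) y (y + l)) +
          1 / 2 * S (rect L x (x + l) y (y + l)) + C * ((x1 : ℝ) - x0 + (y1 - y0))) →
      ∀ s x0 x1 y0 y1 : ℕ, x1 ≤ x0 + s → y1 ≤ y0 + s →
        S (rect L x0 x1 y0 y1) ≤ c * (s : ℝ) ^ (2 - a) := by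
  set n : ℕ := 2 * ρ + 3 with hn
  set lam : ℝ := (n : ℝ) ^ 2 - 1 / 4 with hlam
  have hn5 : (5 : ℝ) ≤ n := by
    rw [hn]; push_cast
    have : (1 : ℝ) ≤ ρ := by exact_mod_cast hρ
    linarith
  have hn0 : (0 : ℝ) < n := by linarith
  have hlam_n : (n : ℝ) < lam := by rw [hlam]; nlinarith
  have hlam0 : 0 < lam := by linarith
  have hlam2 : lam < (n : ℝ) ^ 2 := by rw [hlam]; linarith
  have hlogn : 0 < Real.log n := Real.log_pos (by linarith)
  set t : ℝ := Real.log lam / Real.log n with ht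
  have ht2 : t < 2 := by
    rw [ht, div_lt_iff₀ hlogn]
    have := Real.log_lt_log hlam0 hlam2
    rw [Real.log_pow] at this
    exact_mod_cast this
  have ht1 : 1 < t := by
    rw [ht, lt_div_iff₀ hlogn, one_mul]
    exact Real.log_lt_log hn0 hlam_n
  have hpow : (n : ℝ) ^ t = lam := by
    rw [Real.rpow_def_of_pos hn0, ht, mul_div_cancel₀ _ hlogn.ne', Real.exp_log hlam0]
  set c0 : ℝ := κ + 8 * C * n with hc0
  have hc00 : 0 ≤ c0 := by positivity
  refine ⟨c0 * lam, 2 - t, by positivity, by linarith, by linarith, ?_⟩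
  intro L S hnn hsub hcard hcon
  have hS0 : S ∅ ≤ 0 := by
    have := hcard ∅
    simpa using this
  -- main induction
  have main : ∀ k x0 x1 y0 y1 : ℕ, x1 ≤ x0 + n ^ k → y1 ≤ y0 + n ^ k →
      S (rect L x0 x1 y0 y1) ≤ c0 * lam ^ k := by
    intro k
    induction k with
    | zero =>
      intro x0 x1 y0 y1 hx hy
      have h1 : (rect L x0 x1 y0 y1).card ≤ 1 := by
        rw [Finset.card_le_one]
        intro p hp q hq
        rw [b8_mem] at hp hq
        rw [pow_zero] at hx hy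
        ext
        · omega
        · omega
      have h2 : ((rect L x0 x1 y0 y1).card : ℝ) ≤ 1 := by exact_mod_cast h1
      have h3 := hcard (rect L x0 x1 y0 y1)
      rw [pow_zero, mul_one]
      have h4 : κ * ((rect L x0 x1 y0 y1).card : ℝ) ≤ κ * 1 := mul_le_mul_of_nonneg_left h2 hκ
      have h5 : 0 ≤ 8 * C * n := by positivity
      linarith
    | succ k ih =>
      intro x0 x1' y0 y1' hx' hy'
      rw [b8_clip]
      set x1 := min x1' L with hx1
      set y1 := min y1' L with hy1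
      set l := n ^ k with hl
      have hl0 : 0 < l := by
        rw [hl]; exact pow_pos (by omega) k
      have hpk : n ^ (k + 1) = n * l := by rw [hl, pow_succ, mul_comm]
      rw [hpk] at hx' hy'
      have hx : x1 ≤ x0 + n * l := (min_le_left _ _).trans hx'
      have hy : y1 ≤ y0 + n * l := (min_le_left _ _).trans hy'
      have hxL : x1 ≤ L := min_le_right _ _
      have hyL : y1 ≤ L := min_le_right _ _
      set F : ℝ := c0 * lam ^ k with hF
      have hF0 : 0 ≤ F := by positivity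
      have hgoal : (((n : ℝ) ^ 2 - 1 / 2) * F + 2 * C * n * l) ≤ c0 * lam ^ (k + 1) := by
        have h1 : (l : ℝ) ≤ lam ^ k := by
          rw [hl]; push_cast
          exact pow_le_pow_left₀ hn0.le hlam_n.le k
        have h2 : 2 * C * n * l ≤ 1 / 4 * (c0 * lam ^ k) := by
          have h3 : 2 * C * n * l ≤ 2 * C * n * lam ^ k :=
            mul_le_mul_of_nonneg_left h1 (by positivity)
          have h4 : 2 * C * n ≤ 1 / 4 * c0 := by rw [hc0]; linarith
          have h5 := mul_le_mul_of_nonneg_right h4 (pow_pos hlam0 k).le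
          linarith
        have h6 : c0 * lam ^ (k + 1) = ((n : ℝ) ^ 2 - 1 / 2) * F + 1 / 4 * (c0 * lam ^ k) := by
          rw [hF, pow_succ, hlam]; ring
        linarith
      have hcl : 0 ≤ 2 * C * n * (l : ℝ) := by positivity
      by_cases hxs : x1 ≤ x0 + (n - 1) * l
      · have h1 := b8_tile S hS0 hsub hl0 ih (n - 1) n x0 x1 y0 y1 hxs hy
        have h2 : ((n - 1 : ℕ) : ℝ) = n - 1 := by
          rw [Nat.cast_sub (by omega)]; norm_num
        rw [h2] at h1
        have h3 : ((n : ℝ) - 1) * n * F ≤ ((n : ℝ) ^ 2 - 1 / 2) * F :=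
          mul_le_mul_of_nonneg_right (by nlinarith) hF0
        linarith
      · by_cases hys : y1 ≤ y0 + (n - 1) * l
        · have h1 := b8_tile S hS0 hsub hl0 ih n (n - 1) x0 x1 y0 y1 hx hys
          have h2 : ((n - 1 : ℕ) : ℝ) = n - 1 := by
            rw [Nat.cast_sub (by omega)]; norm_num
          rw [h2] at h1
          have h3 : (n : ℝ) * (n - 1) * F ≤ ((n : ℝ) ^ 2 - 1 / 2) * F :=
            mul_le_mul_of_nonneg_right (by nlinarith) hF0
          linarith
        · -- long sides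
          have hring := b8_ring S hS0 hsub hl0 ih n (ρ + 1) (by omega) x0 x1 y0 y1 hx hy
          have hn1 : (n - 1) * l = (ρ + 1) * l + l + ρ * l := by
            have : n - 1 = (ρ + 1) + 1 + ρ := by omega
            rw [this]; ring
          rw [hn1] at hxs hys
          have hr1 : (ρ + 1) * l = ρ * l + l := by ring
          have h1 := hcon l (x0 + (ρ + 1) * l) (y0 + (ρ + 1) * l) x0 x1 y0 y1 hl0
            (by omega) (by omega) (by omega) (by omega) hxL hyL
          have h2 := ih (x0 + (ρ + 1) * l) (x0 + (ρ + 1) * l + l) (y0 + (ρ + 1) * l)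
            (y0 + (ρ + 1) * l + l) le_rfl le_rfl
          have h3 : (x1 : ℝ) - x0 + (y1 - y0) ≤ 2 * n * l := by
            have e1 : (x1 : ℝ) ≤ x0 + n * l := by exact_mod_cast hx
            have e2 : (y1 : ℝ) ≤ y0 + n * l := by exact_mod_cast hy
            linarith
          have h4 : C * ((x1 : ℝ) - x0 + (y1 - y0)) ≤ C * (2 * n * l) :=
            mul_le_mul_of_nonneg_left h3 hC
          have h5 : c0 * lam ^ k = F := rfl
          nlinarith
  -- conclusion
  intro s x0 x1 y0 y1 hx hy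
  rcases Nat.eq_zero_or_pos s with hs | hs
  · have : rect L x0 x1 y0 y1 = ∅ := by
      rw [Finset.eq_empty_iff_forall_notMem]
      intro p hp
      rw [b8_mem] at hp
      omega
    rw [this]
    refine hS0.trans ?_
    positivity
  · have hnb : 1 < n := by omega
    set k := Nat.log n s + 1 with hk
    have h1 : s ≤ n ^ k := (Nat.lt_pow_succ_log_self hnb s).le
    have h2 : n ^ k ≤ n * s := by
      rw [hk, pow_succ, mul_comm]
      exact Nat.mul_le_mul_left n (Nat.pow_log_le_self n (by omega))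
    have h3 := main k x0 x1 y0 y1 (by omega) (by omega)
    have hs0 : (0 : ℝ) < s := by exact_mod_cast hs
    have h4 : lam ^ k ≤ lam * (s : ℝ) ^ t := by
      have e1 : lam ^ k = ((n : ℝ) ^ k) ^ t := by
        rw [← hpow, ← Real.rpow_natCast, ← Real.rpow_natCast, ← Real.rpow_mul hn0.le,
          ← Real.rpow_mul hn0.le, mul_comm]
      have e2 : (n : ℝ) ^ k ≤ n * s := by exact_mod_cast h2
      have e3 : ((n : ℝ) ^ k) ^ t ≤ ((n : ℝ) * s) ^ t :=
        Real.rpow_le_rpow (by positivity) e2 (by linarith)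
      rw [e1]
      refine e3.trans (le_of_eq ?_)
      rw [Real.mul_rpow hn0.le hs0.le, hpow]
    have h5 : (2 : ℝ) - (2 - t) = t := by ring
    rw [h5]
    calc S (rect L x0 x1 y0 y1) ≤ c0 * lam ^ k := h3
      _ ≤ c0 * (lam * (s : ℝ) ^ t) := mul_le_mul_of_nonneg_left h4 hc00
      _ = _ := by ring

end Vale.Agent.P356.SV
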