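import Vale.Agent.P356.SV.Base

/-!
Block 9 of the sub-volume law: from squares to arbitrary regions (pure combinatorics).
-/

set_option linter.all false

namespace Vale.Agent.P356.SV

open Finset Vale.Agent.P356

/-- fibrewise subadditivity -/
theorem b9_fiber {V ι : Type*} [Fintype V] [DecidableEq V] [DecidableEq ι] (S : Finset V → ℝ)
    (h0 : S ∅ ≤ 0) (hS : ∀ A B, Disjoint A B → S (A ∪ B) ≤ S A + S B) (g : V → ι) (T : Finset ι) :
    ∀ A : Finset V, (∀ p ∈ A, g p ∈ T) → S A ≤ ∑ t ∈ T, S (A.filter (fun p => g p = t)) := by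
  classical
  induction T using Finset.induction_on with
  | empty =>
    intro A hA
    have : A = ∅ := by
      apply Finset.eq_empty_of_forall_notMem
      intro p hp
      exact absurd (hA p hp) (Finset.notMem_empty _)
    subst this
    simpa using h0
  | insert t T ht ih =>
    intro A hA
    rw [Finset.sum_insert ht]
    have hsplit : A = A.filter (fun p => g p = t) ∪ A.filter (fun p => ¬ g p = t) :=
      (Finset.filter_union_filter_not_eq (fun p => g p = t) A).symm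
    have hd : Disjoint (A.filter (fun p => g p = t)) (A.filter (fun p => ¬ g p = t)) :=
      Finset.disjoint_filter_filter_not _ _ _
    have h1 : S A ≤ S (A.filter (fun p => g p = t)) + S (A.filter (fun p => ¬ g p = t)) := by
      have := hS _ _ hd
      rwa [← hsplit] at this
    have h2 := ih (A.filter (fun p => ¬ g p = t)) (by
      intro p hp
      rw [Finset.mem_filter] at hp
      have := hA p hp.1
      rw [Finset.mem_insert] at this
      rcases this with h | h
      · exact absurd h hp.2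
      · exact h)
    have h3 : ∑ x ∈ T, S ((A.filter (fun p => ¬ g p = t)).filter (fun p => g p = x)) =
        ∑ x ∈ T, S (A.filter (fun p => g p = x)) := by
      apply Finset.sum_congr rfl
      intro x hx
      congr 1
      ext p
      simp only [Finset.mem_filter]
      constructor
      · rintro ⟨⟨h1, h2⟩, h3⟩; exact ⟨h1, h3⟩
      · rintro ⟨h1, h3⟩
        refine ⟨⟨h1, ?_⟩, h3⟩
        intro h4
        exact ht (by rw [← h4, h3]; exact hx)
    rw [h3] at h2
    linarith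

/-- in a discrete interval a colour change happens between neighbours -/
theorem b9_adj {L : ℕ} (f : Fin L → Prop) : ∀ (n : ℕ) (u v : Fin L), f u → ¬ f v →
    ((u : ℤ) - (v : ℤ)).natAbs ≤ n →
    ∃ p p' : Fin L, f p ∧ ¬ f p' ∧ ((p : ℤ) - (p' : ℤ)).natAbs = 1 ∧
      (min u v ≤ p ∧ p ≤ max u v) ∧ (min u v ≤ p' ∧ p' ≤ max u v) := by
  intro n
  induction n with
  | zero =>
    intro u v hu hv h
    have : u = v := by
      apply Fin.ext
      omega
    subst this
    exact absurd hu hv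
  | succ n ih =>
    intro u v hu hv h
    have hne : u ≠ v := by
      rintro rfl
      exact hv hu
    have hne' : (u : ℕ) ≠ (v : ℕ) := fun h => hne (Fin.ext h)
    rcases lt_or_gt_of_ne hne' with hlt | hlt
    · have hL : (u : ℕ) + 1 < L := by have := v.2; omega
      by_cases hw : f ⟨(u : ℕ) + 1, hL⟩
      · obtain ⟨p, p', h1, h2, h3, h4, h5⟩ := ih ⟨(u : ℕ) + 1, hL⟩ v hw hv (by
          simp only; push_cast; omega)
        refine ⟨p, p', h1, h2, h3, ?_, ?_⟩
        · simp only [Fin.le_def, min_le_iff, le_max_iff] at h4 ⊢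
          omega
        · simp only [Fin.le_def, min_le_iff, le_max_iff] at h5 ⊢
          omega
      · refine ⟨u, ⟨(u : ℕ) + 1, hL⟩, hu, hw, ?_, ?_, ?_⟩
        · simp only; push_cast; omega
        · simp only [Fin.le_def, min_le_iff, le_max_iff]; omega
        · simp only [Fin.le_def, min_le_iff, le_max_iff]; omega
    · have hL : (u : ℕ) - 1 < L := by have := u.2; omega
      by_cases hw : f ⟨(u : ℕ) - 1, hL⟩
      · obtain ⟨p, p', h1, h2, h3, h4, h5⟩ := ih ⟨(u : ℕ) - 1, hL⟩ v hw hv (by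
          simp only; omega)
        refine ⟨p, p', h1, h2, h3, ?_, ?_⟩
        · simp only [Fin.le_def, min_le_iff, le_max_iff] at h4 ⊢
          omega
        · simp only [Fin.le_def, min_le_iff, le_max_iff] at h5 ⊢
          omega
      · refine ⟨u, ⟨(u : ℕ) - 1, hL⟩, hu, hw, ?_, ?_, ?_⟩
        · simp only; omega
        · simp only [Fin.le_def, min_le_iff, le_max_iff]; omega
        · simp only [Fin.le_def, min_le_iff, le_max_iff]; omega

/-- boundary edges of `A` inside `Q` -/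
def b9_bin {L : ℕ} (A Q : Finset (Site L)) : Finset (Site L × Site L) :=
  (Finset.univ : Finset (Site L × Site L)).filter
    (fun p => p.1 ∈ A ∧ p.2 ∉ A ∧ dist1 p.1 p.2 = 1 ∧ p.1 ∈ Q ∧ p.2 ∈ Q)

theorem b9_iso {L : ℕ} (A : Finset (Site L)) (X Y : Finset (Fin L))
    (hX : ∀ u ∈ X, ∀ v ∈ X, ∀ w, min u v ≤ w → w ≤ max u v → w ∈ X)
    (hY : ∀ u ∈ Y, ∀ v ∈ Y, ∀ w, min u v ≤ w → w ≤ max u v → w ∈ Y) :
    4 * (A ∩ (X ×ˢ Y)).card ≤ (b9_bin A (X ×ˢ Y)).card ^ 2 ∨
    4 * ((X ×ˢ Y) \ A).card ≤ (b9_bin A (X ×ˢ Y)).card ^ 2 ∨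
    X.card ≤ (b9_bin A (X ×ˢ Y)).card ∨ Y.card ≤ (b9_bin A (X ×ˢ Y)).card := by
  classical
  set E := b9_bin A (X ×ˢ Y) with hE
  set R : Finset (Fin L) := Y.filter (fun y => (∃ u ∈ X, (u, y) ∈ A) ∧ ∃ v ∈ X, (v, y) ∉ A) with hR
  set K : Finset (Fin L) := X.filter (fun x => (∃ u ∈ Y, (x, u) ∈ A) ∧ ∃ v ∈ Y, (x, v) ∉ A) with hK
  have hRE : R ⊆ (E.filter (fun e => e.1.2 = e.2.2)).image (fun e => e.1.2) := by
    intro y hy
    rw [hR, Finset.mem_filter] at hy
    obtain ⟨hyY, ⟨u, huX, hu⟩, v, hvX, hv⟩ := hy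
    obtain ⟨p, p', h1, h2, h3, h4, h5⟩ := b9_adj (fun x => (x, y) ∈ A) _ u v hu hv le_rfl
    rw [Finset.mem_image]
    refine ⟨((p, y), (p', y)), ?_, rfl⟩
    rw [Finset.mem_filter]
    refine ⟨?_, rfl⟩
    rw [hE, b9_bin, Finset.mem_filter]
    refine ⟨Finset.mem_univ _, h1, h2, ?_, ?_, ?_⟩
    · simp only [dist1, sub_self, Int.natAbs_zero, add_zero]; exact h3
    · rw [Finset.mem_product]; exact ⟨hX u huX v hvX p h4.1 h4.2, hyY⟩
    · rw [Finset.mem_product]; exact ⟨hX u huX v hvX p' h5.1 h5.2, hyY⟩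
  have hKE : K ⊆ (E.filter (fun e => ¬ e.1.2 = e.2.2)).image (fun e => e.1.1) := by
    intro x hx
    rw [hK, Finset.mem_filter] at hx
    obtain ⟨hxX, ⟨u, huY, hu⟩, v, hvY, hv⟩ := hx
    obtain ⟨p, p', h1, h2, h3, h4, h5⟩ := b9_adj (fun y => (x, y) ∈ A) _ u v hu hv le_rfl
    rw [Finset.mem_image]
    refine ⟨((x, p), (x, p')), ?_, rfl⟩
    rw [Finset.mem_filter]
    refine ⟨?_, ?_⟩
    · rw [hE, b9_bin, Finset.mem_filter]
      refine ⟨Finset.mem_univ _, h1, h2, ?_, ?_, ?_⟩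
      · simp only [dist1, sub_self, Int.natAbs_zero, zero_add]; exact h3
      · rw [Finset.mem_product]; exact ⟨hxX, hY u huY v hvY p h4.1 h4.2⟩
      · rw [Finset.mem_product]; exact ⟨hxX, hY u huY v hvY p' h5.1 h5.2⟩
    · simp only
      rintro rfl
      simp at h3
  have hsum : R.card + K.card ≤ E.card := by
    have h1 := (Finset.card_le_card hRE).trans Finset.card_image_le
    have h2 := (Finset.card_le_card hKE).trans Finset.card_image_le
    have h3 := Finset.card_filter_add_card_filter_not (s := E) (fun e => e.1.2 = e.2.2)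
    omega
  by_cases hr : Y.card ≤ R.card
  · right; right; right; omega
  by_cases hk : X.card ≤ K.card
  · right; right; left; omega
  have hRY : R ⊆ Y := Finset.filter_subset _ _
  have hKX : K ⊆ X := Finset.filter_subset _ _
  obtain ⟨y0, hy0, hy0'⟩ : ∃ y ∈ Y, y ∉ R := by
    by_contra hcon
    push Not at hcon
    exact hr (Finset.card_le_card hcon)
  obtain ⟨x0, hx0, hx0'⟩ : ∃ x ∈ X, x ∉ K := by
    by_contra hcon
    push Not at hcon
    exact hk (Finset.card_le_card hcon)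
  have hbound : K.card * R.card * 4 ≤ E.card ^ 2 := by
    have : (K.card * R.card * 4 : ℤ) ≤ (E.card : ℤ) ^ 2 := by
      have h1 : ((R.card : ℤ) + K.card) ≤ E.card := by exact_mod_cast hsum
      nlinarith [sq_nonneg ((R.card : ℤ) - K.card), Int.natCast_nonneg R.card,
        Int.natCast_nonneg K.card]
    exact_mod_cast this
  by_cases h00 : (x0, y0) ∈ A
  · right; left
    have hsub : (X ×ˢ Y) \ A ⊆ K ×ˢ R := by
      rintro ⟨x, y⟩ hp
      rw [Finset.mem_sdiff, Finset.mem_product] at hp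
      obtain ⟨⟨hx, hy⟩, hA⟩ := hp
      simp only at hx hy
      rw [Finset.mem_product]
      constructor
      · rw [hK, Finset.mem_filter]
        refine ⟨hx, ⟨y0, hy0, ?_⟩, y, hy, hA⟩
        by_contra hcon
        exact hy0' (by rw [hR, Finset.mem_filter]; exact ⟨hy0, ⟨x0, hx0, h00⟩, x, hx, hcon⟩)
      · rw [hR, Finset.mem_filter]
        refine ⟨hy, ⟨x0, hx0, ?_⟩, x, hx, hA⟩
        by_contra hcon
        exact hx0' (by rw [hK, Finset.mem_filter]; exact ⟨hx0, ⟨y0, hy0, h00⟩, y, hy, hcon⟩)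
    have := Finset.card_le_card hsub
    rw [Finset.card_product] at this
    omega
  · left
    have hsub : A ∩ (X ×ˢ Y) ⊆ K ×ˢ R := by
      rintro ⟨x, y⟩ hp
      rw [Finset.mem_inter, Finset.mem_product] at hp
      obtain ⟨hA, hx, hy⟩ := hp
      simp only at hx hy
      rw [Finset.mem_product]
      constructor
      · rw [hK, Finset.mem_filter]
        refine ⟨hx, ⟨y, hy, hA⟩, y0, hy0, ?_⟩
        intro hcon
        exact hy0' (by rw [hR, Finset.mem_filter]; exact ⟨hy0, ⟨x, hx, hcon⟩, x0, hx0, h00⟩)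
      · rw [hR, Finset.mem_filter]
        refine ⟨hy, ⟨x, hx, hA⟩, x0, hx0, ?_⟩
        intro hcon
        exact hx0' (by rw [hK, Finset.mem_filter]; exact ⟨hx0, ⟨y, hy, hcon⟩, y0, hy0, h00⟩)
    have := Finset.card_le_card hsub
    rw [Finset.card_product] at this
    omega


/-- the boundary set -/
def b9_bd {L : ℕ} (A : Finset (Site L)) : Finset (Site L × Site L) :=
  (Finset.univ : Finset (Site L × Site L)).filter
    (fun p => p.1 ∈ A ∧ p.2 ∉ A ∧ dist1 p.1 p.2 = 1)

theorem b9_bd_card {L : ℕ} (A : Finset (Site L)) : (b9_bd A).card = bdry A := rfl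

theorem b9_bdry_compl {L : ℕ} (A : Finset (Site L)) : bdry Aᶜ = bdry A := by
  classical
  unfold bdry
  apply Finset.card_bij (fun p _ => (p.2, p.1))
  · rintro ⟨p, p'⟩ hp
    simp only [Finset.mem_filter, Finset.mem_univ, true_and, Finset.mem_compl, not_not] at hp ⊢
    refine ⟨hp.2.1, hp.1, ?_⟩
    have := hp.2.2
    unfold dist1 at this ⊢
    omega
  · rintro ⟨p, p'⟩ _ ⟨r, r'⟩ _ h
    simp only [Prod.mk.injEq] at h
    rw [h.1, h.2]
  · rintro ⟨p, p'⟩ hp
    refine ⟨(p', p), ?_, rfl⟩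
    simp only [Finset.mem_filter, Finset.mem_univ, true_and, Finset.mem_compl, not_not] at hp ⊢
    refine ⟨hp.2.1, hp.1, ?_⟩
    have := hp.2.2
    unfold dist1 at this ⊢
    omega

theorem b9_card_fin {L a b : ℕ} (hb : b ≤ L) :
    ((Finset.univ : Finset (Fin L)).filter (fun t => a ≤ t.val ∧ t.val < b)).card = b - a := by
  rw [← Nat.card_Ico]
  apply Finset.card_bij (fun t _ => t.val)
  · intro t ht
    rw [Finset.mem_filter] at ht
    rw [Finset.mem_Ico]; exact ht.2
  · intro t _ t' _ h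
    exact Fin.ext h
  · intro m hm
    rw [Finset.mem_Ico] at hm
    exact ⟨⟨m, by omega⟩, by rw [Finset.mem_filter]; exact ⟨Finset.mem_univ _, hm⟩, rfl⟩

theorem b9_rect_prod (L x0 x1 y0 y1 : ℕ) : rect L x0 x1 y0 y1 =
    ((Finset.univ : Finset (Fin L)).filter (fun t => x0 ≤ t.val ∧ t.val < x1)) ×ˢ
    ((Finset.univ : Finset (Fin L)).filter (fun t => y0 ≤ t.val ∧ t.val < y1)) := by
  ext ⟨x, y⟩
  simp only [rect, Finset.mem_filter, Finset.mem_univ, true_and, Finset.mem_product]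
  tauto

theorem b9_interval {L a b : ℕ} : ∀ u ∈ ((Finset.univ : Finset (Fin L)).filter
      (fun t => a ≤ t.val ∧ t.val < b)),
    ∀ v ∈ ((Finset.univ : Finset (Fin L)).filter (fun t => a ≤ t.val ∧ t.val < b)), ∀ w,
      min u v ≤ w → w ≤ max u v →
      w ∈ ((Finset.univ : Finset (Fin L)).filter (fun t => a ≤ t.val ∧ t.val < b)) := by
  intro u hu v hv w h1 h2
  simp only [Finset.mem_filter, Finset.mem_univ, true_and, Fin.le_def, min_le_iff,
    le_max_iff] at *
  omega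

/-- cost of one tile -/
theorem b9_tile {L : ℕ} (S : Finset (Site L) → ℝ) {κ D : ℝ} (hκ : 0 ≤ κ) (hD : 0 ≤ D)
    (hS0 : ∀ A, 0 ≤ S A)
    (hS : ∀ A B, Disjoint A B → S (A ∪ B) ≤ S A + S B) (hc : ∀ A, S Aᶜ = S A)
    (hcard : ∀ A, S A ≤ κ * A.card) (A : Finset (Site L)) (X Y : Finset (Fin L))
    (hX : ∀ u ∈ X, ∀ v ∈ X, ∀ w, min u v ≤ w → w ≤ max u v → w ∈ X)
    (hY : ∀ u ∈ Y, ∀ v ∈ Y, ∀ w, min u v ≤ w → w ≤ max u v → w ∈ Y)
    {s : ℕ} (hs : 1 ≤ s) (hX1 : s ≤ X.card) (hX2 : X.card ≤ 2 * s) (hY1 : s ≤ Y.card)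
    (hY2 : Y.card ≤ 2 * s) (hQ : S (X ×ˢ Y) ≤ D) :
    S (A ∩ (X ×ˢ Y)) ≤ 4 * κ * s * (b9_bin A (X ×ˢ Y)).card +
      D * (2 * (A ∩ (X ×ˢ Y)).card / (s : ℝ) ^ 2) := by
  classical
  have hs' : (1 : ℝ) ≤ s := by exact_mod_cast hs
  set b := (b9_bin A (X ×ˢ Y)).card with hb
  have hD2 : 0 ≤ D * (2 * (A ∩ (X ×ˢ Y)).card / (s : ℝ) ^ 2) := by positivity
  by_cases hbs : s ≤ b
  · have h1 : (A ∩ (X ×ˢ Y)).card ≤ 4 * s * b := by
      have h2 : (A ∩ (X ×ˢ Y)).card ≤ (X ×ˢ Y).card :=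
        Finset.card_le_card Finset.inter_subset_right
      rw [Finset.card_product] at h2
      have h3 : X.card * Y.card ≤ (2 * s) * (2 * s) := Nat.mul_le_mul hX2 hY2
      have h4 : s * s ≤ s * b := Nat.mul_le_mul_left _ hbs
      nlinarith
    have h5 : S (A ∩ (X ×ˢ Y)) ≤ κ * ((4 * s * b : ℕ) : ℝ) :=
      (hcard _).trans (mul_le_mul_of_nonneg_left (by exact_mod_cast h1) hκ)
    push_cast at h5
    nlinarith
  · push Not at hbs
    have hbR : (b : ℝ) ≤ s := by exact_mod_cast hbs.le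
    have hb0 : (0 : ℝ) ≤ b := Nat.cast_nonneg _
    have hsm : ∀ B : Finset (Site L), 4 * B.card ≤ b ^ 2 → S B ≤ 4 * κ * s * b := by
      intro B hB
      have h1 : (4 : ℝ) * B.card ≤ (b : ℝ) ^ 2 := by exact_mod_cast hB
      have h2 := hcard B
      have h3 : (B.card : ℝ) ≤ 4 * s * b := by nlinarith
      calc S B ≤ κ * B.card := h2
        _ ≤ κ * (4 * s * b) := mul_le_mul_of_nonneg_left h3 hκ
        _ = _ := by ring
    rcases b9_iso A X Y hX hY with h | h | h | h
    · have := hsm _ h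
      linarith
    · have h1 := hsm _ h
      -- complement formula
      have h2 : A ∩ (X ×ˢ Y) = ((X ×ˢ Y)ᶜ ∪ ((X ×ˢ Y) \ A))ᶜ := by
        ext p
        simp only [Finset.mem_inter, Finset.mem_compl, Finset.mem_union, Finset.mem_sdiff]
        tauto
      have h3 : S (A ∩ (X ×ˢ Y)) ≤ D + S ((X ×ˢ Y) \ A) := by
        rw [h2, hc]
        have h4 : Disjoint (X ×ˢ Y)ᶜ ((X ×ˢ Y) \ A) := by
          rw [Finset.disjoint_left]
          intro p hp hp'
          rw [Finset.mem_compl] at hp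
          rw [Finset.mem_sdiff] at hp'
          exact hp hp'.1
        have h5 := hS _ _ h4
        rw [hc] at h5
        linarith
      have h6 : (s : ℝ) ^ 2 ≤ 2 * (A ∩ (X ×ˢ Y)).card := by
        have h7 : (A ∩ (X ×ˢ Y)).card + ((X ×ˢ Y) \ A).card = X.card * Y.card := by
          rw [← Finset.card_product, Finset.inter_comm]
          exact Finset.card_inter_add_card_sdiff _ _
        have h8 : s * s ≤ X.card * Y.card := Nat.mul_le_mul hX1 hY1
        have h9 : b ^ 2 ≤ s * s := by nlinarith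
        have h10 : s ^ 2 ≤ 2 * (A ∩ (X ×ˢ Y)).card := by
          have : b ^ 2 ≤ s * s := h9
          nlinarith
        exact_mod_cast h10
      have h11 : D ≤ D * (2 * (A ∩ (X ×ˢ Y)).card / (s : ℝ) ^ 2) := by
        have h12 : 1 ≤ 2 * ((A ∩ (X ×ˢ Y)).card : ℝ) / (s : ℝ) ^ 2 := by
          rw [le_div_iff₀ (by positivity)]
          linarith
        nlinarith
      linarith
    · omega
    · omega

/-- tile index of a coordinate -/
def b9_ix (s k t : ℕ) : ℕ := min (t / s) (k - 1)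

theorem b9_ix_iff {s L : ℕ} (hs : 1 ≤ s) (hsL : s ≤ L) {i : ℕ} (hi : i < L / s) (t : Fin L) :
    b9_ix s (L / s) t = i ↔
      i * s ≤ t.val ∧ t.val < (if i + 1 = L / s then L else (i + 1) * s) := by
  have hk : 1 ≤ L / s := (Nat.one_le_div_iff (by omega)).2 hsL
  have ht := t.2
  unfold b9_ix
  split_ifs with h
  · constructor
    · intro h1
      have h2 : i ≤ t / s := by omega
      refine ⟨?_, ht⟩
      exact (Nat.le_div_iff_mul_le (by omega)).1 h2
    · rintro ⟨h1, -⟩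
      have h2 : i ≤ t / s := (Nat.le_div_iff_mul_le (by omega)).2 h1
      omega
  · constructor
    · intro h1
      have h2 : t / s = i := by omega
      constructor
      · exact (Nat.le_div_iff_mul_le (by omega)).1 h2.ge
      · exact (Nat.div_lt_iff_lt_mul (by omega)).1 (by omega)
    · rintro ⟨h1, h3⟩
      have h2 : i ≤ t / s := (Nat.le_div_iff_mul_le (by omega)).2 h1
      have h4 : t / s < i + 1 := (Nat.div_lt_iff_lt_mul (by omega)).2 h3
      omega

theorem b9_main {L : ℕ} (S : Finset (Site L) → ℝ) {κ c a : ℝ} (hκ : 0 ≤ κ) (hc0 : 0 ≤ c)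
    (ha : 0 < a) (ha1 : a < 1)
    (hS0 : ∀ A, 0 ≤ S A)
    (hS : ∀ A B, Disjoint A B → S (A ∪ B) ≤ S A + S B) (hc : ∀ A, S Aᶜ = S A)
    (hcard : ∀ A, S A ≤ κ * A.card)
    (hrect : ∀ s x0 x1 y0 y1 : ℕ, x1 ≤ x0 + s → y1 ≤ y0 + s →
        S (rect L x0 x1 y0 y1) ≤ c * (s : ℝ) ^ (2 - a))
    (A : Finset (Site L)) {s : ℕ} (hs : 1 ≤ s) (hsL : s ≤ L) :
    S A ≤ 4 * κ * s * bdry A + 8 * c * (s : ℝ) ^ (-a) * A.card := by
  classical
  have hs0 : (0 : ℝ) < s := by exact_mod_cast hs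
  have hk : 1 ≤ L / s := (Nat.one_le_div_iff (by omega)).2 hsL
  set k := L / s with hkdef
  set g : Site L → ℕ × ℕ := fun p => (b9_ix s k p.1, b9_ix s k p.2) with hg
  set T : Finset (ℕ × ℕ) := range k ×ˢ range k with hT
  have hgT : ∀ p : Site L, g p ∈ T := by
    intro p
    simp only [hg, hT, Finset.mem_product, Finset.mem_range, b9_ix]
    omega
  have h1 := b9_fiber S (by simpa using hcard ∅) hS g T A (fun p _ => hgT p)
  set e : ℕ → ℕ := fun i => if i + 1 = k then L else (i + 1) * s with he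
  have heL : ∀ i < k, e i ≤ L := by
    intro i hi
    simp only [he]
    split_ifs with h
    · exact le_rfl
    · calc (i + 1) * s ≤ k * s := Nat.mul_le_mul_right _ (by omega)
        _ ≤ L := Nat.div_mul_le_self L s
  have he1 : ∀ i < k, i * s + s ≤ e i := by
    intro i hi
    simp only [he]
    split_ifs with h
    · calc i * s + s = (i + 1) * s := by ring
        _ = k * s := by rw [h]
        _ ≤ L := Nat.div_mul_le_self L s
    · exact le_of_eq (by ring)
  have he2 : ∀ i < k, e i ≤ i * s + 2 * s := by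
    intro i hi
    simp only [he]
    split_ifs with h
    · have : L < (L / s + 1) * s := by
        rw [mul_comm]; exact Nat.lt_mul_div_succ L (by omega)
      rw [← hkdef, ← h] at this
      have h2 : (i + 1 + 1) * s = i * s + 2 * s := by ring
      omega
    · have : (i + 1) * s = i * s + s := by ring
      omega
  set X : ℕ → Finset (Fin L) := fun i =>
    (Finset.univ : Finset (Fin L)).filter (fun t => i * s ≤ t.val ∧ t.val < e i) with hX
  have hXc : ∀ i < k, (X i).card = e i - i * s := fun i hi => b9_card_fin (heL i hi)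
  have hfil : ∀ B : Finset (Site L), ∀ t ∈ T, B.filter (fun p => g p = t) =
      B ∩ (X t.1 ×ˢ X t.2) := by
    rintro B ⟨i, j⟩ hij
    rw [hT, Finset.mem_product, Finset.mem_range, Finset.mem_range] at hij
    ext p
    rw [Finset.mem_filter, Finset.mem_inter, Finset.mem_product]
    simp only [hg, Prod.mk.injEq, hX, Finset.mem_filter, Finset.mem_univ, true_and]
    rw [b9_ix_iff hs hsL hij.1, b9_ix_iff hs hsL hij.2]
  set D : ℝ := c * ((2 * s : ℕ) : ℝ) ^ (2 - a) with hD
  have hD0 : 0 ≤ D := by positivity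
  have htile : ∀ t ∈ T, S (A.filter (fun p => g p = t)) ≤
      4 * κ * s * (b9_bin A (X t.1 ×ˢ X t.2)).card +
        D * (2 * (A.filter (fun p => g p = t)).card / (s : ℝ) ^ 2) := by
    intro t ht
    rw [hfil A t ht]
    have ht' := ht
    rw [hT, Finset.mem_product, Finset.mem_range, Finset.mem_range] at ht'
    have e1 := he1 t.1 ht'.1
    have e2 := he2 t.1 ht'.1
    have e3 := he1 t.2 ht'.2
    have e4 := he2 t.2 ht'.2
    apply b9_tile S hκ hD0 hS0 hS hc hcard A _ _ b9_interval b9_interval hs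
    · rw [hXc _ ht'.1]; omega
    · rw [hXc _ ht'.1]; omega
    · rw [hXc _ ht'.2]; omega
    · rw [hXc _ ht'.2]; omega
    · rw [← b9_rect_prod]
      exact hrect (2 * s) _ _ _ _ e2 e4
  have hsumb : ∑ t ∈ T, (b9_bin A (X t.1 ×ˢ X t.2)).card ≤ bdry A := by
    rw [← b9_bd_card, Finset.card_eq_sum_card_fiberwise (f := fun q => g q.1) (s := b9_bd A)
      (t := T) (fun q _ => hgT q.1)]
    apply Finset.sum_le_sum
    intro t ht
    apply Finset.card_le_card
    intro q hq
    rw [b9_bin, Finset.mem_filter] at hq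
    rw [Finset.mem_filter, b9_bd, Finset.mem_filter]
    refine ⟨⟨Finset.mem_univ _, hq.2.1, hq.2.2.1, hq.2.2.2.1⟩, ?_⟩
    have h3 := hfil Finset.univ t ht
    have h4 : q.1 ∈ Finset.univ.filter (fun p => g p = t) := by
      rw [h3, Finset.mem_inter]
      exact ⟨Finset.mem_univ _, hq.2.2.2.2.1⟩
    rw [Finset.mem_filter] at h4
    exact h4.2
  have hsumA : ∑ t ∈ T, (A.filter (fun p => g p = t)).card = A.card :=
    (Finset.card_eq_sum_card_fiberwise (fun q _ => hgT q)).symm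
  have h2 : S A ≤ ∑ t ∈ T, (4 * κ * s * (b9_bin A (X t.1 ×ˢ X t.2)).card +
        D * (2 * (A.filter (fun p => g p = t)).card / (s : ℝ) ^ 2)) :=
    h1.trans (Finset.sum_le_sum htile)
  rw [Finset.sum_add_distrib, ← Finset.mul_sum] at h2
  have h3 : ∑ t ∈ T, D * (2 * ((A.filter (fun p => g p = t)).card : ℝ) / (s : ℝ) ^ 2) =
      D * (2 * A.card / (s : ℝ) ^ 2) := by
    rw [← Finset.mul_sum, ← Finset.sum_div, ← Finset.mul_sum]
    congr 3
    exact_mod_cast hsumA
  rw [h3] at h2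
  have h4 : (∑ t ∈ T, ((b9_bin A (X t.1 ×ˢ X t.2)).card : ℝ)) ≤ bdry A := by
    exact_mod_cast hsumb
  have h5 : D * (2 * A.card / (s : ℝ) ^ 2) ≤ 8 * c * (s : ℝ) ^ (-a) * A.card := by
    have h6 : ((2 * s : ℕ) : ℝ) ^ (2 - a) ≤ 4 * (s : ℝ) ^ (2 - a) := by
      push_cast
      rw [Real.mul_rpow (by norm_num) hs0.le]
      apply mul_le_mul_of_nonneg_right _ (by positivity)
      calc (2 : ℝ) ^ (2 - a) ≤ 2 ^ (2 : ℝ) :=
            Real.rpow_le_rpow_of_exponent_le (by norm_num) (by linarith)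
        _ = 4 := by norm_num
    have h7 : (s : ℝ) ^ (2 - a) = (s : ℝ) ^ 2 * (s : ℝ) ^ (-a) := by
      rw [sub_eq_add_neg, Real.rpow_add hs0]
      norm_num
    have h8 : D ≤ 4 * c * ((s : ℝ) ^ 2 * (s : ℝ) ^ (-a)) := by
      rw [hD, ← h7]
      nlinarith
    have h9 : D * (2 * A.card / (s : ℝ) ^ 2) ≤
        4 * c * ((s : ℝ) ^ 2 * (s : ℝ) ^ (-a)) * (2 * A.card / (s : ℝ) ^ 2) :=
      mul_le_mul_of_nonneg_right h8 (by positivity)
    refine h9.trans (le_of_eq ?_)
    field_simp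
    ring
  have h6 : 4 * κ * s * (∑ t ∈ T, ((b9_bin A (X t.1 ×ˢ X t.2)).card : ℝ)) ≤
      4 * κ * s * bdry A := mul_le_mul_of_nonneg_left h4 (by positivity)
  linarith

/-- the case of a small region -/
theorem b9_small {L : ℕ} (S : Finset (Site L) → ℝ) {κ c a : ℝ} (hκ : 0 ≤ κ) (hc0 : 0 ≤ c)
    (ha : 0 < a) (ha1 : a < 1)
    (hS0 : ∀ A, 0 ≤ S A)
    (hS : ∀ A B, Disjoint A B → S (A ∪ B) ≤ S A + S B) (hc : ∀ A, S Aᶜ = S A)
    (hcard : ∀ A, S A ≤ κ * A.card)
    (hrect : ∀ s x0 x1 y0 y1 : ℕ, x1 ≤ x0 + s → y1 ≤ y0 + s →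
        S (rect L x0 x1 y0 y1) ≤ c * (s : ℝ) ^ (2 - a))
    (A : Finset (Site L)) (hA : A.card ≤ bdry A ^ 2) :
    S A ≤ (4 * κ + 16 * c) * (bdry A : ℝ) ^ (2 - a / (1 + a)) := by
  rcases Nat.eq_zero_or_pos (bdry A) with h0 | hpos
  · have : A.card = 0 := by rw [h0] at hA; simpa using hA
    have h1 := hcard A
    rw [this, Nat.cast_zero, mul_zero] at h1
    exact h1.trans (by positivity)
  set p : ℝ := (bdry A : ℝ) with hp
  have hp1 : 1 ≤ p := by rw [hp]; exact_mod_cast hpos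
  have hp0 : 0 < p := by linarith
  set t : ℝ := p ^ (1 / (1 + a)) with ht
  have ht1 : 1 ≤ t := Real.one_le_rpow hp1 (by positivity)
  have htp : t ≤ p := by
    calc t ≤ p ^ (1 : ℝ) := Real.rpow_le_rpow_of_exponent_le hp1 (by
          rw [div_le_one (by positivity)]; linarith)
      _ = p := Real.rpow_one p
  set s := ⌊t⌋₊ with hsdef
  have hs : 1 ≤ s := Nat.le_floor (by simpa using ht1)
  have hst : (s : ℝ) ≤ t := Nat.floor_le (by linarith)
  have hts : t ≤ 2 * s := by
    have h1 : t < s + 1 := Nat.lt_floor_add_one t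
    have h2 : (1 : ℝ) ≤ s := by exact_mod_cast hs
    linarith
  have hs0 : (0 : ℝ) < s := by exact_mod_cast hs
  have hE : t * p = p ^ (2 - a / (1 + a)) := by
    have h1 : 2 - a / (1 + a) = 1 / (1 + a) + 1 := by field_simp; ring
    rw [h1, Real.rpow_add hp0, Real.rpow_one]
  have hcardA : (A.card : ℝ) ≤ p ^ 2 := by rw [hp]; exact_mod_cast hA
  by_cases hsL : s ≤ L
  · have h1 := b9_main S hκ hc0 ha ha1 hS0 hS hc hcard hrect A hs hsL
    have h2 : 4 * κ * s * bdry A ≤ 4 * κ * p ^ (2 - a / (1 + a)) := by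
      rw [← hE]
      have : (s : ℝ) * p ≤ t * p := mul_le_mul_of_nonneg_right hst hp0.le
      calc 4 * κ * s * bdry A = 4 * κ * (s * p) := by rw [hp]; ring
        _ ≤ 4 * κ * (t * p) := mul_le_mul_of_nonneg_left this (by positivity)
    have h3 : (s : ℝ) ^ (-a) ≤ 2 * t ^ (-a) := by
      have h4 : t / 2 ≤ s := by linarith
      have h5 : (s : ℝ) ^ (-a) ≤ (t / 2) ^ (-a) :=
        Real.rpow_le_rpow_of_nonpos (by linarith) h4 (by linarith)
      refine h5.trans ?_
      rw [Real.div_rpow (by linarith) (by norm_num), div_eq_mul_inv, ← Real.rpow_neg (by norm_num),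
        neg_neg, mul_comm]
      apply mul_le_mul_of_nonneg_right _ (by positivity)
      calc (2 : ℝ) ^ a ≤ 2 ^ (1 : ℝ) :=
            Real.rpow_le_rpow_of_exponent_le (by norm_num) ha1.le
        _ = 2 := Real.rpow_one 2
    have h6 : t ^ (-a) * p ^ 2 = p ^ (2 - a / (1 + a)) := by
      rw [ht, ← Real.rpow_mul hp0.le, ← Real.rpow_two, ← Real.rpow_add hp0]
      congr 1
      field_simp
      ring
    have h7 : 8 * c * (s : ℝ) ^ (-a) * A.card ≤ 16 * c * p ^ (2 - a / (1 + a)) := by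
      rw [← h6]
      have h8 : (s : ℝ) ^ (-a) * A.card ≤ (2 * t ^ (-a)) * p ^ 2 :=
        mul_le_mul h3 hcardA (by positivity) (by positivity)
      calc 8 * c * (s : ℝ) ^ (-a) * A.card = 8 * c * ((s : ℝ) ^ (-a) * A.card) := by ring
        _ ≤ 8 * c * ((2 * t ^ (-a)) * p ^ 2) := mul_le_mul_of_nonneg_left h8 (by positivity)
        _ = _ := by ring
    linarith
  · push Not at hsL
    have h1 : A.card ≤ L * L := by
      calc A.card ≤ (Finset.univ : Finset (Site L)).card := Finset.card_le_univ _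
        _ = L * L := by simp
    have h2 : (A.card : ℝ) ≤ p ^ (2 - a / (1 + a)) := by
      rw [← hE]
      have h3 : (L : ℝ) ≤ s := by exact_mod_cast hsL.le
      have h4 : (A.card : ℝ) ≤ L * L := by exact_mod_cast h1
      have h5 : (0 : ℝ) ≤ L := Nat.cast_nonneg _
      calc (A.card : ℝ) ≤ L * L := h4
        _ ≤ t * p := mul_le_mul (h3.trans hst) (h3.trans (hst.trans htp)) h5 (by linarith)
    have h6 := hcard A
    have h7 : 0 ≤ p ^ (2 - a / (1 + a)) := by positivity
    nlinarith [mul_le_mul_of_nonneg_left h2 hκ, mul_nonneg hκ h7, mul_nonneg hc0 h7]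

/-- BLOCK 9. From squares to all regions (pure combinatorics). -/
theorem general_region (c a κ : ℝ) (hc : 0 ≤ c) (ha : 0 < a) (ha1 : a < 1) (hκ : 0 ≤ κ) :
    ∃ C : ℝ, 0 ≤ C ∧ ∀ (L : ℕ) (S : Finset (Site L) → ℝ),
      (∀ A, 0 ≤ S A) → (∀ A B, Disjoint A B → S (A ∪ B) ≤ S A + S B) → (∀ A, S Aᶜ = S A) →
      (∀ A, S A ≤ κ * A.card) →
      (∀ s x0 x1 y0 y1 : ℕ, x1 ≤ x0 + s → y1 ≤ y0 + s →
        S (rect L x0 x1 y0 y1) ≤ c * (s : ℝ) ^ (2 - a)) →
      ∀ A, S A ≤ C * (bdry A : ℝ) ^ (2 - a / (1 + a)) := by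
  refine ⟨4 * κ + 16 * c, by positivity, ?_⟩
  intro L S hS0 hS hcm hcard hrect A
  classical
  have hbin : (b9_bin A ((Finset.univ : Finset (Fin L)) ×ˢ Finset.univ)).card = bdry A := by
    unfold b9_bin bdry
    congr 1
    ext p
    simp
  have hiso := b9_iso A (Finset.univ : Finset (Fin L)) Finset.univ
    (fun _ _ _ _ _ _ _ => Finset.mem_univ _) (fun _ _ _ _ _ _ _ => Finset.mem_univ _)
  rw [hbin] at hiso
  simp only [Finset.univ_product_univ, Finset.inter_univ, Finset.card_univ,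
    Fintype.card_fin] at hiso
  have hsdiff : (Finset.univ : Finset (Site L)) \ A = Aᶜ := by
    ext p; simp
  rw [hsdiff] at hiso
  have hLL : ∀ B : Finset (Site L), B.card ≤ L * L := by
    intro B
    calc B.card ≤ (Finset.univ : Finset (Site L)).card := Finset.card_le_univ _
      _ = L * L := by simp
  have hor : A.card ≤ bdry A ^ 2 ∨ Aᶜ.card ≤ bdry A ^ 2 := by
    rcases hiso with h | h | h | h
    · left; omega
    · right; omega
    · left
      exact (hLL A).trans (by rw [sq]; exact Nat.mul_le_mul h h)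
    · left
      exact (hLL A).trans (by rw [sq]; exact Nat.mul_le_mul h h)
  rcases hor with h | h
  · exact b9_small S hκ hc ha ha1 hS0 hS hcm hcard hrect A h
  · have h1 := b9_small S hκ hc ha ha1 hS0 hS hcm hcard hrect Aᶜ (by rwa [b9_bdry_compl])
    rwa [b9_bdry_compl, hcm] at h1

end Vale.Agent.P356.SV
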