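import Vale.Agent.P356.Bdl.B1
import Mathlib.Analysis.SpecialFunctions.Pow.Real

/-!
Common definitions for the sub-volume law.
-/

namespace Vale.Agent.P356.SV

open Matrix Finset Vale.Agent.P356 Vale.Agent.P356.Path
open scoped BigOperators ComplexOrder Kronecker

/-- operator on the first factor of a splitting -/
def opL {N α β : Type*} [DecidableEq β] (e : N ≃ α × β) (Y : Matrix α α ℂ) : Matrix N N ℂ :=
  Matrix.reindex e.symm e.symm (Y ⊗ₖ (1 : Matrix β β ℂ))

/-- operator on the second factor of a splitting -/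
def opR {N α β : Type*} [DecidableEq α] (e : N ≃ α × β) (S : Matrix β β ℂ) : Matrix N N ℂ :=
  Matrix.reindex e.symm e.symm ((1 : Matrix α α ℂ) ⊗ₖ S)

/-- operator on the region `A`, as an operator on the whole system -/
def opOn {V : Type*} [Fintype V] [DecidableEq V] {q : ℕ} (A : Finset V)
    (Y : Op {x // x ∈ A} q) : Op V q := opL (cut A q) Y

/-- function of the reduced state of `x` on the first factor, through its eigenbasis -/
noncomputable def fOp {α β : Type*} [Fintype α] [Fintype β] [DecidableEq α] [DecidableEq β]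
    (x : α × β → ℂ) (f : α → ℝ) : Matrix α α ℂ :=
  eigU x * diagonal (fun i => (f i : ℂ)) * (eigU x)ᴴ

/-- orthogonal projection -/
def IsPr {α : Type*} [Fintype α] (Q : Matrix α α ℂ) : Prop := Q * Q = Q ∧ Qᴴ = Q

/-- clipped logarithm -/
noncomputable def clipf (κ m s : ℝ) : ℝ := if s ≤ κ then 0 else min m (Real.log (s / κ))

/-- rectangles of the square lattice -/
def rect (L x0 x1 y0 y1 : ℕ) : Finset (Site L) :=
  Finset.univ.filter (fun p => x0 ≤ p.1.val ∧ p.1.val < x1 ∧ y0 ≤ p.2.val ∧ p.2.val < y1)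

/-- The local estimate for the operator `X` along the splitting `e`, with weight `w`: conjugation
by a function of the reduced state which is log-Lipschitz changes the expectation of `X` only
to second order. -/
def CutBound {N α β : Type*} [Fintype N] [Fintype α] [Fintype β] [DecidableEq α] [DecidableEq β]
    (e : N ≃ α × β) (X : Matrix N N ℂ) (w : ℝ) : Prop :=
  ∀ ψ : N → ℂ, nsq ψ = 1 → ∀ θ : ℝ, 0 ≤ θ → θ ≤ 1 / 4 → ∀ g : α → ℝ,
    (∀ i j, 0 < eigp (ψ ∘ e.symm) i → 0 < eigp (ψ ∘ e.symm) j →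
      |g i - g j| ≤ |Real.log (eigp (ψ ∘ e.symm) i) - Real.log (eigp (ψ ∘ e.symm) j)|) →
    (star ψ ⬝ᵥ (X *ᵥ ψ)).re -
      (star (opL e (fOp (ψ ∘ e.symm) (fun i => Real.exp (θ * g i))) *ᵥ ψ) ⬝ᵥ
        (X *ᵥ (opL e (fOp (ψ ∘ e.symm) (fun i => Real.exp (-(θ * g i)))) *ᵥ ψ))).re
      ≤ 9 * θ ^ 2 * w

end Vale.Agent.P356.SV
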