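import Vale.Agent.P356.SV.Lattice
import Vale.Agent.P356.SV.Top
import Vale.Agent.P356.SV.Meas
import Vale.Agent.P356.SV.Ent

set_option linter.all false

/-!
Block 6E: contraction of the conditional entropy.
-/

namespace Vale.Agent.P356.SV

open Matrix Finset Vale.Agent.P356 Vale.Agent.P356.Path
open scoped BigOperators ComplexOrder Kronecker

theorem c6_mem_rect {L a b c d : ℕ} (p : Site L) :
    p ∈ rect L a b c d ↔ a ≤ p.1.val ∧ p.1.val < b ∧ c ≤ p.2.val ∧ p.2.val < d := by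
  simp [rect]

theorem c6_bdry_rect (L a b c d : ℕ) :
    bdry (rect L a b c d) ≤ 2 * (b - a) + 2 * (d - c) := by
  classical
  set S := ((Finset.univ : Finset (Site L × Site L)).filter
    (fun p => p.1 ∈ rect L a b c d ∧ p.2 ∉ rect L a b c d ∧ dist1 p.1 p.2 = 1)) with hS
  have key : ∀ p ∈ S, (a ≤ p.1.1.val ∧ p.1.1.val < b ∧ c ≤ p.1.2.val ∧ p.1.2.val < d) ∧
      ((p.2.1.val + 1 = p.1.1.val ∧ p.2.2.val = p.1.2.val ∧ p.1.1.val = a) ∨
       (p.2.1.val = p.1.1.val + 1 ∧ p.2.2.val = p.1.2.val ∧ p.1.1.val + 1 = b) ∨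
       (p.2.2.val + 1 = p.1.2.val ∧ p.2.1.val = p.1.1.val ∧ p.1.2.val = c) ∨
       (p.2.2.val = p.1.2.val + 1 ∧ p.2.1.val = p.1.1.val ∧ p.1.2.val + 1 = d)) := by
    intro p hp
    rw [hS, Finset.mem_filter] at hp
    obtain ⟨-, h1, h2, h3⟩ := hp
    rw [c6_mem_rect] at h1 h2
    refine ⟨h1, ?_⟩
    unfold dist1 at h3
    omega
  let f : Site L × Site L → ℕ × ℕ := fun p =>
    if p.2.1.val < p.1.1.val then (0, p.1.2.val - c)
    else if p.1.1.val < p.2.1.val then (1, p.1.2.val - c)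
    else if p.2.2.val < p.1.2.val then (2, p.1.1.val - a)
    else (3, p.1.1.val - a)
  have hcard : S.card ≤ (({0, 1} : Finset ℕ) ×ˢ Finset.range (d - c) ∪
      ({2, 3} : Finset ℕ) ×ˢ Finset.range (b - a)).card := by
    refine Finset.card_le_card_of_injOn f ?_ ?_
    · intro p hp
      obtain ⟨h1, h2⟩ := key p hp
      simp only [f]
      simp only [Finset.coe_union, Set.mem_union, Finset.mem_coe, Finset.mem_product,
        Finset.mem_insert, Finset.mem_singleton, Finset.mem_range]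
      split_ifs <;> simp <;> omega
    · intro p hp p' hp' hpp
      obtain ⟨h1, h2⟩ := key p hp
      obtain ⟨h1', h2'⟩ := key p' hp'
      simp only [f] at hpp
      have e : p.1.1.val = p'.1.1.val ∧ p.1.2.val = p'.1.2.val ∧ p.2.1.val = p'.2.1.val ∧
          p.2.2.val = p'.2.2.val := by
        split_ifs at hpp <;> simp only [Prod.mk.injEq] at hpp <;> omega
      obtain ⟨e1, e2, e3, e4⟩ := e
      exact Prod.ext (Prod.ext (Fin.ext e1) (Fin.ext e2)) (Prod.ext (Fin.ext e3) (Fin.ext e4))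
  have h2 : (({0, 1} : Finset ℕ) ×ˢ Finset.range (d - c) ∪
      ({2, 3} : Finset ℕ) ×ˢ Finset.range (b - a)).card ≤ 2 * (b - a) + 2 * (d - c) := by
    refine (Finset.card_union_le _ _).trans ?_
    rw [Finset.card_product, Finset.card_product, Finset.card_range, Finset.card_range]
    have e1 : ({0, 1} : Finset ℕ).card = 2 := rfl
    have e2 : ({2, 3} : Finset ℕ).card = 2 := rfl
    rw [e1, e2]
    omega
  exact hcard.trans h2

theorem c6_bdry_sdiff {L : ℕ} (A X : Finset (Site L)) : bdry (A \ X) ≤ bdry A + bdry X := by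
  classical
  have h : ((Finset.univ : Finset (Site L × Site L)).filter
      (fun p => p.1 ∈ A \ X ∧ p.2 ∉ A \ X ∧ dist1 p.1 p.2 = 1)) ⊆
      ((Finset.univ : Finset (Site L × Site L)).filter
        (fun p => p.1 ∈ A ∧ p.2 ∉ A ∧ dist1 p.1 p.2 = 1)) ∪
      (((Finset.univ : Finset (Site L × Site L)).filter
        (fun p => p.1 ∈ X ∧ p.2 ∉ X ∧ dist1 p.1 p.2 = 1)).image Prod.swap) := by
    intro p hp
    rw [Finset.mem_filter] at hp
    obtain ⟨-, h1, h2, h3⟩ := hp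
    rw [Finset.mem_sdiff] at h1 h2
    rw [Finset.mem_union]
    by_cases hA : p.2 ∈ A
    · right
      rw [Finset.mem_image]
      refine ⟨p.swap, ?_, Prod.swap_swap p⟩
      rw [Finset.mem_filter]
      have hX : p.2 ∈ X := by
        by_contra hX
        exact h2 ⟨hA, hX⟩
      refine ⟨Finset.mem_univ _, hX, h1.2, ?_⟩
      have : dist1 p.2 p.1 = dist1 p.1 p.2 := by
        unfold dist1
        omega
      exact this.trans h3
    · left
      rw [Finset.mem_filter]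
      exact ⟨Finset.mem_univ _, h1.1, hA, h3⟩
  unfold bdry
  refine (Finset.card_le_card h).trans ((Finset.card_union_le _ _).trans ?_)
  exact Nat.add_le_add_left Finset.card_image_le _

theorem c6_tail_mono {ι : Type*} [Fintype ι] [DecidableEq ι] {ρ : Matrix ι ι ℂ} {K K' : ℝ}
    (h : TailLe ρ K) (hKK : K ≤ K') : TailLe ρ K' := by
  classical
  intro u
  have hs : Real.sqrt K ≤ Real.sqrt K' := Real.sqrt_le_sqrt hKK
  have h0 : 0 ≤ Real.sqrt K := Real.sqrt_nonneg _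
  rcases le_or_gt 0 u with hu | hu
  · refine (h u).trans ?_
    have : u / (4 + 2 * Real.sqrt K') ≤ u / (4 + 2 * Real.sqrt K) :=
      div_le_div_of_nonneg_left hu (by linarith) (by linarith)
    have := Real.exp_le_exp.mpr (neg_le_neg this)
    linarith
  · have h1 := h 0
    have e : ∀ v : ℝ, v ≤ 0 → (∑ i, (if v ≤ |dev ρ i| then eig ρ i else 0)) = ∑ i, eig ρ i := by
      intro v hv
      refine Finset.sum_congr rfl fun i _ => ?_
      rw [if_pos (hv.trans (abs_nonneg _))]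
    rw [e 0 le_rfl] at h1
    rw [e u hu.le]
    refine h1.trans ?_
    have h2 : (0 : ℝ) ≤ -(u / (4 + 2 * Real.sqrt K')) := by
      rw [neg_nonneg]
      exact div_nonpos_of_nonpos_of_nonneg hu.le (by linarith)
    have := Real.exp_le_exp.mpr h2
    simp only [zero_div, neg_zero]
    linarith

theorem c6_sum_lower (R l : ℕ) (hl : 1 ≤ l) (m : ℕ) :
    (m : ℝ) / (4 * R + 5) ≤
      ∑ k ∈ range (2 ^ m * l), 1 / ((l : ℝ) + 2 * (R + 1) * k) := by
  induction m with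
  | zero =>
    simp only [Nat.cast_zero, zero_div]
    refine Finset.sum_nonneg fun k _ => ?_
    positivity
  | succ m ih =>
    have hle : 2 ^ m * l ≤ 2 ^ (m + 1) * l := by
      rw [pow_succ]; nlinarith [Nat.zero_le (2 ^ m * l)]
    rw [← Finset.sum_range_add_sum_Ico _ hle]
    have hlr : (1 : ℝ) ≤ l := by exact_mod_cast hl
    have h1 : (1 : ℝ) / (4 * R + 5) ≤
        ∑ k ∈ Finset.Ico (2 ^ m * l) (2 ^ (m + 1) * l), 1 / ((l : ℝ) + 2 * (R + 1) * k) := by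
      have h2 : ∀ k ∈ Finset.Ico (2 ^ m * l) (2 ^ (m + 1) * l),
          1 / ((4 * R + 5) * (2 : ℝ) ^ m * l) ≤ 1 / ((l : ℝ) + 2 * (R + 1) * k) := by
        intro k hk
        rw [Finset.mem_Ico] at hk
        have hk2 : (k : ℝ) ≤ 2 ^ (m + 1) * l := by exact_mod_cast hk.2.le
        have hR : (0 : ℝ) ≤ R := Nat.cast_nonneg R
        have h2m : (1 : ℝ) ≤ 2 ^ m := one_le_pow₀ (by norm_num)
        refine one_div_le_one_div_of_le (by positivity) ?_
        have h3 : 2 * ((R : ℝ) + 1) * k ≤ 2 * (R + 1) * (2 ^ (m + 1) * l) :=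
          mul_le_mul_of_nonneg_left hk2 (by positivity)
        have h4 : (l : ℝ) ≤ 2 ^ m * l := by nlinarith
        have h5 : 2 * ((R : ℝ) + 1) * (2 ^ (m + 1) * l) = (4 * R + 4) * 2 ^ m * l := by
          rw [pow_succ]; ring
        nlinarith
      refine le_trans ?_ (Finset.card_nsmul_le_sum _ _ _ h2)
      rw [Nat.card_Ico, nsmul_eq_mul]
      have h6 : 2 ^ (m + 1) * l - 2 ^ m * l = 2 ^ m * l := by
        rw [pow_succ]
        have : 2 ^ m * 2 * l = 2 ^ m * l + 2 ^ m * l := by ring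
        omega
      rw [h6]
      push_cast
      have h2m : (0 : ℝ) < 2 ^ m := by positivity
      have hR : (0 : ℝ) < 4 * (R : ℝ) + 5 := by positivity
      have hl0 : (0 : ℝ) < l := by linarith
      rw [show (2 : ℝ) ^ m * l * (1 / ((4 * R + 5) * (2 : ℝ) ^ m * l)) = 1 / (4 * R + 5) by
        field_simp]
    push_cast
    rw [add_div]
    exact add_le_add ih h1


theorem c6_log_le (x : ℝ) (hx : 1 ≤ x) : Real.log x ≤ 2 * Real.sqrt x := by
  have h0 : 0 < Real.sqrt x := Real.sqrt_pos.mpr (by linarith)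
  have h1 : Real.log x = 2 * Real.log (Real.sqrt x) := by
    rw [Real.log_sqrt (by linarith)]; ring
  rw [h1]
  have := Real.log_le_sub_one_of_pos h0
  linarith

/-- The slack is linear in the perimeter. -/
theorem c6_slack (κ1 c2 N0 Pm n K v : ℝ) (hκ1 : 0 ≤ κ1) (hN0 : 1 ≤ N0)
    (hc2 : c2 = Real.log 1536 + 3 * Real.log (2 * N0)) (hc2' : 0 ≤ c2) (hPm : 1 ≤ Pm)
    (hn : 0 ≤ n) (hn2 : n + 1 ≤ 2 * N0 * Pm) (hK : K = κ1 * Pm)
    (hv : v = Real.log (1536 * (n + 1) ^ 3)) (hv0 : 0 ≤ v) :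
    (4 + 2 * Real.sqrt K) * v ≤ (4 + 2 * Real.sqrt κ1) * (c2 + 6) * Pm := by
  have hs0 : 1 ≤ Real.sqrt Pm := by
    rw [show (1 : ℝ) = Real.sqrt 1 by simp]
    exact Real.sqrt_le_sqrt hPm
  have hss : Real.sqrt Pm * Real.sqrt Pm = Pm := Real.mul_self_sqrt (by linarith)
  have h1 : v ≤ (c2 + 6) * Real.sqrt Pm := by
    have h2 : v ≤ c2 + 3 * Real.log Pm := by
      rw [hv, Real.log_mul (by norm_num) (by positivity), Real.log_pow]
      have h3 : Real.log (n + 1) ≤ Real.log (2 * N0 * Pm) :=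
        Real.log_le_log (by linarith) hn2
      rw [Real.log_mul (by positivity) (by positivity)] at h3
      rw [hc2]
      push_cast
      linarith
    have h4 := c6_log_le Pm hPm
    nlinarith
  have h2 : 4 + 2 * Real.sqrt K ≤ (4 + 2 * Real.sqrt κ1) * Real.sqrt Pm := by
    rw [hK, Real.sqrt_mul hκ1]
    have := Real.sqrt_nonneg κ1
    nlinarith
  have h3 : 0 ≤ Real.sqrt κ1 := Real.sqrt_nonneg _
  calc (4 + 2 * Real.sqrt K) * v
      ≤ ((4 + 2 * Real.sqrt κ1) * Real.sqrt Pm) * ((c2 + 6) * Real.sqrt Pm) :=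
        mul_le_mul h2 h1 hv0 (by positivity)
    _ = (4 + 2 * Real.sqrt κ1) * (c2 + 6) * (Real.sqrt Pm * Real.sqrt Pm) := by ring
    _ = _ := by rw [hss]

/-- The choice of the slack. -/
theorem c6_slack2 (K n : ℝ) (hn : 0 ≤ n) (u v : ℝ)
    (hv : v = Real.log (1536 * (n + 1) ^ 3)) (hu : u = (4 + 2 * Real.sqrt K) * v) :
    0 < v ∧ 0 < u ∧
    6 * Real.exp (-(u / (4 + 2 * Real.sqrt K))) ≤ 1 / (16 * (n + 1) ^ 3) ∧
    6 * Real.exp (-(u / (4 + 2 * Real.sqrt K))) ≤ 1 / 256 := by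
  have hn3 : (1 : ℝ) ≤ (n + 1) ^ 3 := one_le_pow₀ (by linarith)
  have hv1 : Real.exp (-v) = 1 / (1536 * (n + 1) ^ 3) := by
    rw [hv, Real.exp_neg, Real.exp_log (by positivity), one_div]
  have hv0 : 0 < v := by rw [hv]; exact Real.log_pos (by linarith)
  have hsK : 0 < 4 + 2 * Real.sqrt K := by
    have := Real.sqrt_nonneg K
    linarith
  have hu0 : 0 < u := by rw [hu]; exact mul_pos hsK hv0
  have huv : u / (4 + 2 * Real.sqrt K) = v := by
    rw [hu]; field_simp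
  have e : (6 : ℝ) * (1 / (1536 * (n + 1) ^ 3)) = 1 / (256 * (n + 1) ^ 3) := by
    field_simp; norm_num
  refine ⟨hv0, hu0, ?_, ?_⟩
  · rw [huv, hv1, e]
    exact one_div_le_one_div_of_le (by positivity) (by nlinarith)
  · rw [huv, hv1, e]
    exact one_div_le_one_div_of_le (by norm_num) (by nlinarith)

/-- The weights of the tilt. -/
theorem c6_weights (R l m0 n : ℕ) (hl : 1 ≤ l) (hn : n = 2 ^ m0 * l) (t0 : ℝ) (ht0 : 0 ≤ t0)
    (hm0 : 8 * (4 * (R : ℝ) + 5) * (t0 + 1) ≤ m0) :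
    ∃ θ : ℕ → ℝ, (∀ k, 0 < θ k) ∧ (∀ k, θ k ≤ 1 / 4) ∧ ∑ k ∈ range n, θ k = 4 / 3 ∧
      ∀ b : ℕ → ℝ, (∀ k < n, b k ≤ 4 * ((l : ℝ) + 2 * (R + 1) * k)) →
        t0 * ∑ k ∈ range n, θ k ^ 2 * b k ≤ 1 := by
  have hlr : (1 : ℝ) ≤ l := by exact_mod_cast hl
  set T : ℝ := ∑ k ∈ range n, 1 / ((l : ℝ) + 2 * (R + 1) * k) with hT
  have hTlow : (m0 : ℝ) / (4 * R + 5) ≤ T := by rw [hT, hn]; exact c6_sum_lower R l hl m0
  have hm0pos : (0 : ℝ) < m0 := lt_of_lt_of_le (by positivity) hm0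
  have hT0 : 0 < T := lt_of_lt_of_le (by positivity) hTlow
  set lam : ℝ := 4 / 3 / T with hlam
  have hlam0 : 0 < lam := by positivity
  have hlamle : lam * (8 * (t0 + 1)) ≤ 4 / 3 := by
    have h1 : 8 * (t0 + 1) ≤ T := by
      refine le_trans ?_ hTlow
      rw [le_div_iff₀ (by positivity)]
      linarith
    have h2 : lam * T = 4 / 3 := by rw [hlam]; field_simp
    nlinarith
  have hd1 : ∀ k : ℕ, 1 ≤ (l : ℝ) + 2 * (R + 1) * k := by
    intro k
    have : (0 : ℝ) ≤ 2 * (R + 1) * k := by positivity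
    linarith
  have hlam4 : lam ≤ 1 / 4 := by nlinarith
  have hθ0 : ∀ k : ℕ, 0 < lam * (1 / ((l : ℝ) + 2 * (R + 1) * k)) :=
    fun k => mul_pos hlam0 (one_div_pos.mpr (by linarith [hd1 k]))
  have hθs : ∑ k ∈ range n, lam * (1 / ((l : ℝ) + 2 * (R + 1) * k)) = 4 / 3 := by
    rw [← Finset.mul_sum, ← hT, hlam]
    field_simp
  refine ⟨fun k => lam * (1 / ((l : ℝ) + 2 * (R + 1) * k)), hθ0, ?_, hθs, ?_⟩
  · intro k
    have h1 : 1 / ((l : ℝ) + 2 * (R + 1) * k) ≤ 1 := by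
      rw [div_le_one (by linarith [hd1 k])]
      exact hd1 k
    have h2 : 0 ≤ 1 / ((l : ℝ) + 2 * (R + 1) * k) := (one_div_pos.mpr (by linarith [hd1 k])).le
    show lam * (1 / ((l : ℝ) + 2 * (R + 1) * k)) ≤ 1 / 4
    nlinarith
  · intro b hb
    have h1 : ∑ k ∈ range n, (lam * (1 / ((l : ℝ) + 2 * (R + 1) * k))) ^ 2 * b k ≤
        ∑ k ∈ range n, 4 * lam * (lam * (1 / ((l : ℝ) + 2 * (R + 1) * k))) := by
      refine Finset.sum_le_sum fun k hk => ?_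
      rw [Finset.mem_range] at hk
      have h2 := hb k hk
      have hd := hd1 k
      have h3 : lam * (1 / ((l : ℝ) + 2 * (R + 1) * k)) * ((l : ℝ) + 2 * (R + 1) * k) = lam := by
        have : (l : ℝ) + 2 * (R + 1) * k ≠ 0 := by linarith
        field_simp
      calc (lam * (1 / ((l : ℝ) + 2 * (R + 1) * k))) ^ 2 * b k
          ≤ (lam * (1 / ((l : ℝ) + 2 * (R + 1) * k))) ^ 2 *
              (4 * ((l : ℝ) + 2 * (R + 1) * k)) :=
            mul_le_mul_of_nonneg_left h2 (sq_nonneg _)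
        _ = 4 * (lam * (1 / ((l : ℝ) + 2 * (R + 1) * k)) * ((l : ℝ) + 2 * (R + 1) * k)) *
              (lam * (1 / ((l : ℝ) + 2 * (R + 1) * k))) := by ring
        _ = 4 * lam * (lam * (1 / ((l : ℝ) + 2 * (R + 1) * k))) := by rw [h3]
    rw [← Finset.mul_sum, hθs] at h1
    calc t0 * ∑ k ∈ range n, (lam * (1 / ((l : ℝ) + 2 * (R + 1) * k))) ^ 2 * b k
        ≤ t0 * (4 * lam * (4 / 3)) := mul_le_mul_of_nonneg_left h1 ht0
      _ ≤ 1 := by nlinarith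

/-- The concentric squares. -/
def c6_I (L R l x y : ℕ) (k : ℕ) : Finset (Site L) :=
  rect L (x - (R + 1) * k) (x + l + (R + 1) * k) (y - (R + 1) * k) (y + l + (R + 1) * k)

theorem c6_I_zero (L R l x y : ℕ) : c6_I L R l x y 0 = rect L x (x + l) y (y + l) := by
  simp [c6_I]

theorem c6_I_sub (L R l x y : ℕ) (k : ℕ) : c6_I L R l x y 0 ⊆ c6_I L R l x y k := by
  intro p hp
  rw [c6_I_zero, c6_mem_rect] at hp
  rw [c6_I, c6_mem_rect]
  omega

theorem c6_I_step (L R l x y : ℕ) (k : ℕ) (p p' : Site L) (hp : p ∈ c6_I L R l x y k)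
    (hd : dist1 p p' ≤ R) : p' ∈ c6_I L R l x y (k + 1) := by
  rw [c6_I, c6_mem_rect] at hp ⊢
  unfold dist1 at hd
  have e : (R + 1) * (k + 1) = (R + 1) * k + R + 1 := by ring
  rw [e]
  generalize (R + 1) * k = t at *
  omega

theorem c6_I_geom (L R l x y x0 x1 y0 y1 N0 : ℕ) (hl : 1 ≤ l)
    (hx0 : x0 + (R + 1) * N0 * l ≤ x) (hx1 : x + l + (R + 1) * N0 * l ≤ x1)
    (hy0 : y0 + (R + 1) * N0 * l ≤ y) (hy1 : y + l + (R + 1) * N0 * l ≤ y1) (k : ℕ)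
    (hk : k < N0 * l) :
    c6_I L R l x y k ⊆ rect L x0 x1 y0 y1 ∧
    (bdry (c6_I L R l x y k) : ℝ) ≤ 4 * ((l : ℝ) + 2 * (R + 1) * k) ∧
    2 * ((l : ℝ) + 2 * (R + 1) * k) ≤ (x1 : ℝ) - x0 + (y1 - y0) := by
  have h : (R + 1) * k ≤ (R + 1) * N0 * l := by
    rw [mul_assoc]
    exact Nat.mul_le_mul_left _ hk.le
  generalize hM : (R + 1) * N0 * l = M at *
  refine ⟨?_, ?_, ?_⟩
  · intro p hp
    rw [c6_I, c6_mem_rect] at hp
    rw [c6_mem_rect]
    generalize (R + 1) * k = t at *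
    omega
  · have h1 := c6_bdry_rect L (x - (R + 1) * k) (x + l + (R + 1) * k) (y - (R + 1) * k)
      (y + l + (R + 1) * k)
    have h2 : bdry (c6_I L R l x y k) ≤ 4 * (l + 2 * ((R + 1) * k)) := by
      refine h1.trans ?_
      generalize (R + 1) * k = t at *
      omega
    have h3 : (bdry (c6_I L R l x y k) : ℝ) ≤ ((4 * (l + 2 * ((R + 1) * k)) : ℕ) : ℝ) := by
      exact_mod_cast h2
    refine h3.trans (le_of_eq ?_)
    push_cast
    ring
  · have h1 : x0 + (l + 2 * ((R + 1) * k)) ≤ x1 := by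
      generalize (R + 1) * k = t at *
      omega
    have h2 : y0 + (l + 2 * ((R + 1) * k)) ≤ y1 := by
      generalize (R + 1) * k = t at *
      omega
    have h1' : (x0 : ℝ) + (l + 2 * ((R + 1) * k)) ≤ x1 := by exact_mod_cast h1
    have h2' : (y0 : ℝ) + (l + 2 * ((R + 1) * k)) ≤ y1 := by exact_mod_cast h2
    linarith

/-- The contraction, abstract in the regions. -/
theorem c6_core {L q R : ℕ} {J Δ E : ℝ} (hJ : 0 < J) (hΔ : 0 < Δ) (hq : 1 ≤ q)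
    {H : Op (Site L) q} {Ω : Conf (Site L) q → ℂ} (hA : Admissible L q R J H)
    (hg : GappedGround H Δ E Ω) (n : ℕ) (I : ℕ → Finset (Site L)) (B : Finset (Site L))
    (hstep : ∀ k x y, x ∈ I k → dist1 x y ≤ R → y ∈ I (k + 1))
    (hXI : ∀ k, I 0 ⊆ I k) (hIB : ∀ k < n, I k ⊆ B)
    (θ : ℕ → ℝ) (hθ0 : ∀ k, 0 < θ k) (hθ1 : ∀ k, θ k ≤ 1 / 4)
    (hθs : ∑ k ∈ range n, θ k = 4 / 3)
    (hN : tiltC q R * (J / Δ) * ∑ k ∈ range n, θ k ^ 2 * bdry (I k) ≤ 1)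
    (K u : ℝ) (hK : 0 ≤ K) (hu : 0 < u)
    (hTX : TailLe (rdm (I 0) Ω) K) (hTB : TailLe (rdm B Ω) K)
    (hTBX : TailLe (rdm (B \ I 0) Ω) K) (hTI : ∀ k < n, TailLe (rdm (I k \ I 0) Ω) K)
    (hu2 : 6 * Real.exp (-(u / (4 + 2 * Real.sqrt K))) ≤ 1 / (16 * ((n : ℝ) + 1) ^ 3))
    (hu2' : 6 * Real.exp (-(u / (4 + 2 * Real.sqrt K))) ≤ 1 / 256) :
    entropyOf B Ω - entropyOf (B \ I 0) Ω ≤
      1 / 2 * entropyOf (I 0) Ω + 9 / 2 * u + (Real.log 256 + Real.log 2 + 4 / 3) := by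
  classical
  have hΩ : nsq Ω = 1 := hg.1
  obtain ⟨Bm, hBm, hp, Pr, hPr⟩ := measured (I 0) n I (fun k _ => hXI k) Ω hΩ K u hu hK
    hTX hTI hu2
  have hp0 : 0 < nsq (opOn (I 0) Bm *ᵥ Ω) := lt_of_lt_of_le (Real.exp_pos _) hp
  have hS : 0 ≤ entropyOf (I 0) Ω := entropy_nonneg (I 0) Ω hΩ
  have h1 : 0 ≤ Real.log 2 := Real.log_nonneg (by norm_num)
  obtain ⟨S0, hS0⟩ : ∃ S0, S0 = entropyOf B Ω - entropyOf (B \ I 0) Ω := ⟨_, rfl⟩
  rw [← hS0]
  obtain ⟨m, hm⟩ : ∃ m, m = S0 - 4 * u - Real.log 256 := ⟨_, rfl⟩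
  rcases lt_or_ge m 0 with hmn | hmn
  · rw [hm] at hmn
    linarith
  · have hTop : ∀ k < n, ∀ Q : Op {x // x ∈ (I k)ᶜ} q, IsPr Q →
        Q.trace.re ≤ 1 / 256 * Real.exp (S0 + entropyOf (I k \ I 0) Ω - 3 * u) →
        nsq (opOn (I k)ᶜ Q *ᵥ Ω) ≤ 1 / 16 := by
      intro k hk Q hQ htr
      exact top_weight (I 0) (I k) B (hXI k) (hIB k hk) Ω hΩ K u hu hK
        hTB hTBX (hTI k hk) hu2' Q hQ (by rw [hS0] at htr; exact htr)
    have hPrt : ∀ k < n, (Pr k).trace.re ≤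
        1 / 256 * Real.exp (S0 + entropyOf (I k \ I 0) Ω - 3 * u) * Real.exp (-m) := by
      intro k hk
      refine (hPr k hk).2.1.trans (le_of_eq ?_)
      rw [mul_assoc, ← Real.exp_add, hm]
      have e : (1 : ℝ) / 256 = Real.exp (-Real.log 256) := by
        rw [Real.exp_neg, Real.exp_log (by norm_num), one_div]
      rw [e, ← Real.exp_add]
      congr 1
      ring
    have hd : ∑ k ∈ range n,
        Real.sqrt (nsq ((1 - opOn (I k)ᶜ (Pr k)) *ᵥ (opOn (I 0) Bm *ᵥ Ω))) ≤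
        1 / 2 * Real.sqrt (nsq (opOn (I 0) Bm *ᵥ Ω)) := by
      have h1 : ∀ k ∈ range n,
          Real.sqrt (nsq ((1 - opOn (I k)ᶜ (Pr k)) *ᵥ (opOn (I 0) Bm *ᵥ Ω))) ≤
          1 / (2 * ((n : ℝ) + 1)) * Real.sqrt (nsq (opOn (I 0) Bm *ᵥ Ω)) := by
        intro k hk
        rw [Finset.mem_range] at hk
        have h2 := Real.sqrt_le_sqrt (hPr k hk).2.2
        refine h2.trans (le_of_eq ?_)
        rw [Real.sqrt_mul (by positivity)]
        congr 1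
        rw [Real.sqrt_div (by norm_num), Real.sqrt_one, Real.sqrt_sq (by positivity)]
      refine (Finset.sum_le_sum h1).trans ?_
      rw [Finset.sum_const, Finset.card_range, nsmul_eq_mul, ← mul_assoc]
      refine mul_le_mul_of_nonneg_right ?_ (Real.sqrt_nonneg _)
      rw [mul_one_div, div_le_div_iff₀ (by positivity) (by norm_num)]
      linarith
    have key := tilt_lattice hJ hΔ hq hA hg n I hstep θ
      (fun k => 1 / 256 * Real.exp (S0 + entropyOf (I k \ I 0) Ω - 3 * u)) m hmn hθ0 hθ1 hN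
      (fun k => by positivity) hTop Bm hBm hp0 Pr (fun k hk => (hPr k hk).1) hPrt hd
    rw [hθs] at key
    have hlogp : -Real.log (nsq (opOn (I 0) Bm *ᵥ Ω)) ≤ entropyOf (I 0) Ω + u := by
      have := Real.log_le_log (Real.exp_pos _) hp
      rw [Real.log_exp] at this
      linarith
    rw [hm] at key
    linarith

/-- BLOCK 6E. Contraction of the conditional entropy. -/
theorem contraction (q R : ℕ) (hq : 1 ≤ q) (J Δ : ℝ) (hJ : 0 < J) (hΔ : 0 < Δ) :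
    ∃ (ρ : ℕ) (C : ℝ), 1 ≤ ρ ∧ 0 ≤ C ∧ ∀ (L : ℕ) (H : Op (Site L) q), Admissible L q R J H →
      ∀ (E : ℝ) (Ω : Conf (Site L) q → ℂ), GappedGround H Δ E Ω →
      ∀ l x y x0 x1 y0 y1 : ℕ, 1 ≤ l →
        x0 + ρ * l ≤ x → x + l + ρ * l ≤ x1 → y0 + ρ * l ≤ y → y + l + ρ * l ≤ y1 →
        x1 ≤ L → y1 ≤ L →
        entropyOf (rect L x0 x1 y0 y1) Ω ≤
          entropyOf (rect L x0 x1 y0 y1 \ rect L x (x + l) y (y + l)) Ω +
          1 / 2 * entropyOf (rect L x (x + l) y (y + l)) Ω +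
          C * ((x1 : ℝ) - x0 + (y1 - y0)) := by
  have hJΔ : 0 < J / Δ := div_pos hJ hΔ
  have htc : 0 ≤ tiltC q R := by unfold tiltC; positivity
  have hsc : 0 ≤ spread_const q R := by unfold spread_const; positivity
  obtain ⟨m0, hm0⟩ : ∃ m0 : ℕ, 8 * (4 * (R : ℝ) + 5) * (tiltC q R * (J / Δ) + 1) ≤ m0 :=
    ⟨_, Nat.le_ceil _⟩
  obtain ⟨N0, hN0⟩ : ∃ N0 : ℕ, N0 = 2 ^ m0 := ⟨_, rfl⟩
  have hN01 : 1 ≤ N0 := by rw [hN0]; exact Nat.one_le_two_pow
  obtain ⟨κ1, hκ1⟩ : ∃ κ1 : ℝ, κ1 = spread_const q R * (J / Δ) * 4 := ⟨_, rfl⟩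
  have hκ1' : 0 ≤ κ1 := by rw [hκ1]; positivity
  obtain ⟨c2, hc2⟩ : ∃ c2 : ℝ, c2 = Real.log 1536 + 3 * Real.log (2 * N0) := ⟨_, rfl⟩
  have hN0r : (1 : ℝ) ≤ N0 := by exact_mod_cast hN01
  have hc2' : 0 ≤ c2 := by
    have h1 : 0 ≤ Real.log 1536 := Real.log_nonneg (by norm_num)
    have h2 : 0 ≤ Real.log (2 * (N0 : ℝ)) := Real.log_nonneg (by linarith)
    linarith
  obtain ⟨c3, hc3⟩ : ∃ c3 : ℝ, c3 = Real.log 256 + Real.log 2 + 4 / 3 := ⟨_, rfl⟩
  have hc3' : 0 ≤ c3 := by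
    have h1 : 0 ≤ Real.log 256 := Real.log_nonneg (by norm_num)
    have h2 : 0 ≤ Real.log 2 := Real.log_nonneg (by norm_num)
    linarith
  refine ⟨(R + 1) * N0, 9 / 2 * ((4 + 2 * Real.sqrt κ1) * (c2 + 6)) + c3,
    Nat.mul_pos (Nat.succ_pos R) hN01, by positivity, ?_⟩
  intro L H hA E Ω hg l x y x0 x1 y0 y1 hl hx0 hx1 hy0 hy1 hxL hyL
  obtain ⟨n, hn⟩ : ∃ n : ℕ, n = N0 * l := ⟨_, rfl⟩
  have hn1 : 1 ≤ n := by rw [hn]; exact Nat.mul_pos hN01 hl
  have hnr : (1 : ℝ) ≤ n := by exact_mod_cast hn1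
  have hlr : (1 : ℝ) ≤ l := by exact_mod_cast hl
  obtain ⟨θ, hθ0, hθ1, hθs, hθN⟩ := c6_weights R l m0 n hl (by rw [hn, hN0])
    (tiltC q R * (J / Δ)) (mul_nonneg htc hJΔ.le) hm0
  have hgeo := fun k (hk : k < n) => c6_I_geom L R l x y x0 x1 y0 y1 N0 hl hx0 hx1 hy0 hy1 k
    (by rw [← hn]; exact hk)
  have hbB : (bdry (rect L x0 x1 y0 y1) : ℝ) ≤ 2 * ((x1 : ℝ) - x0 + (y1 - y0)) := by
    have h1 := c6_bdry_rect L x0 x1 y0 y1
    have hx01 : x0 ≤ x1 := by omega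
    have hy01 : y0 ≤ y1 := by omega
    have h2 : (bdry (rect L x0 x1 y0 y1) : ℝ) ≤ ((2 * (x1 - x0) + 2 * (y1 - y0) : ℕ) : ℝ) := by
      exact_mod_cast h1
    refine h2.trans (le_of_eq ?_)
    push_cast [Nat.cast_sub hx01, Nat.cast_sub hy01]
    ring
  rw [← c6_I_zero L R l x y]
  generalize rect L x0 x1 y0 y1 = B at hgeo hbB ⊢
  generalize hIe : c6_I L R l x y = I at hgeo ⊢
  have hXI : ∀ k, I 0 ⊆ I k := by rw [← hIe]; exact c6_I_sub L R l x y
  have hstep : ∀ k p p', p ∈ I k → dist1 p p' ≤ R → p' ∈ I (k + 1) := by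
    rw [← hIe]; exact c6_I_step L R l x y
  generalize (x1 : ℝ) - x0 + (y1 - y0) = Pm at hgeo hbB ⊢
  have hPl : 2 * (l : ℝ) ≤ Pm := by
    have := (hgeo 0 hn1).2.2
    simpa using this
  have hPm1 : 1 ≤ Pm := by linarith
  have hb : ∀ k < n, (bdry (I k) : ℝ) ≤ 2 * Pm := by
    intro k hk
    have h1 := (hgeo k hk).2.1
    have h2 := (hgeo k hk).2.2
    linarith
  have hb0 := hb 0 hn1
  obtain ⟨K, hK⟩ : ∃ K : ℝ, K = κ1 * Pm := ⟨_, rfl⟩
  have hK0 : 0 ≤ K := by rw [hK]; exact mul_nonneg hκ1' (by linarith)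
  have htail : ∀ A : Finset (Site L), (bdry A : ℝ) ≤ 4 * Pm → TailLe (rdm A Ω) K := by
    intro A hAb
    refine c6_tail_mono (spread_law hJ hΔ hq hA hg A).2.1 ?_
    rw [hK, hκ1, mul_assoc (spread_const q R * (J / Δ)) 4 Pm]
    exact mul_le_mul_of_nonneg_left hAb (by positivity)
  have hsd : ∀ A : Finset (Site L), (bdry A : ℝ) ≤ 2 * Pm → TailLe (rdm (A \ I 0) Ω) K := by
    intro A hAb
    apply htail
    have h1 := c6_bdry_sdiff A (I 0)
    have h2 : (bdry (A \ I 0) : ℝ) ≤ (bdry A : ℝ) + bdry (I 0) := by exact_mod_cast h1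
    linarith
  obtain ⟨v, hv⟩ : ∃ v : ℝ, v = Real.log (1536 * ((n : ℝ) + 1) ^ 3) := ⟨_, rfl⟩
  obtain ⟨u, hu⟩ : ∃ u : ℝ, u = (4 + 2 * Real.sqrt K) * v := ⟨_, rfl⟩
  obtain ⟨hv0, hu0, hu2, hu2'⟩ := c6_slack2 K n (by linarith) u v hv hu
  have hn2 : (n : ℝ) + 1 ≤ 2 * N0 * Pm := by
    have h1 : (n : ℝ) = N0 * l := by rw [hn]; push_cast; ring
    have h2 : (N0 : ℝ) * (2 * l) ≤ N0 * Pm := mul_le_mul_of_nonneg_left hPl (by linarith)
    have h3 : (1 : ℝ) ≤ N0 * Pm := by nlinarith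
    rw [h1]
    nlinarith
  have huP : u ≤ (4 + 2 * Real.sqrt κ1) * (c2 + 6) * Pm := by
    rw [hu]
    exact c6_slack κ1 c2 N0 Pm n K v hκ1' hN0r hc2 hc2' hPm1 (by linarith) hn2 hK hv hv0.le
  have hfin := c6_core hJ hΔ hq hA hg n I B hstep hXI (fun k hk => (hgeo k hk).1) θ hθ0 hθ1 hθs
    (hθN (fun k => (bdry (I k) : ℝ)) (fun k hk => (hgeo k hk).2.1)) K u hK0 hu0
    (htail (I 0) (by linarith)) (htail B (by linarith)) (hsd B hbB)
    (fun k hk => hsd (I k) (hb k hk)) hu2 hu2'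
  rw [← hc3] at hfin
  have hc3P : c3 ≤ c3 * Pm := le_mul_of_one_le_right hc3' hPm1
  have e : (9 / 2 * ((4 + 2 * Real.sqrt κ1) * (c2 + 6)) + c3) * Pm =
      9 / 2 * ((4 + 2 * Real.sqrt κ1) * (c2 + 6) * Pm) + c3 * Pm := by ring
  rw [e]
  linarith

end Vale.Agent.P356.SV
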