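import Vale.Agent.P356.SV.Base
import Mathlib.Analysis.Convex.SpecificFunctions.Basic

/-!
First order optimality forces the tilt to be a clipped logarithm of the reduced state.
-/

set_option linter.all false

namespace Vale.Agent.P356.SV

open Matrix Finset Vale.Agent.P356 Vale.Agent.P356.Path
open scoped BigOperators ComplexOrder Kronecker

variable {α β : Type*} [Fintype α] [Fintype β] [DecidableEq α] [DecidableEq β]

/-- conjugated diagonal matrix -/
noncomputable def b1_D (U : Matrix α α ℂ) (d : α → ℝ) : Matrix α α ℂ :=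
  U * diagonal (fun i => (d i : ℂ)) * Uᴴ

theorem b1_mul_left {U : Matrix α α ℂ} (hU : U * Uᴴ = 1) : Uᴴ * U = 1 :=
  mul_eq_one_comm.mp hU

theorem b1_D_mul {U : Matrix α α ℂ} (hU : U * Uᴴ = 1) (d d' : α → ℝ) :
    b1_D U d * b1_D U d' = b1_D U (fun i => d i * d' i) := by
  have h := b1_mul_left hU
  unfold b1_D
  calc U * diagonal (fun i => (d i : ℂ)) * Uᴴ * (U * diagonal (fun i => (d' i : ℂ)) * Uᴴ)
      = U * diagonal (fun i => (d i : ℂ)) * (Uᴴ * U) * diagonal (fun i => (d' i : ℂ)) * Uᴴ := by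
        simp only [Matrix.mul_assoc]
    _ = U * (diagonal (fun i => (d i : ℂ)) * diagonal (fun i => (d' i : ℂ))) * Uᴴ := by
        rw [h, Matrix.mul_one]; simp only [Matrix.mul_assoc]
    _ = _ := by
        rw [diagonal_mul_diagonal]
        congr 3
        ext i
        push_cast
        rfl

theorem b1_D_one {U : Matrix α α ℂ} (hU : U * Uᴴ = 1) (d : α → ℝ) (hd : ∀ i, d i = 1) :
    b1_D U d = 1 := by
  have : (fun i => (d i : ℂ)) = fun _ => 1 := by ext i; rw [hd i]; norm_num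
  unfold b1_D
  rw [this, diagonal_one, Matrix.mul_one, hU]

/-- diagonal entries of a conjugated matrix -/
theorem b1_entry (U P : Matrix α α ℂ) (d : α → ℝ) (c : α) :
    (Pᴴ * b1_D U d * P) c c = ((∑ a, d a * ‖(Uᴴ * P) a c‖ ^ 2 : ℝ) : ℂ) := by
  have e : Pᴴ * b1_D U d * P = (Uᴴ * P)ᴴ * diagonal (fun i => (d i : ℂ)) * (Uᴴ * P) := by
    unfold b1_D
    rw [conjTranspose_mul, conjTranspose_conjTranspose]
    simp only [Matrix.mul_assoc]
  rw [e, mul_apply]
  push_cast
  refine Finset.sum_congr rfl fun i _ => ?_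
  rw [mul_diagonal, conjTranspose_apply, ← Complex.mul_conj', RCLike.star_def]
  ring

theorem b1_trace (V U : Matrix α α ℂ) (d d' : α → ℝ) :
    (b1_D V d * b1_D U d').trace = ((∑ i, ∑ a, d i * d' a * ‖(Vᴴ * U) i a‖ ^ 2 : ℝ) : ℂ) := by
  have e1 : (b1_D V d * b1_D U d').trace =
      ∑ a, (Uᴴ * b1_D V d * U * diagonal (fun i => (d' i : ℂ))) a a := by
    have : b1_D V d * b1_D U d' = (b1_D V d * U * diagonal (fun i => (d' i : ℂ))) * Uᴴ := by
      unfold b1_D; simp only [Matrix.mul_assoc]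
    rw [this, Matrix.trace_mul_comm, Matrix.trace]
    simp only [Matrix.mul_assoc, Matrix.diag_apply]
  rw [e1]
  have e2 : ∀ a, (Uᴴ * b1_D V d * U * diagonal (fun i => (d' i : ℂ))) a a =
      ((∑ i, d i * d' a * ‖(Vᴴ * U) i a‖ ^ 2 : ℝ) : ℂ) := by
    intro a
    rw [mul_diagonal, b1_entry V U d a]
    push_cast
    rw [Finset.sum_mul]
    exact Finset.sum_congr rfl fun i _ => by ring
  rw [Finset.sum_congr rfl fun a _ => e2 a, ← Complex.ofReal_sum, Finset.sum_comm]

theorem b1_row {T : Matrix α α ℂ} (hT : T * Tᴴ = 1) (i : α) : ∑ a, ‖T i a‖ ^ 2 = 1 := by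
  have h : (T * Tᴴ) i i = 1 := by rw [hT, one_apply_eq]
  have h2 : (T * Tᴴ) i i = ((∑ a, ‖T i a‖ ^ 2 : ℝ) : ℂ) := by
    rw [mul_apply]
    push_cast
    refine Finset.sum_congr rfl fun b _ => ?_
    rw [conjTranspose_apply, RCLike.star_def, Complex.mul_conj']
  rw [h2] at h
  exact_mod_cast h

theorem b1_col {T : Matrix α α ℂ} (hT : T * Tᴴ = 1) (a : α) : ∑ i, ‖T i a‖ ^ 2 = 1 := by
  have h0 : Tᴴ * (Tᴴ)ᴴ = 1 := by rw [conjTranspose_conjTranspose]; exact b1_mul_left hT
  have h := b1_row h0 a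
  rw [← h]
  refine Finset.sum_congr rfl fun i _ => ?_
  rw [conjTranspose_apply, norm_star]

theorem b1_unit {V U : Matrix α α ℂ} (hV : V * Vᴴ = 1) (hU : U * Uᴴ = 1) :
    (Vᴴ * U) * (Vᴴ * U)ᴴ = 1 := by
  rw [conjTranspose_mul, conjTranspose_conjTranspose]
  calc Vᴴ * U * (Uᴴ * V) = Vᴴ * (U * Uᴴ) * V := by simp only [Matrix.mul_assoc]
    _ = 1 := by rw [hU, Matrix.mul_one, b1_mul_left hV]

/-- Peierls: spectral decomposition of a convex combination. -/
theorem b1_path {V U : Matrix α α ℂ} (hV : V * Vᴴ = 1) (hU : U * Uᴴ = 1)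
    {θ m : ℝ} (hθ : 0 < θ) (hθ1 : θ ≤ 1) (g f : α → ℝ) (hg : ∀ i, 0 ≤ g i ∧ g i ≤ m)
    (hf : ∀ i, 0 ≤ f i ∧ f i ≤ m) {ε : ℝ} (hε0 : 0 ≤ ε) (hε1 : ε ≤ 1) :
    ∃ (P : Matrix α α ℂ) (g' : α → ℝ), P * Pᴴ = 1 ∧ (∀ i, 0 ≤ g' i ∧ g' i ≤ m) ∧
      b1_D P (fun i => Real.exp (θ * g' i)) =
        ((1 - ε : ℝ) : ℂ) • b1_D U (fun i => Real.exp (θ * g i)) +
          (ε : ℂ) • b1_D V (fun i => Real.exp (θ * f i)) ∧
      ∑ i, Real.exp (g' i) ≤ (1 - ε) * ∑ i, Real.exp (g i) + ε * ∑ i, Real.exp (f i) := by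
  set Y : Matrix α α ℂ := ((1 - ε : ℝ) : ℂ) • b1_D U (fun i => Real.exp (θ * g i)) +
          (ε : ℂ) • b1_D V (fun i => Real.exp (θ * f i)) with hY
  have hDh : ∀ (W : Matrix α α ℂ) (d : α → ℝ), (b1_D W d)ᴴ = b1_D W d := by
    intro W d
    unfold b1_D
    rw [conjTranspose_mul, conjTranspose_mul, conjTranspose_conjTranspose,
      diagonal_conjTranspose]
    have : (star fun i => (d i : ℂ)) = fun i => (d i : ℂ) := by
      ext i
      rw [Pi.star_apply, RCLike.star_def, Complex.conj_ofReal]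
    rw [this]
    simp only [Matrix.mul_assoc]
  have hYh : Y.IsHermitian := by
    show Yᴴ = Y
    rw [hY, conjTranspose_add, conjTranspose_smul, conjTranspose_smul, hDh, hDh,
      RCLike.star_def, Complex.conj_ofReal, Complex.conj_ofReal]
  set P : Matrix α α ℂ := (hYh.eigenvectorUnitary : Matrix α α ℂ) with hP
  set z : α → ℝ := hYh.eigenvalues with hz
  have hPu : P * Pᴴ = 1 := by
    have := hYh.eigenvectorUnitary.2
    rw [Matrix.mem_unitaryGroup_iff] at this
    exact this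
  have hPu' : Pᴴ * P = 1 := b1_mul_left hPu
  have hdiag : Pᴴ * Y * P = diagonal (fun i => (z i : ℂ)) := by
    have := hYh.conjStarAlgAut_star_eigenvectorUnitary
    rw [Unitary.conjStarAlgAut_star_apply] at this
    exact this
  have hYP : Y = b1_D P z := by
    unfold b1_D
    rw [← hdiag]
    calc Y = (P * Pᴴ) * Y * (P * Pᴴ) := by rw [hPu, Matrix.one_mul, Matrix.mul_one]
      _ = _ := by simp only [Matrix.mul_assoc]
  -- the weights
  set A : α → ℝ := fun c => ∑ a, Real.exp (θ * g a) * ‖(Uᴴ * P) a c‖ ^ 2 with hA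
  set B : α → ℝ := fun c => ∑ i, Real.exp (θ * f i) * ‖(Vᴴ * P) i c‖ ^ 2 with hB
  have hTU := b1_unit hU hPu
  have hTV := b1_unit hV hPu
  have hzc : ∀ c, z c = (1 - ε) * A c + ε * B c := by
    intro c
    have h1 : (Pᴴ * Y * P) c c = (z c : ℂ) := by rw [hdiag, diagonal_apply_eq]
    have h2 : (Pᴴ * Y * P) c c = (((1 - ε) * A c + ε * B c : ℝ) : ℂ) := by
      rw [hY, Matrix.mul_add, Matrix.add_mul, Matrix.mul_smul, Matrix.mul_smul,
        Matrix.smul_mul, Matrix.smul_mul, Matrix.add_apply, Matrix.smul_apply, Matrix.smul_apply,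
        b1_entry U P _ c, b1_entry V P _ c, smul_eq_mul, smul_eq_mul, ← Complex.ofReal_mul,
        ← Complex.ofReal_mul, ← Complex.ofReal_add]
    rw [h1] at h2
    exact_mod_cast h2
  -- bounds on A, B
  have hbd : ∀ (W : Matrix α α ℂ) (k : α → ℝ), W * Wᴴ = 1 → (∀ i, 0 ≤ k i ∧ k i ≤ m) → ∀ c,
      1 ≤ ∑ i, Real.exp (θ * k i) * ‖W i c‖ ^ 2 ∧
      ∑ i, Real.exp (θ * k i) * ‖W i c‖ ^ 2 ≤ Real.exp (θ * m) := by
    intro W k hW hk c
    have hc := b1_col hW c
    constructor
    · rw [← hc]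
      refine Finset.sum_le_sum fun i _ => ?_
      have h1 : 1 ≤ Real.exp (θ * k i) := Real.one_le_exp (mul_nonneg hθ.le (hk i).1)
      nlinarith [sq_nonneg ‖W i c‖]
    · have : Real.exp (θ * m) = ∑ i, Real.exp (θ * m) * ‖W i c‖ ^ 2 := by
        rw [← Finset.mul_sum, hc, mul_one]
      rw [this]
      refine Finset.sum_le_sum fun i _ => ?_
      have h1 : Real.exp (θ * k i) ≤ Real.exp (θ * m) :=
        Real.exp_le_exp.mpr (mul_le_mul_of_nonneg_left (hk i).2 hθ.le)
      exact mul_le_mul_of_nonneg_right h1 (sq_nonneg _)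
  have hA1 : ∀ c, 1 ≤ A c ∧ A c ≤ Real.exp (θ * m) := hbd _ g hTU hg
  have hB1 : ∀ c, 1 ≤ B c ∧ B c ≤ Real.exp (θ * m) := hbd _ f hTV hf
  have hz1 : ∀ c, 1 ≤ z c ∧ z c ≤ Real.exp (θ * m) := by
    intro c
    rw [hzc c]
    have h1 := hA1 c
    have h2 := hB1 c
    constructor
    · nlinarith [h1.1, h2.1]
    · nlinarith [h1.2, h2.2]
  have hzpos : ∀ c, 0 < z c := fun c => lt_of_lt_of_le one_pos (hz1 c).1
  refine ⟨P, fun c => Real.log (z c) / θ, hPu, ?_, ?_, ?_⟩
  · intro c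
    constructor
    · exact div_nonneg (Real.log_nonneg (hz1 c).1) hθ.le
    · rw [div_le_iff₀ hθ]
      have := Real.log_le_log (hzpos c) (hz1 c).2
      rw [Real.log_exp] at this
      linarith
  · have : (fun i => Real.exp (θ * (Real.log (z i) / θ))) = z := by
      ext i
      rw [mul_div_cancel₀ _ hθ.ne', Real.exp_log (hzpos i)]
    rw [this, ← hYP]
  · -- Jensen
    have hp : 1 ≤ 1 / θ := by rw [le_div_iff₀ hθ]; linarith
    have hconv : ConvexOn ℝ (Set.Ici 0) (fun x : ℝ => x ^ (1 / θ)) := convexOn_rpow hp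
    have hexp : ∀ c, Real.exp (Real.log (z c) / θ) = z c ^ (1 / θ) := by
      intro c
      rw [Real.rpow_def_of_pos (hzpos c)]
      congr 1
      ring
    have hJ : ∀ (W : Matrix α α ℂ) (k : α → ℝ), W * Wᴴ = 1 → ∀ c,
        (∑ i, Real.exp (θ * k i) * ‖W i c‖ ^ 2) ^ (1 / θ) ≤ ∑ i, Real.exp (k i) * ‖W i c‖ ^ 2 := by
      intro W k hW c
      have h := hconv.map_sum_le (t := Finset.univ) (w := fun i => ‖W i c‖ ^ 2)
        (p := fun i => Real.exp (θ * k i)) (fun i _ => sq_nonneg _) (b1_col hW c)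
        (fun i _ => Set.mem_Ici.mpr (Real.exp_pos _).le)
      simp only [smul_eq_mul] at h
      have e1 : ∑ i, ‖W i c‖ ^ 2 * Real.exp (θ * k i) = ∑ i, Real.exp (θ * k i) * ‖W i c‖ ^ 2 :=
        Finset.sum_congr rfl fun i _ => mul_comm _ _
      have e2 : ∑ i, ‖W i c‖ ^ 2 * Real.exp (θ * k i) ^ (1 / θ) =
          ∑ i, Real.exp (k i) * ‖W i c‖ ^ 2 := by
        refine Finset.sum_congr rfl fun i _ => ?_
        rw [← Real.exp_mul]
        have : θ * k i * (1 / θ) = k i := by field_simp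
        rw [this, mul_comm]
      rw [e1, e2] at h
      exact h
    have hc : ∀ c, Real.exp (Real.log (z c) / θ) ≤
        (1 - ε) * (∑ a, Real.exp (g a) * ‖(Uᴴ * P) a c‖ ^ 2) +
          ε * (∑ i, Real.exp (f i) * ‖(Vᴴ * P) i c‖ ^ 2) := by
      intro c
      rw [hexp, hzc c]
      have h := hconv.2 (Set.mem_Ici.mpr (zero_le_one.trans (hA1 c).1))
        (Set.mem_Ici.mpr (zero_le_one.trans (hB1 c).1)) (sub_nonneg.mpr hε1) hε0 (by ring)
      simp only [smul_eq_mul] at h
      refine h.trans ?_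
      have h1 := hJ _ g hTU c
      have h2 := hJ _ f hTV c
      exact add_le_add (mul_le_mul_of_nonneg_left h1 (sub_nonneg.mpr hε1))
        (mul_le_mul_of_nonneg_left h2 hε0)
    have hS : ∀ (W : Matrix α α ℂ) (k : α → ℝ), W * Wᴴ = 1 →
        ∑ c, ∑ i, Real.exp (k i) * ‖W i c‖ ^ 2 = ∑ i, Real.exp (k i) := by
      intro W k hW
      rw [Finset.sum_comm]
      refine Finset.sum_congr rfl fun i _ => ?_
      rw [← Finset.mul_sum, b1_row hW, mul_one]
    calc ∑ i, Real.exp (Real.log (z i) / θ) ≤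
        ∑ c, ((1 - ε) * (∑ a, Real.exp (g a) * ‖(Uᴴ * P) a c‖ ^ 2) +
          ε * (∑ i, Real.exp (f i) * ‖(Vᴴ * P) i c‖ ^ 2)) := Finset.sum_le_sum fun c _ => hc c
      _ = _ := by rw [Finset.sum_add_distrib, ← Finset.mul_sum, ← Finset.mul_sum,
                    hS _ g hTU, hS _ f hTV]

/-- passing to the first order -/
theorem b1_first {l r : ℝ} (h : ∀ ε : ℝ, 0 < ε → ε ≤ 1 → 0 < 1 + ε * l →
    Real.log (1 + ε * l) ≤ ε * r) : l ≤ r := by
  by_contra hlt
  push Not at hlt
  -- log(1+t) ≥ t/(1+t)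
  have hδ : 0 < l - r := sub_pos.mpr hlt
  set ε : ℝ := min 1 (min (1 / (2 * (|l| + 1))) ((l - r) / (2 * (|l| + 1) * (|r| + 1)))) with hε
  have hl : 0 < |l| + 1 := by positivity
  have hr : 0 < |r| + 1 := by positivity
  have hε0 : 0 < ε := by
    rw [hε]
    refine lt_min one_pos (lt_min (by positivity) (by positivity))
  have hε1 : ε ≤ 1 := min_le_left _ _
  have hε2 : ε ≤ 1 / (2 * (|l| + 1)) := (min_le_right _ _).trans (min_le_left _ _)
  have hε3 : ε ≤ (l - r) / (2 * (|l| + 1) * (|r| + 1)) := (min_le_right _ _).trans (min_le_right _ _)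
  have h1 : ε * |l| ≤ 1 / 2 := by
    rw [le_div_iff₀ (by positivity)] at hε2
    nlinarith [abs_nonneg l]
  have h2 : |ε * l| ≤ 1 / 2 := by rw [abs_mul, abs_of_pos hε0]; exact h1
  have h3 := abs_le.mp h2
  have hpos : 0 < 1 + ε * l := by linarith [h3.1]
  have h4 := h ε hε0 hε1 hpos
  have h5 := Real.one_sub_inv_le_log_of_pos hpos
  have h6 : 1 - (1 + ε * l)⁻¹ = ε * l / (1 + ε * l) := by
    field_simp
    ring
  rw [h6] at h5
  have h7 : ε * l / (1 + ε * l) ≤ ε * r := h5.trans h4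
  rw [div_le_iff₀ hpos] at h7
  have h8 : l ≤ r * (1 + ε * l) := by
    have : ε * l ≤ ε * (r * (1 + ε * l)) := by linarith
    exact le_of_mul_le_mul_left this hε0
  have h9 : l - r ≤ ε * (|r| * |l|) := by
    have : r * l ≤ |r| * |l| := by rw [← abs_mul]; exact le_abs_self _
    nlinarith
  have h10 : ε * (2 * (|l| + 1) * (|r| + 1)) ≤ l - r := by
    rwa [le_div_iff₀ (by positivity)] at hε3
  have h11 : |r| * |l| < 2 * (|l| + 1) * (|r| + 1) := by nlinarith [abs_nonneg l, abs_nonneg r]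
  have h12 := mul_lt_mul_of_pos_left h11 hε0
  linarith

theorem b1_clip_range {κ m : ℝ} (hm : 0 ≤ m) (hκ : 0 < κ) (s : ℝ) :
    0 ≤ clipf κ m s ∧ clipf κ m s ≤ m := by
  unfold clipf
  split_ifs with h
  · exact ⟨le_refl _, hm⟩
  · push Not at h
    refine ⟨le_min hm (Real.log_nonneg ?_), min_le_left _ _⟩
    rw [le_div_iff₀ hκ]
    linarith

theorem b1_clip_sign {κ m : ℝ} (hm : 0 ≤ m) (hκ : 0 < κ) {s : ℝ} (g : ℝ) (hg : 0 ≤ g ∧ g ≤ m) :
    0 ≤ (s - κ * Real.exp (clipf κ m s)) * (clipf κ m s - g) := by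
  unfold clipf
  split_ifs with h
  · rw [Real.exp_zero, mul_one]
    nlinarith [hg.1]
  · push Not at h
    have hs : 0 < s := hκ.trans h
    rcases le_total m (Real.log (s / κ)) with hc | hc
    · rw [min_eq_left hc]
      have h1 : κ * Real.exp m ≤ s := by
        have := Real.exp_le_exp.mpr hc
        rw [Real.exp_log (by positivity), le_div_iff₀ hκ] at this
        linarith
      nlinarith [hg.2]
    · rw [min_eq_right hc, Real.exp_log (by positivity)]
      have : s - κ * (s / κ) = 0 := by field_simp; ring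
      rw [this, zero_mul]

/-- the bracket -/
theorem b1_bracket {κ m θ : ℝ} (hθ : 0 < θ) (hm : 0 ≤ m) (hκ : 0 < κ) {s : ℝ} (g : ℝ)
    (hg : 0 ≤ g ∧ g ≤ m) :
    θ * κ * Real.exp (clipf κ m s) *
      ((clipf κ m s - g) - 1 + Real.exp (-(clipf κ m s - g))) ≤
    s * (Real.exp (θ * clipf κ m s) * Real.exp (-(θ * g)) - 1) -
      θ * κ * (Real.exp (clipf κ m s) - Real.exp g) := by
  set f := clipf κ m s with hf
  have hsign := b1_clip_sign hm hκ (s := s) g hg
  rw [← hf] at hsign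
  have e1 : Real.exp (θ * f) * Real.exp (-(θ * g)) = Real.exp (θ * (f - g)) := by
    rw [← Real.exp_add]; congr 1; ring
  have e2 : Real.exp g = Real.exp f * Real.exp (-(f - g)) := by
    rw [← Real.exp_add]; congr 1; ring
  rw [e1]
  -- step 1
  have h1 : κ * Real.exp f * (Real.exp (θ * (f - g)) - 1) ≤ s * (Real.exp (θ * (f - g)) - 1) := by
    rcases le_total 0 (f - g) with hd | hd
    · rcases hd.eq_or_lt with hd0 | hd0
      · rw [← hd0]; simp
      · have : κ * Real.exp f ≤ s := by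
          by_contra hc
          push Not at hc
          have := mul_neg_of_neg_of_pos (sub_neg.mpr hc) hd0
          linarith
        have h2 : 0 ≤ Real.exp (θ * (f - g)) - 1 := by
          have := Real.one_le_exp (mul_nonneg hθ.le hd)
          linarith
        exact mul_le_mul_of_nonneg_right this h2
    · rcases hd.eq_or_lt with hd0 | hd0
      · rw [hd0]; simp
      · have : s ≤ κ * Real.exp f := by
          by_contra hc
          push Not at hc
          have := mul_neg_of_pos_of_neg (sub_pos.mpr hc) hd0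
          linarith
        have h2 : Real.exp (θ * (f - g)) - 1 ≤ 0 := by
          have := Real.exp_le_one_iff.mpr (mul_nonpos_of_nonneg_of_nonpos hθ.le hd)
          linarith
        nlinarith
  have h2 : θ * (f - g) ≤ Real.exp (θ * (f - g)) - 1 := by
    have := Real.add_one_le_exp (θ * (f - g))
    linarith
  have h3 : κ * Real.exp f * (θ * (f - g)) ≤ κ * Real.exp f * (Real.exp (θ * (f - g)) - 1) :=
    mul_le_mul_of_nonneg_left h2 (by positivity)
  rw [e2]
  nlinarith [h1, h3]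

/-- First order optimality forces the tilt to be a clipped log of the reduced state. -/
theorem opt_lemma (x : α × β → ℂ) (hx : ∑ z, ‖x z‖ ^ 2 = 1)
    {θ m κ : ℝ} (hθ : 0 < θ) (hθ1 : θ ≤ 1) (hm : 0 ≤ m) (hκ : 0 < κ)
    (U : Matrix α α ℂ) (hU : U * Uᴴ = 1) (g : α → ℝ) (hg : ∀ i, 0 ≤ g i ∧ g i ≤ m)
    (hopt : ∀ (U' : Matrix α α ℂ) (g' : α → ℝ), U' * U'ᴴ = 1 → (∀ i, 0 ≤ g' i ∧ g' i ≤ m) →
      0 < 1 + 2 * (redA x * ((U' * diagonal (fun i => (Real.exp (θ * g' i) : ℂ)) * U'ᴴ -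
          U * diagonal (fun i => (Real.exp (θ * g i) : ℂ)) * Uᴴ) *
          (U * diagonal (fun i => (Real.exp (-(θ * g i)) : ℂ)) * Uᴴ))).trace.re →
      Real.log (1 + 2 * (redA x * ((U' * diagonal (fun i => (Real.exp (θ * g' i) : ℂ)) * U'ᴴ -
          U * diagonal (fun i => (Real.exp (θ * g i) : ℂ)) * Uᴴ) *
          (U * diagonal (fun i => (Real.exp (-(θ * g i)) : ℂ)) * Uᴴ))).trace.re) ≤
        2 * θ * κ * ∑ i, (Real.exp (g' i) - Real.exp (g i))) :
    ∀ F : ℝ → ℝ, U * diagonal (fun i => (F (g i) : ℂ)) * Uᴴ =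
      fOp x (fun i => F (clipf κ m (eigp x i))) := by
  set V := eigU x with hVdef
  have hV : V * Vᴴ = 1 := eigU_mul x
  set s := eigp x with hs
  set f : α → ℝ := fun i => clipf κ m (s i) with hf
  have hfr : ∀ i, 0 ≤ f i ∧ f i ≤ m := fun i => b1_clip_range hm hκ (s i)
  have hs1 : ∑ i, s i = 1 := eigp_sum x hx
  set W : α → α → ℝ := fun i a => ‖(Vᴴ * U) i a‖ ^ 2 with hW
  have hW0 : ∀ i a, 0 ≤ W i a := fun i a => sq_nonneg _
  have hVU := b1_unit hV hU
  have hrow : ∀ i, ∑ a, W i a = 1 := fun i => b1_row hVU i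
  have hcol : ∀ a, ∑ i, W i a = 1 := fun a => b1_col hVU a
  have hρ : redA x = b1_D V s := redA_spec x
  -- the linear functional
  set l : ℝ := 2 * ∑ i, ∑ a, W i a * (s i * (Real.exp (θ * f i) * Real.exp (-(θ * g a)) - 1))
    with hl
  set r : ℝ := 2 * θ * κ * (∑ i, Real.exp (f i) - ∑ i, Real.exp (g i)) with hr
  have hkey : l ≤ r := by
    refine b1_first fun ε hε0 hε1 hpos => ?_
    obtain ⟨P, g', hP, hg', hY, hsum⟩ := b1_path hV hU hθ hθ1 g f hg hfr hε0.le hε1
    have hdiff : b1_D P (fun i => Real.exp (θ * g' i)) - b1_D U (fun i => Real.exp (θ * g i)) =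
        (ε : ℂ) • (b1_D V (fun i => Real.exp (θ * f i)) -
          b1_D U (fun i => Real.exp (θ * g i))) := by
      rw [hY]
      push_cast
      rw [sub_smul, one_smul, smul_sub]
      abel
    have hone : b1_D U (fun i => Real.exp (θ * g i)) * b1_D U (fun i => Real.exp (-(θ * g i))) =
        1 := by
      rw [b1_D_mul hU]
      exact b1_D_one hU _ (fun i => by rw [← Real.exp_add, add_neg_cancel, Real.exp_zero])
    have htr : (redA x * ((b1_D P (fun i => Real.exp (θ * g' i)) -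
        b1_D U (fun i => Real.exp (θ * g i))) *
          b1_D U (fun i => Real.exp (-(θ * g i))))).trace.re = ε * (l / 2) := by
      rw [hdiff, Matrix.smul_mul, Matrix.mul_smul, Matrix.trace_smul, smul_eq_mul,
        Complex.re_ofReal_mul]
      congr 1
      rw [Matrix.sub_mul, hone, Matrix.mul_sub, Matrix.trace_sub,
        Matrix.mul_one, ← Matrix.mul_assoc, hρ, b1_D_mul hV, b1_trace]
      have e3 : (b1_D V s).trace = ((∑ i, s i : ℝ) : ℂ) := by
        have : b1_D V s = b1_D V s * b1_D V (fun _ => 1) := by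
          rw [b1_D_one hV _ (fun _ => rfl), Matrix.mul_one]
        rw [this, b1_trace]
        congr 1
        have h0 : Vᴴ * V = 1 := b1_mul_left hV
        rw [h0]
        refine Finset.sum_congr rfl fun i _ => ?_
        rw [Finset.sum_eq_single i]
        · simp
        · intro b _ hb
          rw [one_apply_ne hb.symm]
          simp
        · simp
      rw [e3, Complex.sub_re, Complex.ofReal_re, Complex.ofReal_re, hl]
      have e4 : ∑ i, s i = ∑ i, ∑ a, W i a * s i := by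
        refine Finset.sum_congr rfl fun i _ => ?_
        rw [← Finset.sum_mul, hrow, one_mul]
      rw [e4, mul_div_cancel_left₀ _ (two_ne_zero), ← Finset.sum_sub_distrib]
      refine Finset.sum_congr rfl fun i _ => ?_
      rw [← Finset.sum_sub_distrib]
      refine Finset.sum_congr rfl fun a _ => ?_
      simp only [hW]
      ring
    have h1 := hopt P g' hP hg'
    have h2 : 1 + 2 * (redA x * ((P * diagonal (fun i => (Real.exp (θ * g' i) : ℂ)) * Pᴴ -
          U * diagonal (fun i => (Real.exp (θ * g i) : ℂ)) * Uᴴ) *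
          (U * diagonal (fun i => (Real.exp (-(θ * g i)) : ℂ)) * Uᴴ))).trace.re =
          1 + ε * l := by
      have : (redA x * ((P * diagonal (fun i => (Real.exp (θ * g' i) : ℂ)) * Pᴴ -
          U * diagonal (fun i => (Real.exp (θ * g i) : ℂ)) * Uᴴ) *
          (U * diagonal (fun i => (Real.exp (-(θ * g i)) : ℂ)) * Uᴴ))).trace.re =
          ε * (l / 2) := htr
      rw [this]
      ring
    rw [h2] at h1
    refine (h1 hpos).trans ?_
    rw [Finset.sum_sub_distrib, hr]
    have : ∑ i, Real.exp (g' i) - ∑ i, Real.exp (g i) ≤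
        ε * (∑ i, Real.exp (f i) - ∑ i, Real.exp (g i)) := by linarith
    have h3 := mul_le_mul_of_nonneg_left this (show 0 ≤ 2 * θ * κ by positivity)
    linarith
  -- all brackets vanish
  have hbr : ∀ i a, 0 ≤ s i * (Real.exp (θ * f i) * Real.exp (-(θ * g a)) - 1) -
      θ * κ * (Real.exp (f i) - Real.exp (g a)) := by
    intro i a
    have h := b1_bracket hθ hm hκ (s := s i) (g a) (hg a)
    refine le_trans ?_ h
    have h1 := Real.add_one_le_exp (-(clipf κ m (s i) - g a))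
    have : 0 ≤ (clipf κ m (s i) - g a) - 1 + Real.exp (-(clipf κ m (s i) - g a)) := by linarith
    positivity
  have hsum0 : ∑ i, ∑ a, W i a * (s i * (Real.exp (θ * f i) * Real.exp (-(θ * g a)) - 1) -
      θ * κ * (Real.exp (f i) - Real.exp (g a))) ≤ 0 := by
    have e : ∑ i, ∑ a, W i a * (s i * (Real.exp (θ * f i) * Real.exp (-(θ * g a)) - 1) -
      θ * κ * (Real.exp (f i) - Real.exp (g a))) = l / 2 - r / 2 := by
      have e1 : ∑ i, ∑ a, W i a * (θ * κ * (Real.exp (f i) - Real.exp (g a))) = r / 2 := by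
        have e2 : ∑ i, ∑ a, W i a * Real.exp (f i) = ∑ i, Real.exp (f i) := by
          refine Finset.sum_congr rfl fun i _ => ?_
          rw [← Finset.sum_mul, hrow, one_mul]
        have e3 : ∑ i, ∑ a, W i a * Real.exp (g a) = ∑ a, Real.exp (g a) := by
          rw [Finset.sum_comm]
          refine Finset.sum_congr rfl fun i _ => ?_
          rw [← Finset.sum_mul, hcol, one_mul]
        rw [hr, ← e2, ← e3, ← Finset.sum_sub_distrib]
        have : 2 * θ * κ * (∑ x : α, (∑ a, W x a * Real.exp (f x) - ∑ a, W x a * Real.exp (g a))) / 2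
          = θ * κ * (∑ x : α, (∑ a, W x a * Real.exp (f x) - ∑ a, W x a * Real.exp (g a))) := by
          ring
        rw [this, Finset.mul_sum]
        refine Finset.sum_congr rfl fun i _ => ?_
        rw [← Finset.sum_sub_distrib, Finset.mul_sum]
        refine Finset.sum_congr rfl fun a _ => ?_
        ring
      rw [← e1, hl, mul_div_cancel_left₀ _ (two_ne_zero), ← Finset.sum_sub_distrib]
      refine Finset.sum_congr rfl fun i _ => ?_
      rw [← Finset.sum_sub_distrib]
      refine Finset.sum_congr rfl fun a _ => ?_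
      ring
    rw [e]
    linarith
  have hterm : ∀ i a, W i a * (s i * (Real.exp (θ * f i) * Real.exp (-(θ * g a)) - 1) -
      θ * κ * (Real.exp (f i) - Real.exp (g a))) = 0 := by
    have hnn : ∀ i, 0 ≤ ∑ a, W i a * (s i * (Real.exp (θ * f i) * Real.exp (-(θ * g a)) - 1) -
      θ * κ * (Real.exp (f i) - Real.exp (g a))) :=
      fun i => Finset.sum_nonneg fun a _ => mul_nonneg (hW0 i a) (hbr i a)
    have hz : ∑ i, ∑ a, W i a * (s i * (Real.exp (θ * f i) * Real.exp (-(θ * g a)) - 1) -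
      θ * κ * (Real.exp (f i) - Real.exp (g a))) = 0 :=
      le_antisymm hsum0 (Finset.sum_nonneg fun i _ => hnn i)
    intro i a
    have h1 := (Finset.sum_eq_zero_iff_of_nonneg (fun i _ => hnn i)).mp hz i (Finset.mem_univ i)
    exact (Finset.sum_eq_zero_iff_of_nonneg
      (fun a _ => mul_nonneg (hW0 i a) (hbr i a))).mp h1 a (Finset.mem_univ a)
  have heq : ∀ i a, (Vᴴ * U) i a ≠ 0 → f i = g a := by
    intro i a hne
    have hWne : W i a ≠ 0 := by
      simp only [hW]
      exact pow_ne_zero 2 (norm_ne_zero_iff.mpr hne)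
    have h0 := (mul_eq_zero.mp (hterm i a)).resolve_left hWne
    have h := b1_bracket hθ hm hκ (s := s i) (g a) (hg a)
    by_contra hfg
    have hd : -(clipf κ m (s i) - g a) ≠ 0 := by
      intro h3
      apply hfg
      show clipf κ m (s i) = g a
      linarith
    have h1 := Real.add_one_lt_exp hd
    have h2 : 0 < (clipf κ m (s i) - g a) - 1 + Real.exp (-(clipf κ m (s i) - g a)) := by linarith
    have h3 : 0 < θ * κ * Real.exp (clipf κ m (s i)) *
      ((clipf κ m (s i) - g a) - 1 + Real.exp (-(clipf κ m (s i) - g a))) := by positivity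
    have h4 : s i * (Real.exp (θ * clipf κ m (s i)) * Real.exp (-(θ * g a)) - 1) -
      θ * κ * (Real.exp (clipf κ m (s i)) - Real.exp (g a)) = 0 := h0
    linarith
  -- conclusion
  intro F
  have hmid : (Vᴴ * U) * diagonal (fun i => (F (g i) : ℂ)) =
      diagonal (fun i => (F (f i) : ℂ)) * (Vᴴ * U) := by
    ext i a
    rw [mul_diagonal, diagonal_mul]
    by_cases h : (Vᴴ * U) i a = 0
    · rw [h]; ring
    · rw [heq i a h]; ring
  show U * diagonal (fun i => (F (g i) : ℂ)) * Uᴴ =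
    V * diagonal (fun i => (F (f i) : ℂ)) * Vᴴ
  calc U * diagonal (fun i => (F (g i) : ℂ)) * Uᴴ
      = V * ((Vᴴ * U) * diagonal (fun i => (F (g i) : ℂ))) * Uᴴ := by
        have : V * ((Vᴴ * U) * diagonal (fun i => (F (g i) : ℂ))) * Uᴴ =
          (V * Vᴴ) * U * diagonal (fun i => (F (g i) : ℂ)) * Uᴴ := by
          simp only [Matrix.mul_assoc]
        rw [this, hV, Matrix.one_mul]
    _ = V * diagonal (fun i => (F (f i) : ℂ)) * Vᴴ * (U * Uᴴ) := by
        rw [hmid]; simp only [Matrix.mul_assoc]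
    _ = _ := by rw [hU, Matrix.mul_one]

end Vale.Agent.P356.SV
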