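import Vale.Agent.P356.SV.Tilt6

set_option linter.all false

/-!
The tilt inequality, abstract form.
-/

namespace Vale.Agent.P356.SV

open Matrix Finset Vale.Agent.P356 Vale.Agent.P356.Path
open scoped BigOperators ComplexOrder Kronecker

/-- The tilt inequality, abstract form. -/
theorem tilt_abstract {N : Type} [Fintype N] [DecidableEq N] (α β : ℕ → Type)
    [∀ k, Fintype (α k)] [∀ k, DecidableEq (α k)] [∀ k, Fintype (β k)] [∀ k, DecidableEq (β k)]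
    (e : ∀ k, N ≃ α k × β k)
    (hcomm : ∀ j k, j ≤ k → ∀ (Y : Matrix (α k) (α k) ℂ) (S : Matrix (β j) (β j) ℂ),
      opL (e k) Y * opR (e j) S = opR (e j) S * opL (e k) Y)
    {H : Matrix N N ℂ} {E Δ : ℝ} {Ω : N → ℂ} (hΔ : 0 < Δ) (hg : Gapped H E Ω Δ)
    (n : ℕ) {Z : Type} [Fintype Z] (h : Z → Matrix N N ℂ) (hH : H = ∑ z, h z) (κ : Z → ℕ)
    (hκR : ∀ z j, j < κ z → ∀ S, h z * opR (e j) S = opR (e j) S * h z)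
    (hκL : ∀ z j, κ z < j → j < n → ∀ Y, h z * opL (e j) Y = opL (e j) Y * h z)
    (w : Z → ℝ) (hw : ∀ z, κ z < n → CutBound (e (κ z)) (h z) (w z))
    (θ K : ℕ → ℝ) (m : ℝ) (hm : 0 ≤ m) (hθ0 : ∀ k, 0 < θ k) (hθ1 : ∀ k, θ k ≤ 1 / 4)
    (hN : 9 * ∑ k ∈ range n, θ k ^ 2 * (∑ z, if κ z = k then w z else 0) ≤ Δ / 32)
    (hw0 : ∀ z, 0 ≤ w z)
    (hK : ∀ k, 0 < K k)
    (hTop : ∀ k < n, ∀ Q : Matrix (α k) (α k) ℂ, IsPr Q → Q.trace.re ≤ K k →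
      nsq (opL (e k) Q *ᵥ Ω) ≤ 1 / 16)
    (B : Matrix N N ℂ) (hB : Contr B)
    (hBc : ∀ k < n, ∀ Y, B * opL (e k) Y = opL (e k) Y * B)
    (hp0 : 0 < nsq (B *ᵥ Ω))
    (Pr : ∀ k, Matrix (α k) (α k) ℂ) (hPr : ∀ k < n, IsPr (Pr k))
    (hPrt : ∀ k < n, (Pr k).trace.re ≤ K k * Real.exp (-m))
    (hd : ∑ k ∈ range n, Real.sqrt (nsq ((1 - opL (e k) (Pr k)) *ᵥ (B *ᵥ Ω))) ≤
      1 / 2 * Real.sqrt (nsq (B *ᵥ Ω))) :
    3 / 2 * m * ∑ k ∈ range n, θ k ≤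
      -Real.log (nsq (B *ᵥ Ω)) + 2 * Real.log 2 + 2 * ∑ k ∈ range n, θ k :=
  tilt_abstract' e hcomm hΔ hg n h hH κ hκR hκL w hw θ K m hm hθ0 hθ1 hN hw0 hK hTop B hB hBc
    hp0 Pr hPr hPrt hd

end Vale.Agent.P356.SV
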