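import Vale.Agent.P356.SV.Tilt1
import Vale.Agent.P356.SV.Opt
import Vale.Agent.P356.SV.Cut

set_option linter.all false

/-!
The variational problem and the form of its maximisers.
-/

namespace Vale.Agent.P356.SV

open Matrix Finset Vale.Agent.P356 Vale.Agent.P356.Path
open scoped BigOperators ComplexOrder Kronecker

section dop
variable {a : Type*} [Fintype a] [DecidableEq a]

/-- operator given by its eigenbasis and its eigenvalues -/
noncomputable def dOp (U : Matrix a a ℂ) (f : a → ℝ) : Matrix a a ℂ :=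
  U * diagonal (fun i => (f i : ℂ)) * Uᴴ

theorem dOp_herm (U : Matrix a a ℂ) (f : a → ℝ) : (dOp U f)ᴴ = dOp U f := by
  rw [dOp, conjTranspose_mul, conjTranspose_mul, conjTranspose_conjTranspose,
    diagonal_conjTranspose, Matrix.mul_assoc]
  congr 3
  funext i
  simp only [Pi.star_apply, RCLike.star_def, Complex.conj_ofReal]

theorem dOp_mul {U : Matrix a a ℂ} (hU : U * Uᴴ = 1) (f g : a → ℝ) :
    dOp U f * dOp U g = dOp U (fun i => f i * g i) := by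
  have h : Uᴴ * U = 1 := mul_eq_one_comm.mp hU
  rw [dOp, dOp, dOp]
  calc U * diagonal (fun i => (f i : ℂ)) * Uᴴ *
      (U * diagonal (fun i => (g i : ℂ)) * Uᴴ) =
      U * diagonal (fun i => (f i : ℂ)) * (Uᴴ * U) *
        diagonal (fun i => (g i : ℂ)) * Uᴴ := by simp only [Matrix.mul_assoc]
    _ = U * (diagonal (fun i => (f i : ℂ)) * diagonal (fun i => (g i : ℂ))) *
        Uᴴ := by rw [h, Matrix.mul_one, Matrix.mul_assoc U]
    _ = _ := by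
        rw [diagonal_mul_diagonal]
        simp only [Complex.ofReal_mul]

theorem dOp_one {U : Matrix a a ℂ} (hU : U * Uᴴ = 1) : dOp U (fun _ => 1) = 1 := by
  rw [dOp]
  simp only [Complex.ofReal_one, diagonal_one, Matrix.mul_one]
  exact hU

theorem dOp_apply (U : Matrix a a ℂ) (f : a → ℝ) (i j : a) :
    dOp U f i j = ∑ k, U i k * (f k : ℂ) * star (U j k) := by
  rw [dOp, Matrix.mul_apply]
  refine Finset.sum_congr rfl fun k _ => ?_
  rw [mul_diagonal, conjTranspose_apply]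

end dop

/-- parameters of the tilt at one cut -/
abbrev Par (α : ℕ → Type) (k : ℕ) := Matrix (α k) (α k) ℂ × (α k → ℝ)

section var
variable {N : Type} [Fintype N] [DecidableEq N] {α β : ℕ → Type}
  [∀ k, Fintype (α k)] [∀ k, DecidableEq (α k)] [∀ k, Fintype (β k)] [∀ k, DecidableEq (β k)]

/-- the tilt at cut `k` -/
noncomputable def YY (e : ∀ k, N ≃ α k × β k) (θ : ℕ → ℝ) (π : ∀ k, Par α k) (t : ℝ) (k : ℕ) :
    Matrix N N ℂ :=
  opL (e k) (dOp (π k).1 (fun i => Real.exp (t * θ k * (π k).2 i)))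

/-- feasible parameters -/
def Feas (α : ℕ → Type) [∀ k, Fintype (α k)] [∀ k, DecidableEq (α k)] (m : ℝ) :
    Set (∀ k, Par α k) :=
  {π | ∀ k, (π k).1 * (π k).1ᴴ = 1 ∧ ∀ i, 0 ≤ (π k).2 i ∧ (π k).2 i ≤ m}

/-- the tilted vector -/
noncomputable def vv (e : ∀ k, N ≃ α k × β k) (θ : ℕ → ℝ) (Ω : N → ℂ) (n : ℕ)
    (t : ℝ) (π : ∀ k, Par α k) : N → ℂ := prR (YY e θ π t) n *ᵥ Ω

/-- the penalty -/
noncomputable def pen (θ K : ℕ → ℝ) (n : ℕ) (π : ∀ k, Par α k) : ℝ :=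
  ∑ k ∈ range n, 2 * θ k * (1 / K k) * ∑ i, (Real.exp ((π k).2 i) - 1)

/-- the functional -/
noncomputable def FF (e : ∀ k, N ≃ α k × β k) (θ K : ℕ → ℝ) (Ω : N → ℂ) (n : ℕ)
    (t : ℝ) (π : ∀ k, Par α k) : ℝ :=
  Real.log (nsq (vv e θ Ω n t π)) - t * pen θ K n π

/-- the normalised tilted state -/
noncomputable def psi (e : ∀ k, N ≃ α k × β k) (θ : ℕ → ℝ) (Ω : N → ℂ) (n : ℕ)
    (t : ℝ) (π : ∀ k, Par α k) : N → ℂ :=
  (((Real.sqrt (nsq (vv e θ Ω n t π)))⁻¹ : ℝ) : ℂ) • vv e θ Ω n t π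

theorem YY_herm (e : ∀ k, N ≃ α k × β k) (θ : ℕ → ℝ) (π : ∀ k, Par α k) (t : ℝ) (k : ℕ) :
    (YY e θ π t k)ᴴ = YY e θ π t k := by
  rw [YY, opL_conjTranspose, dOp_herm]

theorem YY_inv (e : ∀ k, N ≃ α k × β k) (θ : ℕ → ℝ) {π : ∀ k, Par α k} {k : ℕ}
    (hπ : (π k).1 * (π k).1ᴴ = 1) (t : ℝ) :
    YY e θ π (-t) k * YY e θ π t k = 1 := by
  rw [YY, YY, ← opL_mul, dOp_mul hπ]
  have : (fun i => Real.exp (-t * θ k * (π k).2 i) * Real.exp (t * θ k * (π k).2 i)) =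
      fun _ => (1 : ℝ) := by
    funext i
    rw [← Real.exp_add]
    have : -t * θ k * (π k).2 i + t * θ k * (π k).2 i = 0 := by ring
    rw [this, Real.exp_zero]
  rw [this, dOp_one hπ, opL_one]

theorem vv_pos (e : ∀ k, N ≃ α k × β k) (θ : ℕ → ℝ) {Ω : N → ℂ} (hΩ : nsq Ω = 1) (n : ℕ)
    (t : ℝ) {m : ℝ} {π : ∀ k, Par α k} (hπ : π ∈ Feas α m) : 0 < nsq (vv e θ Ω n t π) := by
  rcases (nsq_nonneg' (vv e θ Ω n t π)).lt_or_eq with h | h
  · exact h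
  · exfalso
    have h1 : vv e θ Ω n t π = 0 := by
      funext s
      have h2 : ∀ s ∈ (Finset.univ : Finset N), ‖vv e θ Ω n t π s‖ ^ 2 = 0 :=
        (Finset.sum_eq_zero_iff_of_nonneg (fun i _ => sq_nonneg _)).mp h.symm
      have h3 := h2 s (Finset.mem_univ s)
      simpa using h3
    have h4 : prL (YY e θ π (-t)) n *ᵥ (vv e θ Ω n t π) = Ω := by
      rw [vv, mulVec_mulVec, prL_mul_prR (fun j _ => YY_inv e θ (hπ j).1 t), one_mulVec]
    rw [h1, mulVec_zero] at h4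
    rw [← h4] at hΩ
    simp [nsq] at hΩ

theorem nsq_psi (e : ∀ k, N ≃ α k × β k) (θ : ℕ → ℝ) {Ω : N → ℂ} (hΩ : nsq Ω = 1) (n : ℕ)
    (t : ℝ) {m : ℝ} {π : ∀ k, Par α k} (hπ : π ∈ Feas α m) : nsq (psi e θ Ω n t π) = 1 := by
  have h := vv_pos e θ hΩ n t hπ
  rw [psi, nsq_smul, Complex.norm_real, Real.norm_eq_abs, sq_abs, inv_pow,
    Real.sq_sqrt h.le]
  exact inv_mul_cancel₀ h.ne'

/-- the form of the tilt at cut `k` as a function of the reduced state -/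
def HasForm (e : ∀ k, N ≃ α k × β k) (K : ℕ → ℝ) (m : ℝ) (ψ : N → ℂ) (π : ∀ k, Par α k)
    (k : ℕ) : Prop :=
  ∀ F : ℝ → ℝ, dOp (π k).1 (fun i => F ((π k).2 i)) =
    fOp (ψ ∘ (e k).symm) (fun i => F (clipf (1 / K k) m (eigp (ψ ∘ (e k).symm) i)))

/-- transport data from the form -/
theorem transport_of_form (e : ∀ k, N ≃ α k × β k) (θ K : ℕ → ℝ) (m t : ℝ) (ψ : N → ℂ)
    (π : ∀ k, Par α k) (j : ℕ) (hf : HasForm e K m ψ π j) :
    ∃ A ∈ Set.range (opR (e j) : Matrix (β j) (β j) ℂ → Matrix N N ℂ),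
      ∃ A' ∈ Set.range (opR (e j) : Matrix (β j) (β j) ℂ → Matrix N N ℂ),
      Aᴴ * A' = 1 ∧ A *ᵥ ψ = YY e θ π t j *ᵥ ψ ∧ A' *ᵥ ψ = YY e θ π (-t) j *ᵥ ψ := by
  obtain ⟨S, S', h1, h2, h3, h4, h5⟩ := transport (e j) ψ
    (fun i => Real.exp (t * θ j * clipf (1 / K j) m (eigp (ψ ∘ (e j).symm) i)))
    (fun i => Real.exp_pos _)
  refine ⟨opR (e j) S, ⟨S, rfl⟩, opR (e j) S', ⟨S', rfl⟩, ?_, ?_, ?_⟩
  · rw [opR_conjTranspose, h1, ← opR_mul, h3, opR_one]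
  · rw [h4, YY, hf (fun r => Real.exp (t * θ j * r))]
  · rw [h5, YY, hf (fun r => Real.exp (-t * θ j * r))]
    congr 3
    funext i
    rw [← Real.exp_neg]
    congr 1
    ring

/-- the transport identity for the tilts -/
theorem phi_YY (e : ∀ k, N ≃ α k × β k)
    (hcomm : ∀ j k, j ≤ k → ∀ (Y : Matrix (α k) (α k) ℂ) (S : Matrix (β j) (β j) ℂ),
      opL (e k) Y * opR (e j) S = opR (e j) S * opL (e k) Y)
    (θ K : ℕ → ℝ) (m t : ℝ) (ψ : N → ℂ) (π : ∀ k, Par α k) (k : ℕ)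
    (hf : ∀ j < k, HasForm e K m ψ π j) (X : Matrix N N ℂ)
    (hX : ∀ j < k, ∀ S : Matrix (β j) (β j) ℂ, X * opR (e j) S = opR (e j) S * X) :
    star (prL (YY e θ π t) k *ᵥ ψ) ⬝ᵥ (X *ᵥ (prL (YY e θ π (-t)) k *ᵥ ψ)) =
      star ψ ⬝ᵥ (X *ᵥ ψ) := by
  refine phi ψ (YY e θ π t) (YY e θ π (-t))
    (fun j => Set.range (opR (e j) : Matrix (β j) (β j) ℂ → Matrix N N ℂ)) k
    (fun j hj => transport_of_form e θ K m t ψ π j (hf j hj)) ?_ X ?_
  · rintro j hj i hij A ⟨S, rfl⟩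
    exact ⟨hcomm i j hij _ S, hcomm i j hij _ S⟩
  · rintro j hj B ⟨S, rfl⟩
    exact hX j hj S

/-- scaling: the transport identity for the unnormalised vector -/
theorem phi_vv (e : ∀ k, N ≃ α k × β k)
    (hcomm : ∀ j k, j ≤ k → ∀ (Y : Matrix (α k) (α k) ℂ) (S : Matrix (β j) (β j) ℂ),
      opL (e k) Y * opR (e j) S = opR (e j) S * opL (e k) Y)
    (θ K : ℕ → ℝ) (m t : ℝ) {Ω : N → ℂ} (hΩ : nsq Ω = 1) (n : ℕ) {π : ∀ k, Par α k}
    (hπ : π ∈ Feas α m) (k : ℕ)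
    (hf : ∀ j < k, HasForm e K m (psi e θ Ω n t π) π j) (X : Matrix N N ℂ)
    (hX : ∀ j < k, ∀ S : Matrix (β j) (β j) ℂ, X * opR (e j) S = opR (e j) S * X) :
    star (prL (YY e θ π t) k *ᵥ (vv e θ Ω n t π)) ⬝ᵥ
        (X *ᵥ (prL (YY e θ π (-t)) k *ᵥ (vv e θ Ω n t π))) =
      ((nsq (vv e θ Ω n t π) : ℝ) : ℂ) *
        (star (psi e θ Ω n t π) ⬝ᵥ (X *ᵥ (psi e θ Ω n t π))) := by
  have hpos := vv_pos e θ hΩ n t hπ
  set v := vv e θ Ω n t π with hv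
  set ψ := psi e θ Ω n t π with hψ
  have hvψ : v = ((Real.sqrt (nsq v) : ℝ) : ℂ) • ψ := by
    rw [hψ, psi, ← hv, smul_smul, ← Complex.ofReal_mul,
      mul_inv_cancel₀ (Real.sqrt_pos.mpr hpos).ne', Complex.ofReal_one, one_smul]
  have h := phi_YY e hcomm θ K m t ψ π k hf X hX
  conv_lhs => rw [hvψ]
  rw [mulVec_smul, mulVec_smul, mulVec_smul, star_smul, smul_dotProduct, dotProduct_smul, h,
    smul_eq_mul, smul_eq_mul, ← mul_assoc]
  congr 1
  rw [RCLike.star_def, Complex.conj_ofReal, ← Complex.ofReal_mul,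
    Real.mul_self_sqrt hpos.le]

/-- Maximisers have the form of clipped logarithms. -/
theorem form_of_max (e : ∀ k, N ≃ α k × β k)
    (hcomm : ∀ j k, j ≤ k → ∀ (Y : Matrix (α k) (α k) ℂ) (S : Matrix (β j) (β j) ℂ),
      opL (e k) Y * opR (e j) S = opR (e j) S * opL (e k) Y)
    (θ K : ℕ → ℝ) {m t : ℝ} (hm : 0 ≤ m) (hθ0 : ∀ k, 0 < θ k) (hθ1 : ∀ k, θ k ≤ 1 / 4)
    (hK : ∀ k, 0 < K k) (ht : 0 < t) (ht1 : t ≤ 1)
    {Ω : N → ℂ} (hΩ : nsq Ω = 1) (n : ℕ) {π : ∀ k, Par α k}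
    (hπ : π ∈ Feas α m)
    (hmax : ∀ π' ∈ Feas α m, FF e θ K Ω n t π' ≤ FF e θ K Ω n t π) :
    ∀ k < n, HasForm e K m (psi e θ Ω n t π) π k := by
  intro k
  induction k using Nat.strong_induction_on with
  | _ k ih =>
  intro hk
  have hf : ∀ j < k, HasForm e K m (psi e θ Ω n t π) π j := fun j hj => ih j hj (hj.trans hk)
  have hpos := vv_pos e θ hΩ n t hπ
  have hψ1 := nsq_psi e θ hΩ n t hπ
  have hx1 : ∑ z, ‖(psi e θ Ω n t π ∘ (e k).symm) z‖ ^ 2 = 1 := by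
    have := nsq_comp (e k) (psi e θ Ω n t π)
    rw [hψ1] at this
    exact this
  obtain ⟨r, hr⟩ : ∃ r, n = k + 1 + r := ⟨n - (k + 1), by omega⟩
  refine opt_lemma (psi e θ Ω n t π ∘ (e k).symm) hx1 (θ := t * θ k) (m := m) (κ := 1 / K k)
    (mul_pos ht (hθ0 k)) (by have := hθ1 k; have := hθ0 k; nlinarith) hm (by have := hK k; positivity) (π k).1 (hπ k).1 (π k).2 (hπ k).2 ?_
  intro U' g' hU' hg' hpos'
  set π' : ∀ k, Par α k := Function.update π k (U', g') with hπ'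
  have hfeas : π' ∈ Feas α m := by
    intro j
    by_cases hj : j = k
    · subst hj
      rw [hπ', Function.update_self]
      exact ⟨hU', hg'⟩
    · rw [hπ', Function.update_of_ne hj]
      exact hπ j
  have hne : ∀ j, j ≠ k → YY e θ π' t j = YY e θ π t j := by
    intro j hj
    rw [YY, YY, hπ', Function.update_of_ne hj]
  have hmaxi := hmax π' hfeas
  have hpos2 := vv_pos e θ hΩ n t hfeas
  -- penalties
  have hpen : pen θ K n π' = pen θ K n π +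
      2 * θ k * (1 / K k) * ∑ i, (Real.exp (g' i) - Real.exp ((π k).2 i)) := by
    rw [pen, pen, ← Finset.add_sum_erase (range n) _ (Finset.mem_range.mpr hk),
      ← Finset.add_sum_erase (range n) (fun k => 2 * θ k * (1 / K k) *
        ∑ i, (Real.exp ((π k).2 i) - 1)) (Finset.mem_range.mpr hk)]
    have h1 : ∑ j ∈ (range n).erase k, 2 * θ j * (1 / K j) * ∑ i, (Real.exp ((π' j).2 i) - 1) =
        ∑ j ∈ (range n).erase k, 2 * θ j * (1 / K j) * ∑ i, (Real.exp ((π j).2 i) - 1) := by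
      refine Finset.sum_congr rfl fun j hj => ?_
      rw [hπ', Function.update_of_ne (Finset.ne_of_mem_erase hj)]
    rw [h1]
    have h2 : (π' k) = (U', g') := by rw [hπ', Function.update_self]
    rw [h2]
    simp only [Finset.sum_sub_distrib]
    ring
  -- vectors
  set Yk : Matrix (α k) (α k) ℂ := dOp (π k).1 (fun i => Real.exp (t * θ k * (π k).2 i)) with hYk
  set Yk' : Matrix (α k) (α k) ℂ := dOp U' (fun i => Real.exp (t * θ k * g' i)) with hYk'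
  set Yi : Matrix (α k) (α k) ℂ := dOp (π k).1 (fun i => Real.exp (-t * θ k * (π k).2 i)) with hYi
  have hYYk : YY e θ π t k = opL (e k) Yk := rfl
  have hYYk' : YY e θ π' t k = opL (e k) Yk' := by
    rw [YY, hπ', Function.update_self]
  have hYYi : YY e θ π (-t) k = opL (e k) Yi := rfl
  set w : N → ℂ := prS (YY e θ π t) (k + 1) r *ᵥ Ω with hw
  have hv : vv e θ Ω n t π = prR (YY e θ π t) k *ᵥ (YY e θ π t k *ᵥ w) := by
    rw [vv, hr, prR_split, prR, hw, mulVec_mulVec, mulVec_mulVec, Matrix.mul_assoc]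
  have hv' : vv e θ Ω n t π' = prR (YY e θ π t) k *ᵥ (YY e θ π' t k *ᵥ w) := by
    have e4 : prR (YY e θ π' t) k = prR (YY e θ π t) k :=
      prR_congr (fun j hj => hne j (Nat.ne_of_lt hj))
    have e5 : prS (YY e θ π' t) (k + 1) r = prS (YY e θ π t) (k + 1) r :=
      prS_congr (fun i hi => hne i (by omega))
    rw [vv, hr, prR_split, prR, hw, mulVec_mulVec, mulVec_mulVec, e4, e5, Matrix.mul_assoc]
  have hw2 : w = YY e θ π (-t) k *ᵥ (prL (YY e θ π (-t)) k *ᵥ (vv e θ Ω n t π)) := by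
    rw [hv, mulVec_mulVec (M := prL (YY e θ π (-t)) k),
      prL_mul_prR (fun j _ => YY_inv e θ (hπ j).1 t), one_mulVec, mulVec_mulVec,
      YY_inv e θ (hπ k).1 t, one_mulVec]
  have hdiff : vv e θ Ω n t π' = vv e θ Ω n t π +
      prR (YY e θ π t) k *ᵥ (opL (e k) ((Yk' - Yk) * Yi) *ᵥ
        (prL (YY e θ π (-t)) k *ᵥ (vv e θ Ω n t π))) := by
    have h1 : opL (e k) ((Yk' - Yk) * Yi) *ᵥ
        (prL (YY e θ π (-t)) k *ᵥ (vv e θ Ω n t π)) = YY e θ π' t k *ᵥ w - YY e θ π t k *ᵥ w := by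
      rw [opL_mul, ← mulVec_mulVec, ← hYYi, ← hw2, opL_sub, sub_mulVec, hYYk', hYYk]
    rw [h1, hv', mulVec_sub]
    conv_rhs => rw [hv]
    abel
  have hcross : (star (vv e θ Ω n t π) ⬝ᵥ (prR (YY e θ π t) k *ᵥ
      (opL (e k) ((Yk' - Yk) * Yi) *ᵥ (prL (YY e θ π (-t)) k *ᵥ (vv e θ Ω n t π))))).re =
      nsq (vv e θ Ω n t π) *
        (redA (psi e θ Ω n t π ∘ (e k).symm) * ((Yk' - Yk) * Yi)).trace.re := by
    have h1 := phi_vv e hcomm θ K m t hΩ n hπ k hf (opL (e k) ((Yk' - Yk) * Yi))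
      (fun j hj S => hcomm j k hj.le _ S)
    rw [expect_opL] at h1
    have h2 : star (vv e θ Ω n t π) ⬝ᵥ (prR (YY e θ π t) k *ᵥ
      (opL (e k) ((Yk' - Yk) * Yi) *ᵥ (prL (YY e θ π (-t)) k *ᵥ (vv e θ Ω n t π)))) =
      star (prL (YY e θ π t) k *ᵥ (vv e θ Ω n t π)) ⬝ᵥ
        (opL (e k) ((Yk' - Yk) * Yi) *ᵥ (prL (YY e θ π (-t)) k *ᵥ (vv e θ Ω n t π))) := by
      have h3 : (prL (YY e θ π t) k)ᴴ = prR (YY e θ π t) k := by
        have h4 := prR_conjTranspose (YY e θ π t) k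
        simp only [YY_herm] at h4
        rw [← h4, conjTranspose_conjTranspose]
      rw [ip_mulVec, h3]
    rw [h2, h1, Complex.re_ofReal_mul]
  have hnsq : nsq (vv e θ Ω n t π) *
      (1 + 2 * (redA (psi e θ Ω n t π ∘ (e k).symm) * ((Yk' - Yk) * Yi)).trace.re) ≤
      nsq (vv e θ Ω n t π') := by
    rw [hdiff, nsq_add, hcross]
    have := nsq_nonneg' (prR (YY e θ π t) k *ᵥ (opL (e k) ((Yk' - Yk) * Yi) *ᵥ
        (prL (YY e θ π (-t)) k *ᵥ (vv e θ Ω n t π))))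
    linarith
  have e1 : U' * diagonal (fun i => (Real.exp (t * θ k * g' i) : ℂ)) * U'ᴴ = Yk' := rfl
  have e2 : (π k).1 * diagonal (fun i => (Real.exp (t * θ k * (π k).2 i) : ℂ)) * (π k).1ᴴ = Yk :=
    rfl
  have e3 : (π k).1 * diagonal (fun i => (Real.exp (-(t * θ k * (π k).2 i)) : ℂ)) * (π k).1ᴴ =
      Yi := by
    rw [hYi, dOp]
    congr 3
    funext i
    congr 3
    ring
  rw [e1, e2, e3] at hpos' ⊢
  set T := (redA (psi e θ Ω n t π ∘ (e k).symm) * ((Yk' - Yk) * Yi)).trace.re with hT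
  rw [FF, FF, hpen] at hmaxi
  have hlog : Real.log (nsq (vv e θ Ω n t π)) + Real.log (1 + 2 * T) ≤
      Real.log (nsq (vv e θ Ω n t π')) := by
    rw [← Real.log_mul hpos.ne' hpos'.ne']
    exact Real.log_le_log (mul_pos hpos hpos') hnsq
  have hgoal : Real.log (1 + 2 * T) ≤ t * (2 * θ k * (1 / K k) *
      ∑ i, (Real.exp (g' i) - Real.exp ((π k).2 i))) := by
    linarith
  refine hgoal.trans (le_of_eq ?_)
  ring

end var

end Vale.Agent.P356.SV
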