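import Vale.Agent.P356.SV.Tilt2

set_option linter.all false

/-!
The energy of the tilted state, and its consequences for projections.
-/

namespace Vale.Agent.P356.SV

open Matrix Finset Vale.Agent.P356 Vale.Agent.P356.Path
open scoped BigOperators ComplexOrder Kronecker

theorem clipf_nonneg {κ m s : ℝ} (hκ : 0 < κ) (hm : 0 ≤ m) : 0 ≤ clipf κ m s := by
  rw [clipf]
  split_ifs with h
  · exact le_rfl
  · exact le_min hm (Real.log_nonneg (by rw [le_div_iff₀ hκ]; linarith))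

theorem clipf_le {κ m s : ℝ} (hm : 0 ≤ m) : clipf κ m s ≤ m := by
  rw [clipf]
  split_ifs with h
  · exact hm
  · exact min_le_left _ _

/-- `clipf` as a clipped logarithm -/
theorem clipf_eq {κ m s : ℝ} (hκ : 0 < κ) (hm : 0 ≤ m) (hs : 0 < s) :
    clipf κ m s = min m (max 0 (Real.log s - Real.log κ)) := by
  rw [clipf]
  split_ifs with h
  · have : Real.log s - Real.log κ ≤ 0 := by
      have := Real.log_le_log hs h
      linarith
    rw [max_eq_left this, min_eq_right hm]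
  · push Not at h
    have : 0 ≤ Real.log s - Real.log κ := by
      have := Real.log_le_log hκ h.le
      linarith
    rw [Real.log_div hs.ne' hκ.ne', max_eq_right this]

theorem clipf_lip {κ m s s' : ℝ} (hκ : 0 < κ) (hm : 0 ≤ m) (hs : 0 < s) (hs' : 0 < s') :
    |clipf κ m s - clipf κ m s'| ≤ |Real.log s - Real.log s'| := by
  rw [clipf_eq hκ hm hs, clipf_eq hκ hm hs']
  set x := Real.log s - Real.log κ
  set y := Real.log s' - Real.log κ
  have h1 : Real.log s - Real.log s' = x - y := by ring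
  rw [h1]
  refine (abs_min_sub_min_le_max _ _ _ _).trans ?_
  rw [sub_self, abs_zero]
  refine max_le (abs_nonneg _) ?_
  refine (abs_max_sub_max_le_max _ _ _ _).trans ?_
  rw [sub_self, abs_zero]
  exact max_le (abs_nonneg _) (le_refl _)

section energy
variable {N : Type} [Fintype N] [DecidableEq N] {α β : ℕ → Type}
  [∀ k, Fintype (α k)] [∀ k, DecidableEq (α k)] [∀ k, Fintype (β k)] [∀ k, DecidableEq (β k)]

/-- outer cuts drop out -/
theorem outer_drop (e : ∀ k, N ≃ α k × β k) (θ : ℕ → ℝ) {π : ∀ k, Par α k} {m : ℝ}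
    (hπ : π ∈ Feas α m) (t : ℝ) (h : Matrix N N ℂ) (u u' : N → ℂ) (k : ℕ)
    (hc : ∀ Y : Matrix (α k) (α k) ℂ, h * opL (e k) Y = opL (e k) Y * h) :
    star (YY e θ π t k *ᵥ u) ⬝ᵥ (h *ᵥ (YY e θ π (-t) k *ᵥ u')) = star u ⬝ᵥ (h *ᵥ u') := by
  have h1 : YY e θ π t k * YY e θ π (-t) k = 1 := mul_eq_one_comm.mp (YY_inv e θ (hπ k).1 t)
  rw [ip_mulVec, YY_herm, mulVec_mulVec, mulVec_mulVec]
  have h2 : h * YY e θ π (-t) k = YY e θ π (-t) k * h := hc _
  rw [Matrix.mul_assoc, h2, ← Matrix.mul_assoc, h1, Matrix.one_mul]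

/-- The energy of the tilted state. -/
theorem energy_bound (e : ∀ k, N ≃ α k × β k)
    (hcomm : ∀ j k, j ≤ k → ∀ (Y : Matrix (α k) (α k) ℂ) (S : Matrix (β j) (β j) ℂ),
      opL (e k) Y * opR (e j) S = opR (e j) S * opL (e k) Y)
    (θ K : ℕ → ℝ) {m t : ℝ} (hm : 0 ≤ m) (hθ0 : ∀ k, 0 < θ k) (hθ1 : ∀ k, θ k ≤ 1 / 4)
    (hK : ∀ k, 0 < K k) (ht : 0 ≤ t) (ht1 : t ≤ 1)
    {H : Matrix N N ℂ} {E : ℝ} {Ω : N → ℂ} (hΩ : nsq Ω = 1) (heig : H *ᵥ Ω = (E : ℂ) • Ω)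
    (n : ℕ) {Z : Type} [Fintype Z] (h : Z → Matrix N N ℂ) (hH : H = ∑ z, h z) (κ : Z → ℕ)
    (hκR : ∀ z j, j < κ z → ∀ S, h z * opR (e j) S = opR (e j) S * h z)
    (hκL : ∀ z j, κ z < j → j < n → ∀ Y, h z * opL (e j) Y = opL (e j) Y * h z)
    (w : Z → ℝ) (hw : ∀ z, κ z < n → CutBound (e (κ z)) (h z) (w z))
    {π : ∀ k, Par α k} (hπ : π ∈ Feas α m)
    (hf : ∀ k < n, HasForm e K m (psi e θ Ω n t π) π k) :
    (star (psi e θ Ω n t π) ⬝ᵥ (H *ᵥ (psi e θ Ω n t π))).re - E ≤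
      9 * ∑ z, if κ z < n then (t * θ (κ z)) ^ 2 * w z else 0 := by
  have hpos := vv_pos e θ hΩ n t hπ
  have hψ1 := nsq_psi e θ hΩ n t hπ
  set ψ := psi e θ Ω n t π with hψ
  set Pψ := prL (YY e θ π t) n *ᵥ ψ with hP
  set Mψ := prL (YY e θ π (-t)) n *ᵥ ψ with hM
  -- the inverse tilt gives the ground state
  have hMΩ : Mψ = (((Real.sqrt (nsq (vv e θ Ω n t π)))⁻¹ : ℝ) : ℂ) • Ω := by
    rw [hM, hψ, psi, mulVec_smul, vv, mulVec_mulVec,
      prL_mul_prR (fun j _ => YY_inv e θ (hπ j).1 t), one_mulVec]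
  have hHM : H *ᵥ Mψ = (E : ℂ) • Mψ := by
    rw [hMΩ, mulVec_smul, heig, smul_comm]
  have hone : star Pψ ⬝ᵥ Mψ = 1 := by
    have := phi_YY e hcomm θ K m t ψ π n hf 1 (fun j _ S => by
      rw [Matrix.mul_one, Matrix.one_mul])
    rw [one_mulVec, one_mulVec] at this
    rw [hP, hM, this, ip_self, hψ1, Complex.ofReal_one]
  have hE : star Pψ ⬝ᵥ (H *ᵥ Mψ) = (E : ℂ) := by
    rw [hHM, dotProduct_smul, hone, smul_eq_mul, mul_one]
  have hterm : ∀ z, (star ψ ⬝ᵥ (h z *ᵥ ψ)).re - (star Pψ ⬝ᵥ (h z *ᵥ Mψ)).re ≤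
      9 * (if κ z < n then (t * θ (κ z)) ^ 2 * w z else 0) := by
    intro z
    by_cases hz : κ z < n
    · rw [if_pos hz]
      -- drop the outer cuts
      have hdrop : ∀ i, κ z + 1 + i ≤ n →
          star (prL (YY e θ π t) (κ z + 1 + i) *ᵥ ψ) ⬝ᵥ
            (h z *ᵥ (prL (YY e θ π (-t)) (κ z + 1 + i) *ᵥ ψ)) =
          star (prL (YY e θ π t) (κ z + 1) *ᵥ ψ) ⬝ᵥ
            (h z *ᵥ (prL (YY e θ π (-t)) (κ z + 1) *ᵥ ψ)) := by
        intro i
        induction i with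
        | zero => intro _; rfl
        | succ i ih =>
          intro hi
          have h1 := ih (by omega)
          rw [← h1]
          rw [show κ z + 1 + (i + 1) = (κ z + 1 + i) + 1 from rfl, prL, prL,
            ← mulVec_mulVec, ← mulVec_mulVec]
          exact outer_drop e θ hπ t (h z) _ _ _ (hκL z _ (by omega) (by omega))
      obtain ⟨i, hi⟩ : ∃ i, n = κ z + 1 + i := ⟨n - (κ z + 1), by omega⟩
      have h2 : star Pψ ⬝ᵥ (h z *ᵥ Mψ) = star (prL (YY e θ π t) (κ z + 1) *ᵥ ψ) ⬝ᵥ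
            (h z *ᵥ (prL (YY e θ π (-t)) (κ z + 1) *ᵥ ψ)) := by
        have h3 := hdrop i (by omega)
        rw [← hi] at h3
        exact h3
      have h4 : star (prL (YY e θ π t) (κ z + 1) *ᵥ ψ) ⬝ᵥ
            (h z *ᵥ (prL (YY e θ π (-t)) (κ z + 1) *ᵥ ψ)) =
          star (YY e θ π t (κ z) *ᵥ ψ) ⬝ᵥ (h z *ᵥ (YY e θ π (-t) (κ z) *ᵥ ψ)) := by
        have h5 := phi_YY e hcomm θ K m t ψ π (κ z) (fun j hj => hf j (hj.trans hz))
          (YY e θ π t (κ z) * h z * YY e θ π (-t) (κ z)) (fun j hj S => by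
            have a1 : YY e θ π t (κ z) * opR (e j) S = opR (e j) S * YY e θ π t (κ z) :=
              hcomm j (κ z) hj.le _ S
            have a2 : YY e θ π (-t) (κ z) * opR (e j) S = opR (e j) S * YY e θ π (-t) (κ z) :=
              hcomm j (κ z) hj.le _ S
            have a3 := hκR z j hj S
            calc YY e θ π t (κ z) * h z * YY e θ π (-t) (κ z) * opR (e j) S =
                YY e θ π t (κ z) * h z * (YY e θ π (-t) (κ z) * opR (e j) S) := by
                  simp only [Matrix.mul_assoc]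
              _ = YY e θ π t (κ z) * (h z * opR (e j) S) * YY e θ π (-t) (κ z) := by
                  rw [a2]; simp only [Matrix.mul_assoc]
              _ = (YY e θ π t (κ z) * opR (e j) S) * h z * YY e θ π (-t) (κ z) := by
                  rw [a3]; simp only [Matrix.mul_assoc]
              _ = _ := by rw [a1]; simp only [Matrix.mul_assoc])
        rw [prL, prL, ← mulVec_mulVec, ← mulVec_mulVec, ip_mulVec, YY_herm, mulVec_mulVec,
          mulVec_mulVec, h5, ip_mulVec, YY_herm, mulVec_mulVec, mulVec_mulVec]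
      rw [h2, h4]
      have h6 := hw z hz ψ hψ1 (t * θ (κ z)) (mul_nonneg ht (hθ0 _).le)
        (by have := hθ1 (κ z); have := hθ0 (κ z); nlinarith)
        (fun i => clipf (1 / K (κ z)) m (eigp (ψ ∘ (e (κ z)).symm) i))
        (fun i j hi hj => clipf_lip (by have := hK (κ z); positivity) hm hi hj)
      have e1 : YY e θ π t (κ z) = opL (e (κ z)) (fOp (ψ ∘ (e (κ z)).symm)
          (fun i => Real.exp (t * θ (κ z) *
            clipf (1 / K (κ z)) m (eigp (ψ ∘ (e (κ z)).symm) i)))) := by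
        rw [YY, hf (κ z) hz (fun r => Real.exp (t * θ (κ z) * r))]
      have e2 : YY e θ π (-t) (κ z) = opL (e (κ z)) (fOp (ψ ∘ (e (κ z)).symm)
          (fun i => Real.exp (-(t * θ (κ z) *
            clipf (1 / K (κ z)) m (eigp (ψ ∘ (e (κ z)).symm) i))))) := by
        rw [YY, hf (κ z) hz (fun r => Real.exp (-t * θ (κ z) * r))]
        congr 2
        funext i
        congr 1
        ring
      rw [e1, e2]
      linarith
    · rw [if_neg hz, mul_zero]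
      have h1 := phi_YY e hcomm θ K m t ψ π n hf (h z) (fun j hj S =>
        hκR z j (lt_of_lt_of_le hj (not_lt.mp hz)) S)
      rw [hP, hM, h1, sub_self]
  have hsum1 : (star ψ ⬝ᵥ (H *ᵥ ψ)).re = ∑ z, (star ψ ⬝ᵥ (h z *ᵥ ψ)).re := by
    rw [hH, Matrix.sum_mulVec, dotProduct_sum, Complex.re_sum]
  have hsum2 : E = ∑ z, (star Pψ ⬝ᵥ (h z *ᵥ Mψ)).re := by
    have h1 := congrArg Complex.re hE
    rw [Complex.ofReal_re] at h1
    rw [← h1, hH, Matrix.sum_mulVec, dotProduct_sum, Complex.re_sum]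
  rw [hsum1]
  conv_lhs => rw [hsum2]
  rw [← Finset.sum_sub_distrib, Finset.mul_sum]
  exact Finset.sum_le_sum fun z _ => hterm z

/-- A state of low energy gives weight at most `1/4` to a projection of weight `1/16` in the
ground state. -/
theorem weight_bound {N : Type*} [Fintype N] [DecidableEq N] {H : Matrix N N ℂ} {E Δ : ℝ}
    {Ω ψ : N → ℂ} (hΔ : 0 < Δ)
    (hg : Gapped H E Ω Δ) (hψ : nsq ψ = 1)
    (hE : (star ψ ⬝ᵥ (H *ᵥ ψ)).re - E ≤ Δ / 32) (Q : Matrix N N ℂ) (hQ : Contr Q)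
    (hQΩ : nsq (Q *ᵥ Ω) ≤ 1 / 16) : nsq (Q *ᵥ ψ) ≤ 1 / 4 := by
  have hΩ : nsq Ω = 1 := hg.unit
  set c : ℂ := star Ω ⬝ᵥ ψ with hc
  have hgap := hg.gap ψ
  have hψ' : ∑ i, ‖ψ i‖ ^ 2 = 1 := hψ
  rw [hψ', mul_one, ← hc] at hgap
  have h1 : 1 - ‖c‖ ^ 2 ≤ 1 / 32 := by
    have h2 : Δ * (1 - ‖c‖ ^ 2) ≤ Δ * (1 / 32) := by
      calc Δ * (1 - ‖c‖ ^ 2) ≤ _ := hgap
        _ ≤ Δ / 32 := hE
        _ = Δ * (1 / 32) := by ring
    exact le_of_mul_le_mul_left h2 hΔ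
  have hc1 : ‖c‖ ≤ 1 := norm_ip_le_one hΩ hψ
  have hdec : ψ = c • Ω + (ψ - c • Ω) := by abel
  have hort : star (c • Ω) ⬝ᵥ (ψ - c • Ω) = 0 := by
    rw [dotProduct_sub, star_smul, smul_dotProduct, ← hc, smul_dotProduct, dotProduct_smul,
      ip_self, hΩ, Complex.ofReal_one]
    simp
  have hrest : nsq (ψ - c • Ω) = 1 - ‖c‖ ^ 2 := by
    have h2 := nsq_add (c • Ω) (ψ - c • Ω)
    rw [← hdec, hort, nsq_smul, hΩ, hψ] at h2
    simp at h2
    linarith
  have h3 : nrm (ψ - c • Ω) ≤ 1 / 5 := by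
    rw [nrm, hrest]
    rw [Real.sqrt_le_left (by norm_num)]
    linarith
  have h4 : nrm (Q *ᵥ Ω) ≤ 1 / 4 := by
    rw [nrm, Real.sqrt_le_left (by norm_num)]
    linarith
  have h5 : nrm (Q *ᵥ ψ) ≤ 1 / 4 + 1 / 5 := by
    conv_lhs => rw [hdec]
    rw [mulVec_add, mulVec_smul]
    refine (nrm_add_le _ _).trans (add_le_add ?_ ((contr_nrm hQ _).trans h3))
    rw [nrm_smul]
    calc ‖c‖ * nrm (Q *ᵥ Ω) ≤ 1 * nrm (Q *ᵥ Ω) :=
          mul_le_mul_of_nonneg_right hc1 (nrm_nonneg _)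
      _ ≤ 1 / 4 := by rw [one_mul]; exact h4
  have h6 := nrm_nonneg (Q *ᵥ ψ)
  rw [← nrm_sq]
  nlinarith

end energy

end Vale.Agent.P356.SV
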