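import Vale.Agent.P356.SV.Tilt3
import Mathlib.Analysis.Calculus.MeanValue
import Mathlib.Analysis.InnerProductSpace.Calculus
import Mathlib.Analysis.SpecialFunctions.Log.Deriv
import Mathlib.Analysis.SpecialFunctions.ExpDeriv

set_option linter.all false

/-!
The derivative of the functional in the tilt parameter.
-/

namespace Vale.Agent.P356.SV

open Matrix Finset Vale.Agent.P356 Vale.Agent.P356.Path
open scoped BigOperators ComplexOrder Kronecker

section md
variable {N : Type*} [Fintype N] [DecidableEq N]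

/-- entrywise derivative of a matrix valued function -/
def MD (A : ℝ → Matrix N N ℂ) (A' : Matrix N N ℂ) (t : ℝ) : Prop :=
  ∀ i j, HasDerivAt (fun s => A s i j) (A' i j) t

theorem MD_mul {A B : ℝ → Matrix N N ℂ} {A' B' : Matrix N N ℂ} {t : ℝ}
    (hA : MD A A' t) (hB : MD B B' t) : MD (fun s => A s * B s) (A' * B t + A t * B') t := by
  intro i j
  have h1 : (fun s => (A s * B s) i j) = fun s => ∑ k, A s i k * B s k j := by
    funext s
    rw [Matrix.mul_apply]
  rw [h1, Matrix.add_apply, Matrix.mul_apply, Matrix.mul_apply, ← Finset.sum_add_distrib]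
  exact HasDerivAt.fun_sum (fun k _ => (hA i k).mul (hB k j))

theorem MD_const (A : Matrix N N ℂ) (t : ℝ) : MD (fun _ => A) 0 t := fun i j => by
  rw [Matrix.zero_apply]
  exact hasDerivAt_const t (A i j)

/-- derivative of an ordered product -/
theorem MD_prR (Y : ℝ → ℕ → Matrix N N ℂ) (Z : ℕ → Matrix N N ℂ) (G : ℕ → Matrix N N ℂ) (t : ℝ)
    (hY : ∀ k, MD (fun s => Y s k) (G k * Y t k) t) (hZ : ∀ k, Z k * Y t k = 1) (n : ℕ) :
    MD (fun s => prR (Y s) n)
      ((∑ k ∈ range n, prR (Y t) k * G k * prL Z k) * prR (Y t) n) t := by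
  induction n with
  | zero =>
    simp only [Finset.range_zero, Finset.sum_empty, Matrix.zero_mul, prR]
    exact MD_const 1 t
  | succ n ih =>
    have h1 := MD_mul ih (hY n)
    have h2 : (fun s => prR (Y s) n * Y s n) = fun s => prR (Y s) (n + 1) := rfl
    rw [h2] at h1
    refine (fun i j => (h1 i j).congr_deriv ?_)
    refine congrFun (congrFun ?_ i) j
    rw [Finset.sum_range_succ, Matrix.add_mul, prR]
    have h3 : prL Z n * prR (Y t) n = 1 := prL_mul_prR (fun j _ => hZ j)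
    refine congrArg₂ (· + ·) ?_ ?_
    · simp only [Matrix.mul_assoc]
    · symm
      calc prR (Y t) n * G n * prL Z n * (prR (Y t) n * Y t n) =
          prR (Y t) n * G n * (prL Z n * prR (Y t) n) * Y t n := by
            simp only [Matrix.mul_assoc]
        _ = prR (Y t) n * (G n * Y t n) := by rw [h3, Matrix.mul_one, Matrix.mul_assoc]

/-- derivative of the squared norm of a vector valued function -/
theorem hasDerivAt_nsq {A : ℝ → Matrix N N ℂ} {A' : Matrix N N ℂ} {t : ℝ}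
    (hA : MD A A' t) (Ω : N → ℂ) :
    HasDerivAt (fun s => nsq (A s *ᵥ Ω)) (2 * (star (A t *ᵥ Ω) ⬝ᵥ (A' *ᵥ Ω)).re) t := by
  have h1 : ∀ i, HasDerivAt (fun s => (A s *ᵥ Ω) i) ((A' *ᵥ Ω) i) t := by
    intro i
    exact HasDerivAt.fun_sum (fun j _ => (hA i j).mul_const (Ω j))
  have h3 : ∀ i, HasDerivAt (fun s => ‖(A s *ᵥ Ω) i‖ ^ 2)
      (2 * (star ((A t *ᵥ Ω) i) * (A' *ᵥ Ω) i).re) t := by
    intro i
    have h4 := (h1 i).norm_sq
    refine h4.congr_deriv ?_
    rw [Complex.inner, mul_comm ((A' *ᵥ Ω) i)]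
    rfl
  have h5 : HasDerivAt (fun s => ∑ i : N, ‖(A s *ᵥ Ω) i‖ ^ 2)
      (∑ i : N, 2 * (star ((A t *ᵥ Ω) i) * (A' *ᵥ Ω) i).re) t :=
    HasDerivAt.fun_sum (fun i _ => h3 i)
  refine h5.congr_deriv ?_
  rw [dotProduct, Complex.re_sum, Finset.mul_sum]
  rfl

end md

section der
variable {N : Type} [Fintype N] [DecidableEq N] {α β : ℕ → Type}
  [∀ k, Fintype (α k)] [∀ k, DecidableEq (α k)] [∀ k, Fintype (β k)] [∀ k, DecidableEq (β k)]

theorem MD_YY (e : ∀ k, N ≃ α k × β k) (θ : ℕ → ℝ) {π : ∀ k, Par α k} {k : ℕ}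
    (hπ : (π k).1 * (π k).1ᴴ = 1) (t : ℝ) :
    MD (fun s => YY e θ π s k)
      (opL (e k) (dOp (π k).1 (fun i => θ k * (π k).2 i)) * YY e θ π t k) t := by
  rw [YY, ← opL_mul, dOp_mul hπ]
  intro i j
  have h1 : (fun s => YY e θ π s k i j) = fun s =>
      (∑ l, (π k).1 ((e k) i).1 l * (Real.exp (s * θ k * (π k).2 l) : ℂ) *
        star ((π k).1 ((e k) j).1 l)) * (if ((e k) i).2 = ((e k) j).2 then 1 else 0) := by
    funext s
    rw [YY, opL_apply, dOp_apply]
  rw [h1, opL_apply, dOp_apply]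
  refine HasDerivAt.mul_const ?_ _
  have h2 : HasDerivAt (fun s : ℝ => ∑ l : α k, (π k).1 ((e k) i).1 l *
      (Real.exp (s * θ k * (π k).2 l) : ℂ) * star ((π k).1 ((e k) j).1 l))
      (∑ l : α k, (π k).1 ((e k) i).1 l *
        ((θ k * (π k).2 l * Real.exp (t * θ k * (π k).2 l) : ℝ) : ℂ) *
        star ((π k).1 ((e k) j).1 l)) t := by
    refine HasDerivAt.fun_sum (fun l _ => ?_)
    refine HasDerivAt.mul_const (HasDerivAt.const_mul _ ?_) _
    have h3 : HasDerivAt (fun s : ℝ => Real.exp (s * θ k * (π k).2 l))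
        (θ k * (π k).2 l * Real.exp (t * θ k * (π k).2 l)) t := by
      have h4 : HasDerivAt (fun s : ℝ => s * θ k * (π k).2 l) (θ k * (π k).2 l) t := by
        have h5 : (fun s : ℝ => s * θ k * (π k).2 l) = fun s => s * (θ k * (π k).2 l) := by
          funext s
          ring
        rw [h5]
        simpa using (hasDerivAt_id t).mul_const (θ k * (π k).2 l)
      have h6 := h4.exp
      refine h6.congr_deriv ?_
      ring
    exact h3.ofReal_comp
  exact h2

/-- The derivative of the functional at a maximiser. -/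
theorem FF_deriv (e : ∀ k, N ≃ α k × β k)
    (hcomm : ∀ j k, j ≤ k → ∀ (Y : Matrix (α k) (α k) ℂ) (S : Matrix (β j) (β j) ℂ),
      opL (e k) Y * opR (e j) S = opR (e j) S * opL (e k) Y)
    (θ K : ℕ → ℝ) {m t : ℝ} {Ω : N → ℂ} (hΩ : nsq Ω = 1) (n : ℕ) {π : ∀ k, Par α k}
    (hπ : π ∈ Feas α m) (hf : ∀ k < n, HasForm e K m (psi e θ Ω n t π) π k) :
    HasDerivAt (fun s => FF e θ K Ω n s π)
      (2 * ∑ k ∈ range n, θ k * ∑ i, eigp (psi e θ Ω n t π ∘ (e k).symm) i *
        clipf (1 / K k) m (eigp (psi e θ Ω n t π ∘ (e k).symm) i) - pen θ K n π) t := by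
  have hpos := vv_pos e θ hΩ n t hπ
  have h1 := MD_prR (fun s k => YY e θ π s k) (fun k => YY e θ π (-t) k)
    (fun k => opL (e k) (dOp (π k).1 (fun i => θ k * (π k).2 i))) t
    (fun k => MD_YY e θ (hπ k).1 t) (fun k => YY_inv e θ (hπ k).1 t) n
  have h2 := hasDerivAt_nsq h1 Ω
  have h3 : HasDerivAt (fun s => Real.log (nsq (vv e θ Ω n s π)))
      ((2 * (star (vv e θ Ω n t π) ⬝ᵥ
        (((∑ k ∈ range n, prR (YY e θ π t) k *
          opL (e k) (dOp (π k).1 (fun i => θ k * (π k).2 i)) * prL (YY e θ π (-t)) k) *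
          prR (YY e θ π t) n) *ᵥ Ω)).re) / nsq (vv e θ Ω n t π)) t := h2.log hpos.ne'
  have h4 : HasDerivAt (fun s : ℝ => s * pen θ K n π) (pen θ K n π) t := by
    simpa using (hasDerivAt_id t).mul_const (pen θ K n π)
  have h5 := h3.sub h4
  refine h5.congr_deriv ?_
  refine congrArg₂ (· - ·) ?_ rfl
  rw [div_eq_iff hpos.ne']
  have h6 : ((∑ k ∈ range n, prR (YY e θ π t) k *
      opL (e k) (dOp (π k).1 (fun i => θ k * (π k).2 i)) * prL (YY e θ π (-t)) k) *
      prR (YY e θ π t) n) *ᵥ Ω = ∑ k ∈ range n, prR (YY e θ π t) k *ᵥ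
      (opL (e k) (dOp (π k).1 (fun i => θ k * (π k).2 i)) *ᵥ
        (prL (YY e θ π (-t)) k *ᵥ (vv e θ Ω n t π))) := by
    rw [← mulVec_mulVec, Matrix.sum_mulVec]
    refine Finset.sum_congr rfl fun k _ => ?_
    rw [← mulVec_mulVec, ← mulVec_mulVec]
    rfl
  rw [h6, dotProduct_sum, Complex.re_sum]
  have h7 : ∀ k ∈ range n, (star (vv e θ Ω n t π) ⬝ᵥ (prR (YY e θ π t) k *ᵥ
      (opL (e k) (dOp (π k).1 (fun i => θ k * (π k).2 i)) *ᵥ
        (prL (YY e θ π (-t)) k *ᵥ (vv e θ Ω n t π))))).re =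
      nsq (vv e θ Ω n t π) * (θ k * ∑ i, eigp (psi e θ Ω n t π ∘ (e k).symm) i *
        clipf (1 / K k) m (eigp (psi e θ Ω n t π ∘ (e k).symm) i)) := by
    intro k hk
    have hkn := Finset.mem_range.mp hk
    have h8 := phi_vv e hcomm θ K m t hΩ n hπ k (fun j hj => hf j (hj.trans hkn))
      (opL (e k) (dOp (π k).1 (fun i => θ k * (π k).2 i))) (fun j hj S => hcomm j k hj.le _ S)
    have h9 : (prL (YY e θ π t) k)ᴴ = prR (YY e θ π t) k := by
      have h4 := prR_conjTranspose (YY e θ π t) k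
      simp only [YY_herm] at h4
      rw [← h4, conjTranspose_conjTranspose]
    rw [← h9, ← ip_mulVec, h8, Complex.re_ofReal_mul, expect_opL, hf k hkn (fun r => θ k * r),
      trace_redA_fOp, Complex.ofReal_re]
    refine congrArg₂ (· * ·) rfl ?_
    rw [Finset.mul_sum]
    refine Finset.sum_congr rfl fun i _ => ?_
    ring
  have h10 := Finset.sum_congr (rfl : range n = range n) h7
  rw [← Finset.mul_sum] at h10
  first
    | (rw [h10]; ring)
    | (rw [← h10]; ring)
    | (linarith [h10])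

end der

end Vale.Agent.P356.SV
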